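import Crest.Agent.N207.L.Defs
import Crest.Agent.N207.J.Re5

/-! # N207/L/Br1 (helper72): solutions on real straight pieces are `C²` solutions on annuli -/

set_option autoImplicit false
set_option maxHeartbeats 400000
set_option linter.unusedSectionVars false
open Set Filter Topology MeasureTheory
open Crest.Agent.R246.Zon797 (Pr)

noncomputable section

namespace Crest.Agent.N207.L
open J

theorem hasDerivAt_of_right {V : Type*} [NormedAddCommGroup V] [NormedSpace ℝ V] [CompleteSpace V]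
    {v G : ℝ → V} {I : Set ℝ} (hI : IsOpen I) (hv : ContinuousOn v I) (hG : ContinuousOn G I)
    (h : ∀ x ∈ I, HasDerivWithinAt v (G x) (Ici x) x) {x : ℝ} (hx : x ∈ I) :
    HasDerivAt v (G x) x := by
  obtain ⟨δ, hδ, hb⟩ := Metric.isOpen_iff.1 hI x hx
  have hs : ∀ y ∈ Metric.ball x δ, uIcc x y ⊆ I := fun y hy =>
    ((convex_ball x δ).ordConnected.uIcc_subset (Metric.mem_ball_self hδ) hy).trans hb
  have h1 := (intervalIntegral.integral_hasDerivAt_right (a := x) (b := x) (f := G) (by simp)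
    (hG.stronglyMeasurableAtFilter hI x hx) (hG.continuousAt (hI.mem_nhds hx))).const_add (v x)
  refine h1.congr_of_eventuallyEq ?_
  filter_upwards [Metric.ball_mem_nhds x hδ] with y hy
  rw [intervalIntegral.integral_eq_sub_of_hasDeriv_right (hv.mono (hs y hy))
    (fun z hz => (h z (hs y hy (Ioo_subset_Icc_self hz))).mono Ioi_subset_Ici_self)
    (hG.mono (hs y hy)).intervalIntegrable]
  abel

/-- absolutely summable mode families on `I` -/
def Mb (I : Set ℝ) (n : ℕ) (M : ℝ) (f : Md) : Prop :=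
  (∀ k, ∀ x ∈ I, P k (f k x) = f k x) ∧ ∃ c : ℕ → ℝ, Summable c ∧ ∑' k, c k ≤ M ∧ (∀ k, 0 ≤ c k) ∧
    ∀ k : ℕ, ∀ x ∈ I, ((k : ℝ) + 1) ^ n * ‖f k x‖ ≤ c k

variable {I : Set ℝ} {n : ℕ} {M M' : ℝ} {f g : Md}

theorem Mb.mono (h : Mb I n M f) {m : ℕ} (hm : m ≤ n) (hM : M ≤ M') : Mb I m M' f := by
  obtain ⟨h0, c, h1, h2, h3, h4⟩ := h
  refine ⟨h0, c, h1, h2.trans hM, h3, fun k t ht => le_trans ?_ (h4 k t ht)⟩
  exact mul_le_mul_of_nonneg_right
    (pow_le_pow_right₀ (by linarith [(Nat.cast_nonneg k : (0 : ℝ) ≤ k)]) hm) (norm_nonneg _)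

theorem Mb.add (h : Mb I n M f) (h' : Mb I n M' g) :
    Mb I n (M + M') fun k x => f k x + g k x := by
  obtain ⟨h0, c, h1, h2, h3, h4⟩ := h
  obtain ⟨k0, d, k1, k2, k3, k4⟩ := h'
  refine ⟨fun k x hx => by rw [map_add, h0 k x hx, k0 k x hx], fun k => c k + d k, h1.add k1,
    by rw [h1.tsum_add k1]; linarith, fun k => add_nonneg (h3 k) (k3 k), fun k t ht => ?_⟩
  refine (mul_le_mul_of_nonneg_left (norm_add_le _ _) (by positivity)).trans ?_
  rw [mul_add]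
  exact add_le_add (h4 k t ht) (k4 k t ht)

theorem Mb.mul {j : ℕ} (h : Mb I (n + j) M f) (m : ℕ → ℂ) {B : ℝ} (hB : 0 ≤ B)
    (hm : ∀ k : ℕ, ‖m k‖ ≤ B * ((k : ℝ) + 1) ^ j) : Mb I n (B * M) fun k x => m k • f k x := by
  obtain ⟨h0, c, h1, h2, h3, h4⟩ := h
  refine ⟨fun k x hx => by rw [map_smul, h0 k x hx], fun k => B * c k, h1.mul_left _, ?_,
    fun k => mul_nonneg hB (h3 k), fun k t ht => ?_⟩
  · rw [tsum_mul_left]; exact mul_le_mul_of_nonneg_left h2 hB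
  · refine le_trans ?_ (mul_le_mul_of_nonneg_left (h4 k t ht) hB)
    rw [norm_smul, pow_add]
    calc _ ≤ ((k : ℝ) + 1) ^ n * (B * ((k : ℝ) + 1) ^ j * ‖f k t‖) := by gcongr; exact hm k
      _ = _ := by ring

theorem Mb.hasSum (h : Mb I (n + 2) M f) {x : ℝ} (hx : x ∈ I) :
    HasSum (fun k => Pc k (f k x)) (val f x) := by
  obtain ⟨h0, c, h1, -, -, h4⟩ := h.mono (m := 2) (by omega) le_rfl
  refine (summable_E (fun k => Pc_memV k _) (Summable.of_nonneg_of_le (fun _ => by positivity)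
    (fun k => ?_) h1)).hasSum
  rw [toH_Pc, h0 k x hx]; exact h4 k x hx

theorem Mb.P_val (h : Mb I (n + 2) M f) {x : ℝ} (hx : x ∈ I) (k : ℕ) :
    P k (toH (val f x)) = f k x := by
  rw [← toH_Pc, Pc_of_hasSum (fun k => Pc_mem k _) (h.hasSum hx), toH_Pc, h.1 k x hx]

theorem Mb.ub (h : Mb I (n + 2) M f) : Ub I (n + 2) M (val f) := by
  have hP := fun x hx => h.P_val (x := x) hx
  obtain ⟨-, c, h1, h2, h3, h4⟩ := h
  exact ⟨c, h1, h2, h3, fun k x hx => by rw [hP x hx]; exact h4 k x hx⟩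

theorem Bd.mb {w om : ℝ → ℝ} {η G : ℝ} (h : Bd (n + 1) w om f η) (hG : 0 ≤ G)
    (hw : ∀ x ∈ I, |w x| ≤ G) (ho : ∀ x ∈ I, |om x| ≤ 1) : Mb I n (2 * (η * G)) f := by
  obtain ⟨c, h1, h2⟩ := h.bd
  have hη := h.nn
  obtain ⟨s1, s2⟩ := summable_of_sq (a := fun k => |c k| * G / ((k : ℝ) + 1))
    (fun k => by positivity) (C := η * G) (by positivity) fun s => by
      have e : ∀ k : ℕ, (((k : ℝ) + 1) * (|c k| * G / ((k : ℝ) + 1))) ^ 2 = c k ^ 2 * G ^ 2 :=
        fun k => by rw [mul_div_cancel₀ _ (by positivity), mul_pow, sq_abs]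
      simp only [e, ← Finset.sum_mul, mul_pow]
      exact mul_le_mul_of_nonneg_right (h1 s) (sq_nonneg _)
  refine ⟨fun k x _ => h.mode k x, _, s1, s2, fun k => by positivity, fun k x hx => ?_⟩
  rw [le_div_iff₀ (by positivity), mul_right_comm, ← pow_succ, ← wt_nat]
  refine (h2 k x).trans ((le_abs_self _).trans ?_)
  rw [abs_mul, abs_mul, abs_pow]
  exact mul_le_mul_of_nonneg_left ((mul_le_of_le_one_right (abs_nonneg _)
    (pow_le_one₀ (abs_nonneg _) (ho x hx))).trans (hw x hx)) (abs_nonneg _)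

theorem norm_k_le (k : ℕ) : ‖(k : ℂ)‖ ≤ 1 * ((k : ℝ) + 1) ^ 1 := by simp

theorem norm_k2_le (k : ℕ) : ‖((k : ℂ) + 2)‖ ≤ 2 * ((k : ℝ) + 1) ^ 1 := by
  refine (norm_add_le _ _).trans ?_
  simp only [Complex.norm_natCast, Complex.norm_ofNat]
  linarith [(Nat.cast_nonneg k : (0 : ℝ) ≤ k)]

variable {p q F : Md}

theorem mb_dt0 (hp : Mb I n M p) (hq : Mb I n M q) : Mb I n (6 * M) (dt p q F 0) := by
  have : 0 ≤ M := by obtain ⟨-, c, -, h2, h3, -⟩ := hp; exact (tsum_nonneg h3).trans h2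
  exact (hp.add hq).mono le_rfl (by linarith)

theorem mb_dt1 (hp : Mb I (n + 1) M p) (hq : Mb I (n + 1) M q) : Mb I n (6 * M) (dt p q F 1) := by
  have : 0 ≤ M := by obtain ⟨-, c, -, h2, h3, -⟩ := hp; exact (tsum_nonneg h3).trans h2
  have h := (hp.mul (fun k => (k : ℂ)) zero_le_one norm_k_le).add
    (hq.mul (fun k => -((k : ℂ) + 2)) zero_le_two fun k => by rw [norm_neg]; exact norm_k2_le k)
  simp only [neg_smul, ← sub_eq_add_neg] at h
  exact h.mono le_rfl (by linarith)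

theorem mb_dt2 (hp : Mb I (n + 2) M p) (hq : Mb I (n + 2) M q) (hF : Mb I n M F) :
    Mb I n (6 * M) (dt p q F 2) :=
  (((hp.mul (fun k => (k : ℂ) ^ 2) zero_le_one fun k => by
      rw [norm_pow, one_mul]; exact pow_le_pow_left₀ (norm_nonneg _) (by simp) 2).add
    (hq.mul (fun k => ((k : ℂ) + 2) ^ 2) (B := 4) (by norm_num) fun k => by
      rw [norm_pow]
      exact (pow_le_pow_left₀ (norm_nonneg _) (norm_k2_le k) 2).trans (le_of_eq (by ring)))).add
    hF).mono le_rfl (by linarith)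

/-- the mode equations on `I` along the real straight path -/
structure Str (I : Set ℝ) (p q F : Md) : Prop where
  dp : ∀ k, ∀ x ∈ I, HasDerivAt (p k) ((k : ℂ) • p k x + (2 * (k : ℂ) + 2)⁻¹ • F k x) x
  dq : ∀ k, ∀ x ∈ I, HasDerivAt (q k) (-((k : ℂ) + 2) • q k x - (2 * (k : ℂ) + 2)⁻¹ • F k x) x
  cF : ∀ k, ContinuousOn (F k) I

theorem Str.d0 (h : Str I p q F) (k : ℕ) {x : ℝ} (hx : x ∈ I) :
    HasDerivAt (dt p q F 0 k) (dt p q F 1 k x) x :=
  ((h.dp k x hx).add (h.dq k x hx)).congr_deriv (by simp only [dt]; module)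

theorem Str.d1 (h : Str I p q F) (k : ℕ) {x : ℝ} (hx : x ∈ I) :
    HasDerivAt (dt p q F 1 k) (dt p q F 2 k x) x := by
  refine (((h.dp k x hx).const_smul (k : ℂ)).sub
    ((h.dq k x hx).const_smul ((k : ℂ) + 2))).congr_deriv ?_
  have := two_k_ne k
  simp only [dt]
  match_scalars <;> field_simp
  ring

theorem Str.c2 (h : Str I p q F) (k : ℕ) : ContinuousOn (dt p q F 2 k) I := by
  have c1 : ContinuousOn (p k) I := fun x hx => (h.dp k x hx).continuousAt.continuousWithinAt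
  have c2 : ContinuousOn (q k) I := fun x hx => (h.dq k x hx).continuousAt.continuousWithinAt
  exact (((c1.const_smul ((k : ℂ) ^ 2)).add (c2.const_smul (((k : ℂ) + 2) ^ 2))).add
    (h.cF k)).congr fun x _ => by simp only [dt, Pi.add_apply, Pi.smul_apply]

/-- `u, u', u''` as a chain, with the path parameter `x = t - c` -/
def vl (c : ℝ) (p q F : Md) : ℕ → ℝ → CS
  | 0 => fun t => val (dt p q F 0) (t - c)
  | 1 => fun t => val (dt p q F 1) (t - c)
  | _ => fun t => val (dt p q F 2) (t - c)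

/-- the function on the annulus -/
def fn (c : ℝ) (p q : Md) : E4 → ℂ := ann fun t => val (fun k x => p k x + q k x) (t - c)

theorem Ub.shift {u : ℝ → CS} (h : Ub I n M u) (c : ℝ) :
    Ub ((· - c) ⁻¹' I) n M fun t => u (t - c) := by
  obtain ⟨d, h1, h2, h3, h4⟩ := h
  exact ⟨d, h1, h2, h3, fun k t ht => h4 k _ ht⟩

theorem Str.ch (h : Str I p q F) (hI : IsOpen I) (hp : Mb I (n + 4) M p) (hq : Mb I (n + 4) M q)
    (hF : Mb I (n + 2) M F) (c : ℝ) : Ch ((· - c) ⁻¹' I) 2 (6 * M) (vl c p q F) := by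
  have m0 := mb_dt0 (F := F) hp hq
  have m1 := mb_dt1 (F := F) hp hq
  have m2 := mb_dt2 hp hq hF
  have hI' : IsOpen ((· - c) ⁻¹' I) := hI.preimage (by fun_prop)
  refine Ch.of_modes hI' (fun j hj => ?_) (fun k => ?_) fun j hj k t ht => ?_
  · interval_cases j
    · exact (Ub.shift (m0.ub (n := n + 2)) c).le (by omega)
    · exact (Ub.shift (m1.ub (n := n + 1)) c).le (by omega)
    · exact (Ub.shift m2.ub c).le (by omega)
  · exact ((h.c2 k).comp (f := fun t => t - c) (by fun_prop) fun _ ht => ht).congr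
      fun t ht => m2.P_val ht k
  · interval_cases j
    · have := (h.d0 k ht).comp_sub_const t c
      rw [← m1.P_val (n := n + 1) ht] at this
      refine this.congr_of_eventuallyEq ?_
      filter_upwards [hI'.mem_nhds ht] with s hs using m0.P_val (n := n + 2) hs k
    · have := (h.d1 k ht).comp_sub_const t c
      rw [← m2.P_val ht] at this
      refine this.congr_of_eventuallyEq ?_
      filter_upwards [hI'.mem_nhds ht] with s hs using m1.P_val (n := n + 1) hs k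

/-- Cartesian jets of one function -/
def cj1 (U : E4 → ℂ) (x : E4) : Jx → ℂ
  | none => U x
  | some (.inl a) => ((‖x‖ : ℝ) : ℂ) * fderiv ℝ U x (ee a)
  | some (.inr e) => ((‖x‖ : ℝ) : ℂ) ^ 2 * fderiv ℝ (fun y => fderiv ℝ U y (ee e.2)) x (ee e.1)

theorem cj_inr (U U1 U2 : CS) (e : Fin 4 × Fin 4) :
    cj U U1 U2 (some (.inr e)) = J2 e.1 e.2 U U1 U2 := by
  show J1 e.1 (J1 e.2 U U1) (J1 e.2 U1 U2) - xc e.1 * J1 e.2 U U1 = _
  rw [J2, J1]; ring

theorem Ch.cj {N : ℕ} {u : ℕ → ℝ → CS} (hI : IsOpen I) (h : Ch I (N + 2) M u) {x : E4}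
    (hx : x ∈ An I) (j : Jx) :
    cj (u 0 (Real.log ‖x‖)) (u 1 (Real.log ‖x‖)) (u 2 (Real.log ‖x‖)) j (prj x)
      = cj1 (ann (u 0)) x j := by
  rcases j with _ | a | e
  · rfl
  · exact (h.jet1 hx a).symm
  · rw [cj_inr]; exact (h.jet2 hI hx e.1 e.2).symm

theorem Str.lap (h : Str I p q F) (hI : IsOpen I) (hp : Mb I (n + 4) M p) (hq : Mb I (n + 4) M q)
    (hF : Mb I (n + 2) M F) (c : ℝ) {x : E4} (hx : x ∈ An ((· - c) ⁻¹' I)) :
    Lp2 (fn c p q) x = val F (Real.log ‖x‖ - c) (prj x) := by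
  have hI' : IsOpen ((· - c) ⁻¹' I) := hI.preimage (by fun_prop)
  have hc := h.ch hI hp hq hF c
  have m0 := mb_dt0 (F := F) hp hq
  have m1 := mb_dt1 (F := F) hp hq
  have m2 := mb_dt2 hp hq hF
  have s0 : Sb (n + 1 + 3) _ := (m0.ub (n := n + 2)).sb hx.2
  have s1 : Sb (n + 3) _ := (m1.ub (n := n + 1)).sb hx.2
  have e1 := sum_J2 (val (dt p q F 2) (Real.log ‖x‖ - c)) s0 s1
  have e2 : val (dt p q F 2) (Real.log ‖x‖ - c) + 2 * val (dt p q F 1) (Real.log ‖x‖ - c) +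
      Lap (val (dt p q F 0) (Real.log ‖x‖ - c)) = val F (Real.log ‖x‖ - c) := by
    refine toH_inj (ext_P fun k => ?_)
    have e3 := natCS 2 (val (dt p q F 1) (Real.log ‖x‖ - c))
    push_cast at e3
    rw [← e3, map_add, map_add, map_add, map_add, map_smul, map_smul, Lap,
      P_sum_HR (fun a => s0.HR a) (fun a => (s0.R a).HR a), m0.P_val (n := n + 2) hx.2,
      m1.P_val (n := n + 1) hx.2, m2.P_val hx.2, hF.P_val hx.2]
    simp only [dt]
    push_cast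
    module
  rw [← e2, ← e1, Lp2, Finset.mul_sum, ContinuousMap.coe_sum, Finset.sum_apply]
  exact Finset.sum_congr rfl fun i _ => hc.jet2 hI' hx i i

variable {ι : Type} [Fintype ι]

/-- Cartesian jets `U`, `r ∂_a U`, `r² ∂_a ∂_b U` -/
def cjet (U : ι → E4 → ℂ) (x : E4) : ι × Jx → ℂ := fun j => cj1 (U j.1) x j.2

section Sol
variable {N : NL ι} {τ : ℝ → ℂ} {w om : ℝ → ℝ} {η G : ℝ} {p q F : ι → Md}

theorem Sol.str (h : Sol N τ w om η p q F) (hI : IsOpen I) (hτ : ∀ x ∈ I, τ x = 1) (i : ι) :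
    Str I (p i) (q i) (F i) := by
  have c1 := (h.bp i).cont
  have c2 := (h.bq i).cont
  have c3 := (h.bF i).cont
  refine ⟨fun k x hx => ?_, fun k x hx => ?_, fun k => (c3 k).continuousOn⟩
  · refine hasDerivAt_of_right (G := fun x => (k : ℂ) • p i k x + (2 * (k : ℂ) + 2)⁻¹ • F i k x)
      hI (c1 k).continuousOn (((c1 k).const_smul (k : ℂ)).add
        ((c3 k).const_smul (2 * (k : ℂ) + 2)⁻¹)).continuousOn (fun x hx => ?_) hx
    simpa only [hτ x hx, one_smul] using h.dp i k x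
  · refine hasDerivAt_of_right
      (G := fun x => -((k : ℂ) + 2) • q i k x - (2 * (k : ℂ) + 2)⁻¹ • F i k x)
      hI (c2 k).continuousOn (((c2 k).const_smul (-((k : ℂ) + 2))).sub
        ((c3 k).const_smul (2 * (k : ℂ) + 2)⁻¹)).continuousOn (fun x hx => ?_) hx
    simpa only [hτ x hx, one_smul] using h.dq i k x

theorem Sol.mb (h : Sol N τ w om η p q F) (hG : 0 ≤ G) (hG1 : G ≤ 1) (hw : ∀ x ∈ I, |w x| ≤ G)
    (ho : ∀ x ∈ I, |om x| ≤ 1) (i : ι) : Mb I 5 (2 * (η * G)) (p i) ∧ Mb I 5 (2 * (η * G)) (q i) ∧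
      Mb I 3 (2 * (η * G)) (F i) :=
  ⟨(h.bp i).mb hG hw ho, (h.bq i).mb hG hw ho, (h.bF i).mb hG (fun x hx => by
    rw [abs_pow]
    nlinarith [hw x hx, abs_nonneg (w x)]) ho⟩

/-- **real bridge**: on an open set of parameters where the path is `t = x + c` -/
theorem Sol.real (h : Sol N τ w om η p q F) (hI : IsOpen I) (hτ : ∀ x ∈ I, τ x = 1)
    (hG : 0 ≤ G) (hG1 : G ≤ 1) (hw : ∀ x ∈ I, |w x| ≤ G) (ho : ∀ x ∈ I, |om x| ≤ 1) (c : ℝ) :
    (∀ i, Ch ((· - c) ⁻¹' I) 2 (12 * η * G) (vl c (p i) (q i) (F i))) ∧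
    (∀ i, ContDiffOn ℝ 2 (fn c (p i) (q i)) (An ((· - c) ⁻¹' I))) ∧
    ∀ x ∈ An ((· - c) ⁻¹' I),
      (∀ i, ∀ j ≤ 2, ‖x‖ ^ j * ‖iteratedFDeriv ℝ j (fn c (p i) (q i)) x‖ ≤ cB j 0 * (12 * η * G)) ∧
      jets p q F (Real.log ‖x‖ - c) (prj x) = cjet (fun i => fn c (p i) (q i)) x ∧
      (∀ i, Lp2 (fn c (p i) (q i)) x = val (F i) (Real.log ‖x‖ - c) (prj x)) ∧
      (fun i => Lp2 (fn c (p i) (q i)) x) = N.Q (cjet (fun i => fn c (p i) (q i)) x) := by
  have hI' : IsOpen ((· - c) ⁻¹' I) := hI.preimage (by fun_prop)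
  have hm := h.mb hG hG1 hw ho
  have hc : ∀ i, Ch ((· - c) ⁻¹' I) 2 (12 * η * G) (vl c (p i) (q i) (F i)) := fun i =>
    ((h.str hI hτ i).ch (n := 1) hI (hm i).1 (hm i).2.1 (hm i).2.2 c).mono le_rfl
      (le_of_eq (by ring)) subset_rfl
  refine ⟨hc, fun i => (hc i).contDiffOn hI', fun x hx => ?_⟩
  have e1 : jets p q F (Real.log ‖x‖ - c) (prj x) = cjet (fun i => fn c (p i) (q i)) x :=
    funext fun j => Ch.cj (N := 0) hI' (hc j.1) hx j.2
  have e2 := fun i => (h.str hI hτ i).lap (n := 1) hI (hm i).1 (hm i).2.1 (hm i).2.2 c hx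
  refine ⟨fun i j hj => (hc i).bound hI' hj hx, e1, e2, ?_⟩
  rw [← e1, ← h.eq]
  exact funext e2

end Sol

end Crest.Agent.N207.L
end
private theorem rz_a03016be8c : type_of% @_root_.Crest.Agent.N207.L.cj1.eq_1 := @_root_.Crest.Agent.N207.L.cj1.eq_1 -- L192
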