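import Crest.Agent.N207.L.Inst

/-! # N207/L/Inst2 (helper82): admissibility of the half line, the middle piece, the collar
family and the neck family -/

set_option autoImplicit false
open Set Filter Topology MeasureTheory

noncomputable section

namespace Crest.Agent.N207.L

private lemma ex {p q : ℝ} (h : p ≤ q) : Real.exp p ≤ Real.exp q := Real.exp_le_exp.2 h

/-- the half line -/
theorem ok_half {a δ C : ℝ} (hδ : 0 < δ) (hδ' : δ ≤ 3 / 2) (h1 : 1 ≤ C) (hC : 1 / δ ≤ C) :
    (half a δ).Ok C 1 := by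
  have ev : ∀ x, ∀ᶠ y in 𝓝[Ici x] x, (a ≤ y ↔ a ≤ x) := fun x => by
    rcases le_or_gt a x with h | h
    · filter_upwards [self_mem_nhdsWithin] with y hy
      exact iff_of_true (h.trans hy) h
    · filter_upwards [Ico_mem_nhdsGE h] with y hy
      exact iff_of_false (not_le.2 hy.2) (not_le.2 h)
  have mm : ∀ {r s : ℝ}, r ≤ s → max a r ≤ max a s := fun h => max_le_max le_rfl h
  have eτ : (half a δ).τ = (Ici a).indicator fun _ => (1 : ℂ) := by
    funext x; simp [half, indicator]
  have eI : (fun r => (half a δ).w r * ‖(half a δ).τ r‖) =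
      (Ici a).indicator fun r => Real.exp (δ * a) * Real.exp (-δ * r) := by
    funext r
    by_cases h : a ≤ r
    · simp only [half, if_pos h, norm_one, mul_one, max_eq_right h, indicator_of_mem (mem_Ici.2 h),
        ← Real.exp_add]
      congr 1; ring
    · simp [half, h]
  have hi : IntegrableOn (fun r => Real.exp (δ * a) * Real.exp (-δ * r)) (Ici a) :=
    ((integrableOn_Ici_iff_integrableOn_Ioi (by simp)).2 (exp_neg_integrableOn_Ioi a hδ)).const_mul _
  refine
    { cont := by show Continuous fun x => ((max a x : ℝ) : ℂ); fun_prop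
      der := fun x => ?_
      rc := fun x => (continuousWithinAt_const (b := (half a δ).τ x)).congr_of_eventuallyEq
        ((ev x).mono fun y h => by simp only [half, h]) rfl
      li := fun x y => by
        rw [eτ]
        exact ⟨(integrableOn_const (by simp)).indicator measurableSet_Ici,
          (integrableOn_const (by simp)).indicator measurableSet_Ici⟩
      left := fun x hx => if_neg (not_le.2 hx)
      right := fun h => absurd h (by simp [half])
      dec := fun _ => ?_
      wc := by show Continuous fun x => Real.exp (-δ * (max a x - a)); fun_prop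
      w0 := fun _ => Real.exp_pos _
      w1 := fun x => Real.exp_le_one_iff.2 (by nlinarith [le_max_left a x])
      oc := continuous_const, o0 := fun _ => le_rfl, o1 := fun _ => le_rfl
      slope := fun x => ?_
      re0 := fun x => by simp only [half]; split_ifs <;> simp
      wb := fun r s h => ?_, wf := fun r s h => ?_, ob := fun r s h => ?_, of := fun r s h => ?_
      mono := fun s r h => ?_
      wmin := fun h => absurd h (by simp [half])
      int := by rw [eI]; exact (integrable_indicator_iff measurableSet_Ici).2 hi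
      int_le := ?_ }
  · by_cases h : a ≤ x
    · simp only [half, if_pos h]
      refine (hasDerivWithinAt_id x _).ofReal_comp.congr_of_eventuallyEq ?_ (by simp [h])
      filter_upwards [self_mem_nhdsWithin] with y hy
      simp [h.trans hy]
    · simp only [half, if_neg h]
      refine (hasDerivWithinAt_const x _ (a : ℂ)).congr_of_eventuallyEq ?_
        (by simp [(not_le.1 h).le])
      filter_upwards [Ico_mem_nhdsGE (not_le.1 h)] with y hy
      simp [hy.2.le]
  · refine Real.tendsto_exp_atBot.comp (Tendsto.const_mul_atTop_of_neg (neg_lt_zero.2 hδ) ?_)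
    exact tendsto_atTop_add_const_right _ _ (tendsto_atTop_mono (fun x => le_max_right a x)
      tendsto_id)
  · have : Real.exp (-δ * (max a x - a)) ≤ 1 :=
      Real.exp_le_one_iff.2 (by nlinarith [le_max_left a x])
    simp only [half]; split_ifs
    · simpa using this.trans h1
    · simp
  · simp only [half, ← Complex.ofReal_sub, Complex.ofReal_re, ← Real.exp_add]
    exact ex (by nlinarith [mm h])
  · simp only [half, ← Complex.ofReal_sub, Complex.ofReal_re, ← Real.exp_add]
    exact ex (by nlinarith [mm h])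
  · simp only [half, ← Complex.ofReal_sub, Complex.ofReal_re, mul_one]
    exact Real.one_le_exp (by linarith [mm h])
  · simp only [half, ← Complex.ofReal_sub, Complex.ofReal_re, mul_one]
    exact Real.one_le_exp (by linarith [mm h])
  · have h' : s < r := by simpa [Pth.up, half] using h
    exact ex (by nlinarith [mm h'.le])
  · rw [eI, integral_indicator measurableSet_Ici, integral_const_mul, integral_Ici_eq_integral_Ioi,
      integral_exp_mul_Ioi (neg_lt_zero.2 hδ)]
    refine le_trans (le_of_eq ?_) hC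
    rw [neg_div_neg_eq, ← mul_div_assoc, ← Real.exp_add]; simp


/-- the middle piece -/
theorem ok_mid {ζ : ℂ} {w0 C : ℝ} (h : -1 / 2 ≤ ζ.re) (h0 : 0 < w0) (h1 : w0 ≤ 1)
    (hC : 2 * (‖1 + ζ‖ * w0) ≤ C) : (mid ζ w0).Ok C 1 := by
  have hz : 0 ≤ ‖1 + ζ‖ * w0 := by positivity
  have n1 : ∀ x, ‖(mid ζ w0).τ x‖ = ‖1 + ζ‖ * ind (-1) 1 x := fun x => by
    simp [mid, abs_of_nonneg (ind_nonneg (-1) 1 x)]
  have r1 : ∀ x, ((mid ζ w0).τ x).re = (1 + ζ.re) * ind (-1) 1 x := fun x => by simp [mid]
  have inc : ∀ r s, r ≤ s → 0 ≤ ((mid ζ w0).t s - (mid ζ w0).t r).re := fun r s hrs => by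
    have := cl_mono (-1) 1 hrs
    simp only [mid, ← mul_sub, ← Complex.ofReal_sub, Complex.re_mul_ofReal, Complex.add_re,
      Complex.one_re]
    nlinarith
  have p : ∀ r s, r ≤ s → ∀ u v : ℝ, 0 ≤ u → 0 ≤ v →
      v ≤ Real.exp (u * ((mid ζ w0).t s - (mid ζ w0).t r).re) * v := fun r s hrs u v hu hv =>
    le_mul_of_one_le_left hv (Real.one_le_exp (mul_nonneg hu (inc r s hrs)))
  have eI : (fun r => (mid ζ w0).w r * ‖(mid ζ w0).τ r‖) =
      fun r => (‖1 + ζ‖ * w0) * ind (-1) 1 r := by
    funext r; rw [n1]; simp only [mid]; ring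
  exact
    { cont := continuous_const.mul (cl_contC _ _)
      der := fun x => (cl_der (by norm_num) x).const_mul _
      rc := fun x => continuousWithinAt_const.mul (ind_rc _ _ x)
      li := fun x y => (ind_li _ _ x y).const_mul _
      left := fun x hx => by simp [mid, ind_of_lt (show x < -1 from hx)]
      right := fun _ x hx => by simp [mid, ind_of_ge (show 1 ≤ x from hx)]
      dec := fun h => absurd h (by simp [mid])
      wc := continuous_const, w0 := fun _ => h0, w1 := fun _ => h1
      oc := continuous_const, o0 := fun _ => le_rfl, o1 := fun _ => le_rfl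
      slope := fun x => by
        rw [n1, r1]
        have := ind_nonneg (-1) 1 x
        have q : ‖1 + ζ‖ * w0 ≤ C * (1 + ζ.re) := by nlinarith
        show _ * w0 ≤ _
        nlinarith
      re0 := fun x => by rw [r1]; exact mul_nonneg (by linarith) (ind_nonneg _ _ _)
      wb := fun r s h => p r s h _ _ (by norm_num) h0.le
      wf := fun r s h => p r s h _ _ (by norm_num) h0.le
      ob := fun r s h => p r s h _ _ (by norm_num) zero_le_one
      of := fun r s h => p r s h _ _ (by norm_num) zero_le_one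
      mono := fun _ _ _ => le_rfl, wmin := fun _ _ => le_rfl
      int := by rw [eI]; exact (ind_int _ _).const_mul _
      int_le := by
        rw [eI, integral_const_mul, ind_eq, integral_indicator measurableSet_Ico]
        simp; norm_num; linarith }


lemma mid_tau {ζ : ℂ} (w0 : ℝ) (h : -1 / 2 ≤ ζ.re) (x : ℝ) :
    ‖(mid ζ w0).τ x‖ ≤ 2 * ‖1 + ζ‖ * ((mid ζ w0).τ x).re := by
  have n1 : ‖(mid ζ w0).τ x‖ = ‖1 + ζ‖ * ind (-1) 1 x := by
    simp [mid, abs_of_nonneg (ind_nonneg (-1) 1 x)]
  have r1 : ((mid ζ w0).τ x).re = (1 + ζ.re) * ind (-1) 1 x := by simp [mid]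
  rw [n1, r1]
  have := mul_nonneg (norm_nonneg (1 + ζ)) (ind_nonneg (-1) 1 x)
  nlinarith

/-- the collar curves over `[a, a + 3]`: slopes `1 + z, 1, 1 - z` -/
def colt (a : ℝ) (z : ℂ) (x : ℝ) : ℂ :=
  cl a (a + 3) x + z * ((cl a (a + 1) x - a) - (cl (a + 2) (a + 3) x - (a + 2)))

def colτ (a : ℝ) (z : ℂ) (x : ℝ) : ℂ :=
  ind a (a + 3) x + z * (ind a (a + 1) x - ind (a + 2) (a + 3) x)

lemma colt_mid {a x : ℝ} (z : ℂ) (h1 : a + 1 ≤ x) (h2 : x ≤ a + 2) : colt a z x = x + z := by
  rw [colt, cl_of_mem (by linarith) (by linarith), cl_of_ge (by linarith) h1, cl_of_le h2]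
  push_cast; ring

lemma colt_left (a : ℝ) (z : ℂ) : colt a z a = a := by
  rw [colt, cl_of_le le_rfl, cl_of_le le_rfl, cl_of_le (by linarith)]; push_cast; ring

lemma colt_right (a : ℝ) (z : ℂ) : colt a z (a + 3) = ((a + 3 : ℝ) : ℂ) := by
  rw [colt, cl_of_ge (by linarith) le_rfl, cl_of_ge (by linarith) (by linarith),
    cl_of_ge (by linarith) le_rfl]; push_cast; ring

lemma colτ_cases (a : ℝ) (z : ℂ) (x : ℝ) : (ind a (a + 3) x = 0 ∧ colτ a z x = 0) ∨
    (ind a (a + 3) x = 1 ∧ (colτ a z x = 1 + z ∨ colτ a z x = 1 ∨ colτ a z x = 1 - z)) := by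
  unfold colτ
  rcases lt_or_ge x a with h | h
  · left; simp [ind_of_lt h, ind_of_lt (show x < a + 2 by linarith)]
  rcases lt_or_ge x (a + 1) with h1 | h1
  · right; simp [ind_of_mem h h1, ind_of_mem h (show x < a + 3 by linarith),
      ind_of_lt (show x < a + 2 by linarith)]
  rcases lt_or_ge x (a + 2) with h2 | h2
  · right; simp [ind_of_ge h1, ind_of_mem h (show x < a + 3 by linarith), ind_of_lt h2]
  rcases lt_or_ge x (a + 3) with h3 | h3
  · right; simp [ind_of_ge h1, ind_of_mem h h3, ind_of_mem h2 h3, sub_eq_add_neg]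
  · left; simp [ind_of_ge h1, ind_of_ge h3]

lemma colτ_bd {a : ℝ} {z : ℂ} (hz : ‖z‖ ≤ 1 / 2) (x : ℝ) :
    ‖colτ a z x‖ ≤ 3 / 2 * ind a (a + 3) x ∧ 1 / 2 * ind a (a + 3) x ≤ (colτ a z x).re := by
  have h1 := abs_le.1 ((Complex.abs_re_le_norm z).trans hz)
  have n0 : ‖1 + z‖ ≤ 1 + ‖z‖ := by simpa using norm_add_le 1 z
  have n1 : ‖1 - z‖ ≤ 1 + ‖z‖ := by simpa using norm_sub_le 1 z
  rcases colτ_cases a z x with ⟨p, q⟩ | ⟨p, q | q | q⟩ <;> rw [p, q] <;> constructor <;>
    simp <;> linarith

lemma colt_inc {a : ℝ} {z : ℂ} (hz : ‖z‖ ≤ 1 / 2) {r s : ℝ} (h : r ≤ s) :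
    1 / 2 * (cl a (a + 3) s - cl a (a + 3) r) ≤ (colt a z s - colt a z r).re := by
  have h1 := abs_le.1 ((Complex.abs_re_le_norm z).trans hz)
  have e : (colt a z s - colt a z r).re = cl a (a + 3) s - cl a (a + 3) r + z.re *
      ((cl a (a + 1) s - cl a (a + 1) r) - (cl (a + 2) (a + 3) s - cl (a + 2) (a + 3) r)) := by
    simp [colt]; ring
  have p1 := cl_mono a (a + 1) h
  have p2 := cl_mono (a + 2) (a + 3) h
  have p3 := cl_sub_le_cl (a := a) (b := a + 3) (a' := a) (b' := a + 1) le_rfl (by linarith)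
    (by linarith) h
  have p4 := cl_sub_le_cl (a := a) (b := a + 3) (a' := a + 2) (b' := a + 3) (by linarith)
    (by linarith) le_rfl h
  rw [e]; nlinarith

/-- the collar family on the disc of radius `1 / 2` -/
theorem fam_col {a xs c δ C o : ℝ} {om : ℝ → ℝ} (h1 : a ≤ xs) (h2 : xs ≤ a + 3)
    (hc : 0 < c) (hδ : 0 ≤ δ) (hδ' : δ ≤ 5 / 16 ∨ (δ ≤ 3 / 4 ∧ xs = a + 3))
    (wa : c * Real.exp (δ * (xs - a)) ≤ 1) (wb : c * Real.exp (δ * (a + 3 - xs)) ≤ 1)
    (hC : 9 ≤ C) (oc : Continuous om) (o0 : ∀ x, o ≤ om x) (o1 : ∀ x, om x ≤ 1) (ho : 0 ≤ o)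
    (ob : ∀ r s, r ≤ s → om r ≤ Real.exp (1 / 8 * (cl a (a + 3) s - cl a (a + 3) r)) * om s)
    (of : ∀ r s, r ≤ s → om s ≤ Real.exp (1 / 8 * (cl a (a + 3) s - cl a (a + 3) r)) * om r) :
    (str a (a + 3) xs c δ om).Fam (colt a) (colτ a) (Metric.ball 0 (1 / 2)) C o := by
  have key : ∀ z : ℂ, ‖z‖ ≤ 1 / 2 → ((str a (a + 3) xs c δ om).re (colt a z) (colτ a z)).Ok C o :=
    fun z hz => ok_str_re (m := 1 / 2) (Λ := 3) h1 h2 hc hδ (by norm_num)
      (by rcases hδ' with h | h
          · left; linarith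
          · right; exact ⟨by linarith, h.2⟩) wa wb (by norm_num) (by linarith)
      (Or.inr (by linarith)) oc o0 o1 ho (by norm_num; simpa using ob)
      (by norm_num; simpa using of)
      (by have := cl_contC a (a + 3); have := cl_contC a (a + 1); have := cl_contC (a + 2) (a + 3)
          unfold colt; fun_prop)
      (fun x => (cl_der (by linarith) x).add ((((cl_der (by linarith) x).sub_const _).sub
        ((cl_der (by linarith) x).sub_const _)).const_mul z))
      (fun x => (ind_rc _ _ x).add (continuousWithinAt_const.mul ((ind_rc _ _ x).sub (ind_rc _ _ x))))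
      (fun x y => (ind_li _ _ x y).add (((ind_li _ _ x y).sub (ind_li _ _ x y)).const_mul z))
      (fun x => by linarith [(colτ_bd (a := a) hz x).1, ind_nonneg a (a + 3) x])
      (fun x => by linarith [(colτ_bd (a := a) hz x).1, (colτ_bd (a := a) hz x).2])
      (fun x => by linarith [(colτ_bd (a := a) hz x).2, ind_nonneg a (a + 3) x])
      fun r s h => colt_inc hz h
  refine ⟨Metric.isOpen_ball, fun z hz => key z (mem_ball_zero_iff.1 hz).le,
    fun x => by unfold colt; fun_prop, fun x => by unfold colτ; fun_prop,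
    ⟨2, fun z hz x => ⟨?_, ?_⟩⟩, ?_⟩
  · have hz' := (mem_ball_zero_iff.1 hz).le
    have e : colt a z x - (str a (a + 3) xs c δ om).t x =
        z * (((cl a (a + 1) x - a) - (cl (a + 2) (a + 3) x - (a + 2)) : ℝ) : ℂ) := by
      simp only [colt, str]; push_cast; ring
    have q : |(cl a (a + 1) x - a) - (cl (a + 2) (a + 3) x - (a + 2))| ≤ 1 := by
      have := le_cl a (a + 1) x
      have := cl_le (a := a) (b := a + 1) (by linarith) x
      have := le_cl (a + 2) (a + 3) x
      have := cl_le (a := a + 2) (b := a + 3) (by linarith) x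
      rw [abs_le]; constructor <;> linarith
    rw [e, norm_mul, Complex.norm_real, Real.norm_eq_abs]
    nlinarith [norm_nonneg z, abs_nonneg ((cl a (a + 1) x - a) - (cl (a + 2) (a + 3) x - (a + 2)))]
  · have := (colτ_bd (a := a) (mem_ball_zero_iff.1 hz).le x).1
    have := ind_nonneg a (a + 3) x
    simp only [str, Complex.ofReal_re]; linarith
  · have := key 0 (by simp)
    have e1 : colt a 0 = (str a (a + 3) xs c δ om).t := by funext x; simp [colt, str]
    have e2 : colτ a 0 = (str a (a + 3) xs c δ om).τ := by funext x; simp [colτ, str]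
    rw [e1, e2] at this
    exact this

/-- analytic weight decreasing from `1` at `a` to `e^{-κ}` at `a + 1` -/
def omL (a κ x : ℝ) : ℝ := Real.exp (-κ * (cl a (a + 1) x - a))
/-- analytic weight increasing from `e^{-κ}` at `b - 1` to `1` at `b` -/
def omR (b κ x : ℝ) : ℝ := Real.exp (-κ * (b - cl (b - 1) b x))

lemma omL_props {a b κ u : ℝ} (hab : a + 1 ≤ b) (h0 : 0 ≤ κ) (h1 : κ ≤ u) :
    Continuous (omL a κ) ∧ (∀ x, Real.exp (-κ) ≤ omL a κ x) ∧ (∀ x, omL a κ x ≤ 1) ∧
    (∀ r s, r ≤ s → omL a κ r ≤ Real.exp (u * (cl a b s - cl a b r)) * omL a κ s) ∧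
    (∀ r s, r ≤ s → omL a κ s ≤ Real.exp (u * (cl a b s - cl a b r)) * omL a κ r) := by
  have := cl_cont a (a + 1)
  refine ⟨by unfold omL; fun_prop, fun x => ex ?_, fun x => Real.exp_le_one_iff.2 ?_,
    fun r s h => ?_, fun r s h => ?_⟩
  · nlinarith [cl_le (a := a) (b := a + 1) (by linarith) x]
  · nlinarith [le_cl a (a + 1) x]
  all_goals
    have p1 := cl_mono a (a + 1) h
    have p2 := cl_sub_le_cl (a := a) (b := b) (a' := a) (b' := a + 1) le_rfl (by linarith) hab h
    rw [omL, omL, ← Real.exp_add]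
    exact ex (by nlinarith)

lemma omR_props {a b κ u : ℝ} (hab : a + 1 ≤ b) (h0 : 0 ≤ κ) (h1 : κ ≤ u) :
    Continuous (omR b κ) ∧ (∀ x, Real.exp (-κ) ≤ omR b κ x) ∧ (∀ x, omR b κ x ≤ 1) ∧
    (∀ r s, r ≤ s → omR b κ r ≤ Real.exp (u * (cl a b s - cl a b r)) * omR b κ s) ∧
    (∀ r s, r ≤ s → omR b κ s ≤ Real.exp (u * (cl a b s - cl a b r)) * omR b κ r) := by
  have := cl_cont (b - 1) b
  refine ⟨by unfold omR; fun_prop, fun x => ex ?_, fun x => Real.exp_le_one_iff.2 ?_,
    fun r s h => ?_, fun r s h => ?_⟩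
  · nlinarith [le_cl (b - 1) b x]
  · nlinarith [cl_le (a := b - 1) (b := b) (by linarith) x]
  all_goals
    have p1 := cl_mono (b - 1) b h
    have p2 := cl_sub_le_cl (a := a) (b := b) (a' := b - 1) (b' := b) (by linarith) (by linarith)
      le_rfl h
    rw [omR, omR, ← Real.exp_add]
    exact ex (by nlinarith)

end Crest.Agent.N207.L
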