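import Mathlib
import Crest.Agent.N207.J.Dul

-- ▼ part N207/L/Xa
section

/-!
Row 207, block L (helper82), lemma X, part a: a holomorphic function on half strips which is
almost `2πi` periodic has a limit, with a rate.
-/

set_option autoImplicit false

open Complex Set Filter Topology MeasureTheory intervalIntegral
open scoped Real

noncomputable section

namespace Crest.Agent.N207.L.X

variable {E : Type*} [NormedAddCommGroup E] [NormedSpace ℂ E]

/-- the period -/
def pr : ℂ := 2 * π * I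

/-- half strips -/
def Strip (R Y : ℝ) : Set ℂ := {l | R < l.re ∧ |l.im| < Y}

lemma isOpen_Strip (R Y : ℝ) : IsOpen (Strip R Y) :=
  (isOpen_lt continuous_const continuous_re).inter
    (isOpen_lt (continuous_im.abs) continuous_const)

/-- holomorphic far out on every half strip -/
def Hol (g : ℂ → E) : Prop := ∀ Y : ℝ, ∃ R, DifferentiableOn ℂ g (Strip R Y)

/-- `O(e^{-b Re l})` on every half strip -/
def Bd (b : ℝ) (g : ℂ → E) : Prop :=
  ∀ Y : ℝ, ∃ R C, ∀ l ∈ Strip R Y, ‖g l‖ ≤ C * Real.exp (-b * l.re)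

/-- the mean over a vertical period -/
def mean (g : ℂ → E) (u y : ℝ) : E := ∫ v in (y - π)..(y + π), g (u + v * I)

lemma pr_shift (s y : ℝ) : (s : ℂ) + ((y - π : ℝ) : ℂ) * I + pr = s + ((y + π : ℝ) : ℂ) * I := by
  unfold pr; push_cast; ring

lemma int_exp_le {a u u' : ℝ} (ha : 0 < a) :
    ∫ s in u..u', Real.exp (-a * s) ≤ Real.exp (-a * u) / a := by
  have h : ∀ s : ℝ, HasDerivAt (fun s => -Real.exp (-a * s) / a) (Real.exp (-a * s)) s := by
    intro s
    have := (((hasDerivAt_id s).const_mul (-a)).exp.neg).div_const a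
    refine this.congr_deriv ?_
    simp only [id]; field_simp
  rw [integral_eq_sub_of_hasDerivAt (fun s _ => h s)
    (Continuous.intervalIntegrable (by fun_prop) _ _)]
  have := Real.exp_pos (-a * u')
  have : 0 < Real.exp (-a * u') / a := by positivity
  rw [neg_div, neg_div]; linarith

lemma mem_of {R Y u v y : ℝ} (hu : R < u) (hy : |y| < Y) (hv : v ∈ uIcc (y - π) (y + π)) :
    (u : ℂ) + v * I ∈ Strip R (Y + 4) := by
  rw [uIcc_of_le (by linarith [Real.pi_pos])] at hv
  refine ⟨by simpa using hu, ?_⟩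
  have := Real.pi_le_four
  have := abs_lt.1 hy
  simp only [add_im, ofReal_im, mul_im, ofReal_re, I_im, mul_one, I_re, mul_zero, add_zero,
    zero_add]
  rw [abs_lt]; constructor <;> linarith [hv.1, hv.2]

section core
variable {g : ℂ → E} {R Y : ℝ} (hg : DifferentiableOn ℂ g (Strip R (Y + 4)))
include hg

lemma cont_hor {u u' v y : ℝ} (hu : R < u) (huu : u ≤ u') (hy : |y| < Y)
    (hv : v ∈ uIcc (y - π) (y + π)) : ContinuousOn (fun s : ℝ => g (s + v * I)) (uIcc u u') := by
  refine hg.continuousOn.comp (by fun_prop) fun s hs => mem_of ?_ hy hv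
  rw [uIcc_of_le huu] at hs; linarith [hs.1]

omit hg in
lemma rect_sub {u u' y : ℝ} (hu : R < u) (huu : u ≤ u') (hy : |y| < Y) :
    (uIcc u u' ×ℂ uIcc (y - π) (y + π)) ⊆ Strip R (Y + 4) := by
  intro z hz
  rw [mem_reProdIm] at hz
  rw [← re_add_im z]
  refine mem_of ?_ hy hz.2
  have := hz.1; rw [uIcc_of_le huu] at this; linarith [this.1]

lemma mean_sub [CompleteSpace E] {u u' y : ℝ} (hu : R < u) (huu : u ≤ u') (hy : |y| < Y) :
    I • (mean g u' y - mean g u y) =
      ∫ s in u..u', fwdDiff pr g (s + ((y - π : ℝ) : ℂ) * I) := by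
  have h := integral_boundary_rect_eq_zero_of_differentiableOn g (u + ((y - π : ℝ) : ℂ) * I)
    (u' + ((y + π : ℝ) : ℂ) * I) (hg.mono (by simpa using rect_sub hu huu hy))
  simp only [add_re, ofReal_re, mul_re, I_re, mul_zero, ofReal_im, I_im, mul_one, sub_self,
    add_zero, add_im, mul_im, zero_add] at h
  simp only [fwdDiff, pr_shift]
  rw [integral_sub ((cont_hor hg hu huu hy right_mem_uIcc).intervalIntegrable)
    ((cont_hor hg hu huu hy left_mem_uIcc).intervalIntegrable), smul_sub]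
  unfold mean
  rw [← sub_eq_zero, ← h]; abel

end core

lemma kb_le {b x s : ℝ} (hb0 : 0 ≤ b) (hb1 : b ≤ 1) :
    (1 + Real.exp (x - s))⁻¹ ≤ Real.exp (b * (s - x)) := by
  have h0 := Real.exp_pos (x - s)
  rw [inv_le_iff_one_le_mul₀ (by positivity)]
  rcases le_total x s with h | h
  · have : 1 ≤ Real.exp (b * (s - x)) := Real.one_le_exp (mul_nonneg hb0 (by linarith))
    nlinarith
  · have h1 : 1 ≤ Real.exp (b * (s - x)) * Real.exp (x - s) := by
      rw [← Real.exp_add]; apply Real.one_le_exp; nlinarith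
    nlinarith [Real.exp_pos (b * (s - x))]

/-- the Cauchy kernel of the cylinder -/
def ker (l w : ℂ) : ℂ := (1 - exp (l - w))⁻¹

lemma one_sub_exp_ne {l w : ℂ} (hw : w ≠ l) (h : |w.im - l.im| ≤ π) : 1 - exp (l - w) ≠ 0 := by
  intro h0
  obtain ⟨n, hn⟩ := Complex.exp_eq_one_iff.1 (sub_eq_zero.1 h0).symm
  have h1 : l.im - w.im = n * (2 * π) := by simpa using congrArg Complex.im hn
  have hn0 : n = 0 := by
    by_contra hne
    have h2 : (1 : ℝ) ≤ |(n : ℝ)| := by exact_mod_cast Int.one_le_abs hne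
    rw [abs_sub_comm, h1, abs_mul, abs_of_pos (by positivity : (0 : ℝ) < 2 * π)] at h
    nlinarith [Real.pi_pos]
  rw [hn0] at hn
  exact hw (by simpa [sub_eq_zero, eq_comm] using hn)

/-- Cauchy's formula on a rectangle of height `2π` centred at `l`. -/
lemma cauchy [CompleteSpace E] {g : ℂ → E} {R Y : ℝ} (hg : DifferentiableOn ℂ g (Strip R (Y + 4)))
    {u u' : ℝ} {l : ℂ} (hu : R < u) (hul : u < l.re) (hlu : l.re < u') (hy : |l.im| < Y) :
    I • (∫ v in (l.im - π)..(l.im + π), ker l (u' + v * I) • (g (u' + v * I) - g l)) -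
      I • (∫ v in (l.im - π)..(l.im + π), ker l (u + v * I) • (g (u + v * I) - g l)) =
      ∫ s in u..u', (((1 + Real.exp (l.re - s))⁻¹ : ℝ) : ℂ) •
        fwdDiff pr g (s + ((l.im - π : ℝ) : ℂ) * I) := by
  have huu : u ≤ u' := by linarith
  set e : ℂ → ℂ := fun w => 1 - exp (l - w) with he
  have hde : ∀ w, HasDerivAt e (exp (l - w)) w := fun w => by
    simpa using (((hasDerivAt_id w).const_sub l).cexp).const_sub 1
  set ψ : ℂ → E := fun w => (dslope e l w)⁻¹ • dslope g l w with hψ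
  have hψe : ∀ w, w ≠ l → ψ w = ker l w • (g w - g l) := fun w hw => by
    simp only [hψ, dslope_of_ne _ hw, slope_def_module, smul_smul, he, ker, sub_self, exp_zero,
      sub_zero, smul_eq_mul]
    congr 1
    have := sub_ne_zero.2 hw
    field_simp
  have hsub := rect_sub hu huu hy
  have hlm : l ∈ Strip R (Y + 4) := ⟨by linarith, by linarith⟩
  have hne : ∀ w ∈ uIcc u u' ×ℂ uIcc (l.im - π) (l.im + π), dslope e l w ≠ 0 := fun w hw => by
    by_cases hwl : w = l
    · rw [hwl, dslope_same, (hde l).deriv]; simp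
    · rw [dslope_of_ne _ hwl, slope_def_module]
      have h2 := (mem_reProdIm.1 hw).2
      rw [uIcc_of_le (by linarith [Real.pi_pos])] at h2
      refine smul_ne_zero (inv_ne_zero (sub_ne_zero.2 hwl)) ?_
      simpa [he] using one_sub_exp_ne hwl (abs_le.2 ⟨by linarith [h2.1], by linarith [h2.2]⟩)
  have hdg : DifferentiableOn ℂ (dslope g l) (Strip R (Y + 4)) :=
    (differentiableOn_dslope ((isOpen_Strip _ _).mem_nhds hlm)).2 hg
  have hde' : Differentiable ℂ (dslope e l) := by
    rw [← differentiableOn_univ]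
    exact (differentiableOn_dslope univ_mem).2 fun w _ =>
      (hde w).differentiableAt.differentiableWithinAt
  have hψd : DifferentiableOn ℂ ψ (uIcc u u' ×ℂ uIcc (l.im - π) (l.im + π)) :=
    (hde'.differentiableOn.inv hne).smul (hdg.mono hsub)
  have h := integral_boundary_rect_eq_zero_of_differentiableOn ψ (u + ((l.im - π : ℝ) : ℂ) * I)
    (u' + ((l.im + π : ℝ) : ℂ) * I) (by simpa using hψd)
  simp only [add_re, ofReal_re, mul_re, I_re, mul_zero, ofReal_im, I_im, mul_one, sub_self,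
    add_zero, add_im, mul_im, zero_add] at h
  have n1 : ∀ (s v : ℝ), s ≠ l.re → (s : ℂ) + v * I ≠ l := fun s v hs h0 =>
    hs (by simpa using congrArg Complex.re h0)
  have n2 : ∀ (s v : ℝ), v ≠ l.im → (s : ℂ) + v * I ≠ l := fun s v hs h0 =>
    hs (by simpa using congrArg Complex.im h0)
  have k1 : ∀ (s v : ℝ), (v = l.im - π ∨ v = l.im + π) →
      ker l (s + v * I) = (((1 + Real.exp (l.re - s))⁻¹ : ℝ) : ℂ) := fun s v hv => by
    have : exp (l - (s + v * I)) = -((Real.exp (l.re - s) : ℝ) : ℂ) := by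
      rcases hv with rfl | rfl
      · rw [show l - (s + ((l.im - π : ℝ) : ℂ) * I) = ((l.re - s : ℝ) : ℂ) + π * I by
          apply Complex.ext <;> simp, exp_add_pi_mul_I, ofReal_exp]
      · rw [show l - (s + ((l.im + π : ℝ) : ℂ) * I) = ((l.re - s : ℝ) : ℂ) - π * I by
          apply Complex.ext <;> simp, exp_sub_pi_mul_I, ofReal_exp]
    rw [ker, this]; push_cast; ring_nf
  have hp := Real.pi_pos
  simp only [fun v : ℝ => hψe _ (n1 u v hul.ne), fun v : ℝ => hψe _ (n1 u' v hlu.ne'),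
    fun s : ℝ => hψe _ (n2 s (l.im - π) (by linarith)),
    fun s : ℝ => hψe _ (n2 s (l.im + π) (by linarith)),
    fun s : ℝ => k1 s _ (Or.inl rfl), fun s : ℝ => k1 s _ (Or.inr rfl)] at h
  have hk : Continuous fun s : ℝ => (((1 + Real.exp (l.re - s))⁻¹ : ℝ) : ℂ) :=
    continuous_ofReal.comp (Continuous.inv₀ (by fun_prop) fun s => by positivity)
  have i1 : ∀ v ∈ uIcc (l.im - π) (l.im + π), IntervalIntegrable
      (fun s : ℝ => (((1 + Real.exp (l.re - s))⁻¹ : ℝ) : ℂ) • (g (s + v * I) - g l)) volume u u' :=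
    fun v hv => (hk.continuousOn.smul ((cont_hor hg hu huu hy hv).sub
      continuousOn_const)).intervalIntegrable
  rw [← integral_sub (i1 _ left_mem_uIcc) (i1 _ right_mem_uIcc)] at h
  have h3 : (∫ s in u..u', (((1 + Real.exp (l.re - s))⁻¹ : ℝ) : ℂ) •
        fwdDiff pr g (s + ((l.im - π : ℝ) : ℂ) * I)) = -∫ s in u..u',
        ((((1 + Real.exp (l.re - s))⁻¹ : ℝ) : ℂ) • (g (s + ((l.im - π : ℝ) : ℂ) * I) - g l) -
        (((1 + Real.exp (l.re - s))⁻¹ : ℝ) : ℂ) • (g (s + ((l.im + π : ℝ) : ℂ) * I) - g l)) := by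
    rw [← intervalIntegral.integral_neg]
    congr 1; funext s
    simp only [fwdDiff, pr_shift, smul_sub]; abel
  rw [h3, ← sub_eq_zero, ← h]; abel

lemma cont_ver {g : ℂ → E} {R Y : ℝ} (hg : DifferentiableOn ℂ g (Strip R Y)) {u a b : ℝ}
    (hu : R < u) (ha : |a| < Y) (hb : |b| < Y) :
    ContinuousOn (fun v : ℝ => g (u + v * I)) (uIcc a b) := by
  refine hg.continuousOn.comp (by fun_prop) fun v hv => ⟨by simpa using hu, ?_⟩
  have h1 := abs_lt.1 ha
  have h2 := abs_lt.1 hb
  have : |v| < Y := by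
    rcases mem_uIcc.1 hv with h | h <;> rw [abs_lt] <;> constructor <;> linarith [h.1, h.2]
  simpa using this

lemma mean_sub_y {g : ℂ → E} {R Y C a : ℝ} (hg : DifferentiableOn ℂ g (Strip R (Y + 4)))
    (hr : ∀ l ∈ Strip R (Y + 4), ‖fwdDiff pr g l‖ ≤ C * Real.exp (-a * l.re))
    {u y : ℝ} (hu : R < u) (hy : |y| < Y) :
    ‖mean g u y - mean g u 0‖ ≤ C * Real.exp (-a * u) * Y := by
  have hp := Real.pi_pos
  have hp4 := Real.pi_lt_four
  have hy' := abs_lt.1 hy
  have q : ∀ {t : ℝ}, -(Y + 4) < t → t < Y + 4 → |t| < Y + 4 := fun h1 h2 => abs_lt.2 ⟨h1, h2⟩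
  have I1 : ∀ {s t : ℝ}, |s| < Y + 4 → |t| < Y + 4 →
      IntervalIntegrable (fun v : ℝ => g (u + v * I)) volume s t :=
    fun hs ht => (cont_ver hg hu hs ht).intervalIntegrable
  have a1 : |y - π| < Y + 4 := q (by linarith) (by linarith)
  have a2 : |y + π| < Y + 4 := q (by linarith) (by linarith)
  have a3 : |0 - π| < Y + 4 := q (by linarith) (by linarith)
  have a4 : |0 + π| < Y + 4 := q (by linarith) (by linarith)
  have e1 : mean g u y - mean g u 0 =
      ∫ v in (0 - π)..(y - π), fwdDiff pr g (u + v * I) := by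
    unfold mean
    rw [integral_interval_sub_interval_comm (I1 a1 a2) (I1 a3 a4) (I1 a1 a3)]
    have e2 : ∫ v in (0 - π)..(y - π), g (u + v * I + pr) =
        ∫ v in (0 + π)..(y + π), g (u + v * I) := by
      have := intervalIntegral.integral_comp_add_right (a := 0 - π) (b := y - π)
        (fun v : ℝ => g (u + v * I)) (2 * π)
      rw [show 0 - π + 2 * π = 0 + π by ring, show y - π + 2 * π = y + π by ring] at this
      rw [← this]
      congr 1; funext v; congr 1; unfold pr; push_cast; ring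
    have I2 : IntervalIntegrable (fun v : ℝ => g (u + v * I + pr)) volume (0 - π) (y - π) := by
      have := (I1 a4 a2).comp_add_right (2 * π)
      rw [show 0 + π - 2 * π = 0 - π by ring, show y + π - 2 * π = y - π by ring] at this
      refine this.congr fun v _ => ?_
      congr 1; unfold pr; push_cast; ring
    simp only [fwdDiff]
    rw [integral_sub I2 (I1 a3 a1), e2, integral_symm (0 - π) (y - π),
      integral_symm (0 + π) (y + π)]
    abel
  rw [e1]
  refine (intervalIntegral.norm_integral_le_of_norm_le_const (C := C * Real.exp (-a * u))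
    fun v hv => ?_).trans ?_
  · have hm : (u : ℂ) + v * I ∈ Strip R (Y + 4) := by
      refine ⟨by simpa using hu, ?_⟩
      have : |v| < Y + 4 := by
        rcases mem_uIoc.1 hv with h | h <;> apply q <;> linarith [h.1, h.2]
      simpa using this
    simpa using hr _ hm
  · have h0 : 0 ≤ C * Real.exp (-a * u) := by
      have hm : (u : ℂ) ∈ Strip R (Y + 4) := ⟨by simpa using hu, by simp; linarith⟩
      simpa using (norm_nonneg _).trans (hr _ hm)
    rw [show y - π - (0 - π) = y by ring]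
    exact mul_le_mul_of_nonneg_left hy.le h0

lemma mean_sub_le [CompleteSpace E] {g : ℂ → E} {R Y C a : ℝ} (ha : 0 < a)
    (hg : DifferentiableOn ℂ g (Strip R (Y + 4)))
    (hr : ∀ l ∈ Strip R (Y + 4), ‖fwdDiff pr g l‖ ≤ C * Real.exp (-a * l.re)) (hC : 0 ≤ C)
    {u u' y : ℝ} (hu : R < u) (huu : u ≤ u') (hy : |y| < Y) :
    ‖mean g u' y - mean g u y‖ ≤ C * (Real.exp (-a * u) / a) := by
  have h := mean_sub hg hu huu hy
  have h1 : ‖mean g u' y - mean g u y‖ = ‖I • (mean g u' y - mean g u y)‖ := by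
    rw [norm_smul, norm_I, one_mul]
  rw [h1, h]
  refine (norm_integral_le_of_norm_le huu (g := fun s => C * Real.exp (-a * s))
    (Eventually.of_forall fun s hs => ?_)
    (Continuous.intervalIntegrable (by fun_prop) _ _)).trans ?_
  · simpa using hr _ (mem_of (lt_of_lt_of_le hu hs.1.le) hy left_mem_uIcc)
  · rw [intervalIntegral.integral_const_mul]
    exact mul_le_mul_of_nonneg_left (int_exp_le ha) hC

lemma norm_ker_left {l : ℂ} {u v : ℝ} (h : u + 1 ≤ l.re) :
    ‖ker l (u + v * I)‖ ≤ 2 * Real.exp (u - l.re) := by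
  have h1 : ‖exp (l - (u + v * I))‖ = Real.exp (l.re - u) := by rw [norm_exp]; simp
  have h2 : 2 ≤ Real.exp (l.re - u) := by linarith [Real.add_one_le_exp (l.re - u)]
  have h3 : Real.exp (l.re - u) / 2 ≤ ‖1 - exp (l - (u + v * I))‖ := by
    have := norm_sub_norm_le (exp (l - (u + v * I))) 1
    rw [norm_sub_rev, h1, norm_one] at this; linarith
  rw [ker, norm_inv]
  refine (inv_anti₀ (by positivity) h3).trans (le_of_eq ?_)
  rw [show u - l.re = -(l.re - u) by ring, Real.exp_neg]; field_simp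

lemma norm_ker_right {l : ℂ} {u v : ℝ} (h : l.re + 1 ≤ u) :
    ‖ker l (u + v * I) - 1‖ ≤ 2 * Real.exp (l.re - u) := by
  have h1 : ‖exp (l - (u + v * I))‖ = Real.exp (l.re - u) := by rw [norm_exp]; simp
  have h2 : Real.exp (l.re - u) ≤ 1 / 2 := by
    have : 2 ≤ Real.exp (u - l.re) := by linarith [Real.add_one_le_exp (u - l.re)]
    rw [show l.re - u = -(u - l.re) by ring, Real.exp_neg, one_div]
    exact inv_anti₀ (by norm_num) this
  have h3 : 1 / 2 ≤ ‖1 - exp (l - (u + v * I))‖ := by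
    have := norm_sub_norm_le 1 (exp (l - (u + v * I)))
    rw [h1, norm_one] at this; linarith
  have hne : 1 - exp (l - (u + v * I)) ≠ 0 := by
    intro h0; rw [h0, norm_zero] at h3; linarith
  rw [show ker l (u + v * I) - 1 = exp (l - (u + v * I)) / (1 - exp (l - (u + v * I))) by
    rw [ker]; field_simp; ring, norm_div, h1, div_le_iff₀ (by linarith)]
  nlinarith [Real.exp_pos (l.re - u)]

end Crest.Agent.N207.L.X
end
end

-- ▼ part N207/L/Xb
section

/-!
Row 207, block L (helper82), lemma X, part b: limits and expansions in `e^{-l}` of almost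
periodic holomorphic functions on half strips.
-/

set_option autoImplicit false

open Complex Set Filter Topology MeasureTheory intervalIntegral
open scoped Real

noncomputable section

namespace Crest.Agent.N207.L.X

variable {E : Type*} [NormedAddCommGroup E] [NormedSpace ℂ E]

lemma Strip_mono {R R' Y Y' : ℝ} (h : R ≤ R') (h' : Y' ≤ Y) : Strip R' Y' ⊆ Strip R Y :=
  fun _ hl => ⟨lt_of_le_of_lt h hl.1, lt_of_lt_of_le hl.2 h'⟩

omit [NormedSpace ℂ E] in
lemma Bd.pos {b : ℝ} {g : ℂ → E} (h : Bd b g) (Y : ℝ) :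
    ∃ R C, 0 ≤ R ∧ 0 ≤ C ∧ ∀ l ∈ Strip R Y, ‖g l‖ ≤ C * Real.exp (-b * l.re) := by
  obtain ⟨R, C, h⟩ := h Y
  refine ⟨max R 0, max C 0, le_max_right _ _, le_max_right _ _, fun l hl => ?_⟩
  exact (h l (Strip_mono (le_max_left _ _) le_rfl hl)).trans
    (mul_le_mul_of_nonneg_right (le_max_left _ _) (Real.exp_pos _).le)

lemma exists_mean_lim [CompleteSpace E] {g : ℂ → E} (hg : Hol g) {a : ℝ} (ha : 0 < a)
    (hr : Bd a (fwdDiff pr g)) :
    ∃ (m : E) (R C : ℝ), 0 ≤ C ∧ ∀ u, R < u → ‖mean g u 0 - m‖ ≤ C * Real.exp (-a * u) := by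
  obtain ⟨R1, h1⟩ := hg (1 + 4)
  obtain ⟨R2, C, -, hC, h2⟩ := hr.pos (1 + 4)
  set R := max R1 R2
  have h1' := h1.mono (Strip_mono (le_max_left R1 R2) le_rfl)
  have h2' := fun l hl => h2 l (Strip_mono (le_max_right R1 R2) le_rfl hl)
  have key : ∀ u u', R < u → u ≤ u' → ‖mean g u' 0 - mean g u 0‖ ≤ C * (Real.exp (-a * u) / a) :=
    fun u u' hu huu => mean_sub_le ha h1' h2' hC hu huu (by simp)
  have ht : Tendsto (fun n : ℕ => R + 1 + (n : ℝ)) atTop atTop :=
    tendsto_atTop_add_const_left _ _ tendsto_natCast_atTop_atTop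
  have hc : CauchySeq fun n : ℕ => mean g (R + 1 + n) 0 := by
    refine cauchySeq_of_le_tendsto_0' (fun n : ℕ => C * (Real.exp (-a * (R + 1 + n)) / a))
      (fun n m hnm => ?_) ?_
    · rw [dist_comm, dist_eq_norm]
      exact key _ _ (by linarith [Nat.cast_nonneg (α := ℝ) n])
        (by have : (n : ℝ) ≤ m := by exact_mod_cast hnm
            linarith)
    · have := ((Real.tendsto_exp_atBot.comp (ht.const_mul_atTop_of_neg (neg_lt_zero.2 ha))).div_const
        a).const_mul C
      simpa using this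
  obtain ⟨m, hm⟩ := cauchySeq_tendsto_of_complete hc
  refine ⟨m, R, C / a, by positivity, fun u hu => ?_⟩
  rw [norm_sub_rev]
  refine le_of_tendsto ((hm.sub_const (mean g u 0)).norm) ?_
  filter_upwards [ht.eventually_ge_atTop u] with n hn
  exact (key u _ hu hn).trans (le_of_eq (by ring))

theorem exists_lim [CompleteSpace E] {g : ℂ → E} (hg : Hol g) {η a : ℝ} (hη0 : 0 ≤ η)
    (hη : η < 1) (hb : Bd (-η) g) (ha : 0 < a) (hr : Bd a (fwdDiff pr g)) :
    ∃ c : E, ∀ b, 0 ≤ b → b < a → b ≤ 1 - η → Bd b fun l => g l - c := by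
  obtain ⟨m, R0, C0, hC0, hm⟩ := exists_mean_lim hg ha hr
  refine ⟨((2 * π : ℝ) : ℂ)⁻¹ • m, fun b hb0 hba hb1 Y => ?_⟩
  obtain ⟨R1, h1⟩ := hg (Y + 4)
  obtain ⟨R2, C2, hR2, hC2, h2⟩ := hb.pos (Y + 4)
  obtain ⟨R3, C3, -, hC3, h3⟩ := hr.pos (Y + 4)
  obtain ⟨R, r0, r1, r2, r3⟩ : ∃ R, R0 ≤ R ∧ R1 ≤ R ∧ R2 ≤ R ∧ R3 ≤ R :=
    ⟨max (max R0 R1) (max R2 R3), by simp, by simp, by simp, by simp⟩
  have h1' := h1.mono (Strip_mono r1 le_rfl)
  have h2' := fun l hl => h2 l (Strip_mono r2 le_rfl hl)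
  have h3' := fun l hl => h3 l (Strip_mono r3 le_rfl hl)
  have hp := Real.pi_pos
  refine ⟨R + 2, C3 * Y + C0 + 8 * π * C2 + 8 * π * C2 * Real.exp (R + 1) +
    C3 * (Real.exp (-(a - b) * (R + 1)) / (a - b)), fun l hl => ?_⟩
  obtain ⟨hx, hy⟩ := hl
  have hY : 0 < Y := lt_of_le_of_lt (abs_nonneg _) hy
  set x := l.re with hxd
  set u := R + 1 with hu
  set u' := 2 * x / (1 - η) with hu'
  have e1 : (1 - η) * u' = 2 * x := by rw [hu']; field_simp [(sub_pos.2 hη).ne']
  have hx2 : 2 ≤ x := by linarith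
  have e2 : 2 * x ≤ u' := by
    rw [hu', le_div_iff₀ (by linarith)]; nlinarith
  have hlm : l ∈ Strip R (Y + 4) := ⟨by linarith, by linarith⟩
  have hc := cauchy h1' (u := u) (u' := u') (l := l) (by linarith) (by linarith) (by linarith) hy
  set T := Real.exp (-b * x) with hT
  have hT0 : 0 < T := Real.exp_pos _
  have gl : ‖g l‖ ≤ C2 * Real.exp (η * x) := by simpa using h2' l hlm
  have gv : ∀ s v : ℝ, R < s → v ∈ uIoc (l.im - π) (l.im + π) →
      ‖g (s + v * I)‖ ≤ C2 * Real.exp (η * s) := fun s v hs hv => by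
    simpa using h2' _ (mem_of hs hy (uIoc_subset_uIcc hv))
  have len : |l.im + π - (l.im - π)| = 2 * π := by
    rw [show l.im + π - (l.im - π) = 2 * π by ring, abs_of_pos (by positivity)]
  have cv : ContinuousOn (fun v : ℝ => g (u' + v * I)) (uIcc (l.im - π) (l.im + π)) :=
    h1'.continuousOn.comp (by fun_prop) fun v hv => mem_of (by linarith) hy hv
  have ck : Continuous fun v : ℝ => ker l (u' + v * I) := by
    refine Continuous.inv₀ (by fun_prop) fun v h0 => ?_
    have h5 : ‖exp (l - (u' + v * I))‖ = 1 := by rw [← sub_eq_zero.1 h0, norm_one]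
    rw [norm_exp, Real.exp_eq_one_iff] at h5
    simp at h5; linarith
  -- the right side
  set A2 := ∫ v in (l.im - π)..(l.im + π), (ker l (u' + v * I) - 1) • (g (u' + v * I) - g l)
  have eA : (∫ v in (l.im - π)..(l.im + π), ker l (u' + v * I) • (g (u' + v * I) - g l)) =
      A2 + (mean g u' l.im - ((2 * π : ℝ) : ℂ) • g l) := by
    have i1 : IntervalIntegrable (fun v : ℝ => (ker l (u' + v * I) - 1) • (g (u' + v * I) - g l))
        volume (l.im - π) (l.im + π) :=
      (((ck.sub continuous_const).continuousOn).smul (cv.sub continuousOn_const)).intervalIntegrable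
    have i2 : IntervalIntegrable (fun v : ℝ => g (u' + v * I) - g l) volume (l.im - π) (l.im + π) :=
      (cv.sub continuousOn_const).intervalIntegrable
    have e3 : (∫ v in (l.im - π)..(l.im + π), (g (u' + v * I) - g l)) =
        mean g u' l.im - ((2 * π : ℝ) : ℂ) • g l := by
      rw [integral_sub cv.intervalIntegrable intervalIntegrable_const, intervalIntegral.integral_const,
        show l.im + π - (l.im - π) = 2 * π by ring, ← Complex.coe_smul]; rfl
    rw [← e3, ← integral_add i1 i2]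
    congr 1; funext v; rw [sub_smul, one_smul]; abel
  set A1 := ∫ v in (l.im - π)..(l.im + π), ker l (u + v * I) • (g (u + v * I) - g l)
  set B := ∫ s in u..u', (((1 + Real.exp (l.re - s))⁻¹ : ℝ) : ℂ) •
        fwdDiff pr g (s + ((l.im - π : ℝ) : ℂ) * I)
  have b1 : ‖mean g u' l.im - mean g u' 0‖ ≤ C3 * Y * T := by
    refine (mean_sub_y h1' h3' (by linarith) hy).trans ?_
    have : Real.exp (-a * u') ≤ T := Real.exp_le_exp.2 (by nlinarith)
    calc _ = C3 * Y * Real.exp (-a * u') := by ring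
      _ ≤ _ := by gcongr
  have b2 : ‖mean g u' 0 - m‖ ≤ C0 * T := by
    refine (hm u' (by linarith)).trans ?_
    have : Real.exp (-a * u') ≤ T := Real.exp_le_exp.2 (by nlinarith)
    gcongr
  have b3 : ‖A2‖ ≤ 8 * π * C2 * T := by
    refine (intervalIntegral.norm_integral_le_of_norm_le_const (C := 4 * C2 * T)
      fun v hv => ?_).trans (le_of_eq (by rw [len]; ring))
    rw [norm_smul]
    have f1 : ‖g (u' + v * I) - g l‖ ≤ 2 * C2 * Real.exp (η * u') := by
      have : Real.exp (η * x) ≤ Real.exp (η * u') := Real.exp_le_exp.2 (by nlinarith)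
      have := (norm_sub_le _ _).trans (add_le_add (gv u' v (by linarith) hv) gl)
      nlinarith
    have f2 : Real.exp (x - u') * Real.exp (η * u') ≤ T := by
      rw [← Real.exp_add]; exact Real.exp_le_exp.2 (by nlinarith)
    calc _ ≤ 2 * Real.exp (x - u') * (2 * C2 * Real.exp (η * u')) := by
          gcongr; exact norm_ker_right (by linarith)
      _ = 4 * C2 * (Real.exp (x - u') * Real.exp (η * u')) := by ring
      _ ≤ _ := by gcongr
  have b4 : ‖A1‖ ≤ 8 * π * C2 * Real.exp u * T := by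
    refine (intervalIntegral.norm_integral_le_of_norm_le_const (C := 4 * C2 * Real.exp u * T)
      fun v hv => ?_).trans (le_of_eq (by rw [len]; ring))
    rw [norm_smul]
    have f1 : ‖g (u + v * I) - g l‖ ≤ 2 * C2 * Real.exp (η * x) := by
      have : Real.exp (η * u) ≤ Real.exp (η * x) := Real.exp_le_exp.2 (by nlinarith)
      have := (norm_sub_le _ _).trans (add_le_add (gv u v (by linarith) hv) gl)
      nlinarith
    have f2 : Real.exp (u - x) * Real.exp (η * x) ≤ Real.exp u * T := by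
      rw [← Real.exp_add, ← Real.exp_add]; exact Real.exp_le_exp.2 (by nlinarith)
    calc _ ≤ 2 * Real.exp (u - x) * (2 * C2 * Real.exp (η * x)) := by
          gcongr; exact norm_ker_left (by linarith)
      _ = 4 * C2 * (Real.exp (u - x) * Real.exp (η * x)) := by ring
      _ ≤ 4 * C2 * (Real.exp u * T) := by gcongr
      _ = _ := by ring
  have b5 : ‖B‖ ≤ C3 * (Real.exp (-(a - b) * u) / (a - b)) * T := by
    refine (intervalIntegral.norm_integral_le_of_norm_le (by linarith)
      (g := fun s => C3 * T * Real.exp (-(a - b) * s)) (Eventually.of_forall fun s hs => ?_)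
      (Continuous.intervalIntegrable (by fun_prop) _ _)).trans ?_
    · rw [norm_smul, norm_real, Real.norm_of_nonneg (by positivity)]
      have f1 : ‖fwdDiff pr g (s + ((l.im - π : ℝ) : ℂ) * I)‖ ≤ C3 * Real.exp (-a * s) := by
        simpa using h3' _ (mem_of (u := s) (by linarith [hs.1]) hy left_mem_uIcc)
      calc _ ≤ Real.exp (b * (s - x)) * (C3 * Real.exp (-a * s)) := by
            gcongr; exact kb_le hb0 (by linarith)
        _ = C3 * (Real.exp (b * (s - x)) * Real.exp (-a * s)) := by ring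
        _ = _ := by rw [hT, mul_assoc, ← Real.exp_add, ← Real.exp_add]; congr 2; ring
    · rw [intervalIntegral.integral_const_mul]
      calc _ ≤ C3 * T * (Real.exp (-(a - b) * u) / (a - b)) :=
            mul_le_mul_of_nonneg_left (int_exp_le (by linarith)) (by positivity)
        _ = _ := by ring
  have hid : ((2 * π : ℝ) : ℂ) • (g l - ((2 * π : ℝ) : ℂ)⁻¹ • m) =
      (mean g u' l.im - mean g u' 0) + (mean g u' 0 - m) + A2 - A1 + I • B := by
    have hne : ((2 * π : ℝ) : ℂ) ≠ 0 := by exact_mod_cast (by positivity : (2 * π : ℝ) ≠ 0)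
    rw [← hc, eA, smul_sub, smul_inv_smul₀ hne, smul_sub, smul_smul, smul_smul, I_mul_I]
    simp only [neg_smul, one_smul]; abel
  have hn : ‖g l - ((2 * π : ℝ) : ℂ)⁻¹ • m‖ ≤ ‖((2 * π : ℝ) : ℂ) • (g l - ((2 * π : ℝ) : ℂ)⁻¹ • m)‖ := by
    rw [norm_smul, norm_real, Real.norm_of_nonneg (by positivity)]
    nlinarith [norm_nonneg (g l - ((2 * π : ℝ) : ℂ)⁻¹ • m), Real.pi_gt_three]
  refine hn.trans ?_
  rw [hid]
  have t1 := norm_add_le ((mean g u' l.im - mean g u' 0) + (mean g u' 0 - m) + A2 - A1) (I • B)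
  have t2 := norm_sub_le ((mean g u' l.im - mean g u' 0) + (mean g u' 0 - m) + A2) A1
  have t3 := norm_add_le ((mean g u' l.im - mean g u' 0) + (mean g u' 0 - m)) A2
  have t4 := norm_add_le (mean g u' l.im - mean g u' 0) (mean g u' 0 - m)
  rw [norm_smul, norm_I, one_mul] at t1
  linarith

end Crest.Agent.N207.L.X
end
end

-- ▼ part N207/L/Xc
section

/-!
Row 207, block L (helper82), lemma X, part c: expansions on half strips, uniqueness.
-/

set_option autoImplicit false

open Complex Set Filter Topology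
open scoped Real

noncomputable section

namespace Crest.Agent.N207.L.X

variable {E : Type*} [NormedAddCommGroup E] [NormedSpace ℂ E]

section basic
omit [NormedSpace ℂ E]

/-- `O(e^{-b Re l})` for all `b < a` -/
def Sm (a : ℝ) (g : ℂ → E) : Prop := ∀ b, b < a → Bd b g

lemma Bd.mono {b b' : ℝ} {g : ℂ → E} (h : Bd b g) (hb : b' ≤ b) : Bd b' g := fun Y => by
  obtain ⟨R, C, hR, hC, h⟩ := h.pos Y
  refine ⟨R, C, fun l hl => (h l hl).trans ?_⟩
  have : 0 ≤ l.re := hR.trans hl.1.le
  gcongr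

lemma Bd.add {b : ℝ} {f g : ℂ → E} (hf : Bd b f) (hg : Bd b g) : Bd b fun l => f l + g l :=
  fun Y => by
  obtain ⟨R, C, h⟩ := hf Y
  obtain ⟨R', C', h'⟩ := hg Y
  refine ⟨max R R', C + C', fun l hl => (norm_add_le _ _).trans ?_⟩
  rw [add_mul]
  exact add_le_add (h l (Strip_mono (le_max_left _ _) le_rfl hl))
    (h' l (Strip_mono (le_max_right _ _) le_rfl hl))

lemma Bd.neg {b : ℝ} {f : ℂ → E} (hf : Bd b f) : Bd b fun l => -f l := fun Y => by
  simpa only [norm_neg] using hf Y

lemma Bd.sub {b : ℝ} {f g : ℂ → E} (hf : Bd b f) (hg : Bd b g) : Bd b fun l => f l - g l := by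
  simpa only [sub_eq_add_neg] using hf.add hg.neg

lemma Bd.zero (b : ℝ) : Bd b fun _ => (0 : E) := fun _ => ⟨0, 0, fun _ _ => by simp⟩

lemma Bd.sum {ι : Type*} {b : ℝ} (s : Finset ι) {f : ι → ℂ → E} (h : ∀ i ∈ s, Bd b (f i)) :
    Bd b fun l => ∑ i ∈ s, f i l := by
  classical
  induction s using Finset.induction_on with
  | empty => simpa using Bd.zero b
  | insert a s ha ih =>
    simp only [Finset.sum_insert ha]
    exact (h a (Finset.mem_insert_self _ _)).add (ih fun i hi => h i (Finset.mem_insert_of_mem hi))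

lemma Bd.const (c : E) : Bd 0 fun _ => c := fun _ => ⟨0, ‖c‖, fun _ _ => by simp⟩

lemma shift_mem {R Y : ℝ} {l : ℂ} (hl : l ∈ Strip R Y) : l + pr ∈ Strip R (Y + 7) := by
  refine ⟨by simpa [pr] using hl.1, ?_⟩
  have h1 : (l + pr).im = l.im + 2 * π := by simp [pr]
  have := abs_lt.1 hl.2
  rw [h1, abs_lt]; constructor <;> linarith [Real.pi_pos, Real.pi_lt_d2]

lemma Bd.dif {b : ℝ} {f : ℂ → E} (hf : Bd b f) : Bd b (fwdDiff pr f) := by
  refine Bd.sub (f := fun l => f (l + pr)) (fun Y => ?_) hf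
  obtain ⟨R, C, h⟩ := hf (Y + 7)
  exact ⟨R, C, fun l hl => by simpa [pr] using h _ (shift_mem hl)⟩

lemma Bd.const_eq_zero {b : ℝ} (hb : 0 < b) {c : E} (h : Bd b fun _ => c) : c = 0 := by
  obtain ⟨R, C, h⟩ := h 1
  have ht : Tendsto (fun x : ℝ => C * Real.exp (-b * x)) atTop (𝓝 0) := by
    simpa using (Real.tendsto_exp_atBot.comp
      (tendsto_id.const_mul_atTop_of_neg (neg_lt_zero.2 hb))).const_mul C
  refine norm_le_zero_iff.1 (ge_of_tendsto ht ?_)
  filter_upwards [eventually_gt_atTop R] with x hx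
  simpa using h x ⟨by simpa using hx, by simp⟩

end basic

lemma Bd.exp_smul {b : ℝ} {f : ℂ → E} (hf : Bd b f) (k : ℝ) :
    Bd (b + k) fun l => exp (-k * l) • f l := fun Y => by
  obtain ⟨R, C, h⟩ := hf Y
  refine ⟨R, C, fun l hl => ?_⟩
  rw [norm_smul, norm_exp, show -(b + k) * l.re = -b * l.re + -k * l.re by ring, Real.exp_add,
    ← mul_assoc, mul_comm]
  have : (-(k : ℂ) * l).re = -k * l.re := by simp
  rw [this]
  exact mul_le_mul_of_nonneg_right (h l hl) (Real.exp_pos _).le

lemma Bd.pow_smul {b : ℝ} (hb : b < 0) (j : ℕ) (c : E) : Bd b fun l => l ^ j • c := fun Y => by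
  refine ⟨max Y 0, 2 ^ j * (j.factorial / (-b) ^ j) * ‖c‖, fun l hl => ?_⟩
  have h1 : 0 < l.re := lt_of_le_of_lt (le_max_right _ _) hl.1
  have h2 : ‖l‖ ≤ 2 * l.re := by
    have := norm_le_abs_re_add_abs_im l
    rw [abs_of_pos h1] at this
    linarith [hl.2, lt_of_le_of_lt (le_max_left _ _) hl.1]
  have hb' : 0 < -b := by linarith
  have h3 : l.re ^ j ≤ j.factorial / (-b) ^ j * Real.exp (-b * l.re) := by
    have := Real.pow_div_factorial_le_exp (-b * l.re) (by positivity) j
    rw [div_le_iff₀ (by positivity), mul_pow] at this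
    rw [div_mul_eq_mul_div, le_div_iff₀ (by positivity)]; linarith
  rw [norm_smul, norm_pow]
  calc ‖l‖ ^ j * ‖c‖ ≤ (2 * l.re) ^ j * ‖c‖ := by gcongr
    _ = 2 ^ j * l.re ^ j * ‖c‖ := by rw [mul_pow]
    _ ≤ 2 ^ j * (j.factorial / (-b) ^ j * Real.exp (-b * l.re)) * ‖c‖ := by gcongr
    _ = _ := by ring

lemma Hol.of_diff {f : ℂ → E} (h : Differentiable ℂ f) : Hol f := fun _ => ⟨0, h.differentiableOn⟩

lemma Hol.sub {f g : ℂ → E} (hf : Hol f) (hg : Hol g) : Hol fun l => f l - g l := fun Y => by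
  obtain ⟨R, h⟩ := hf Y
  obtain ⟨R', h'⟩ := hg Y
  exact ⟨max R R', (h.mono (Strip_mono (le_max_left _ _) le_rfl)).sub
    (h'.mono (Strip_mono (le_max_right _ _) le_rfl))⟩

lemma Hol.smul {f : ℂ → E} (hf : Hol f) {φ : ℂ → ℂ} (hφ : Differentiable ℂ φ) :
    Hol fun l => φ l • f l := fun Y => by
  obtain ⟨R, h⟩ := hf Y
  exact ⟨R, hφ.differentiableOn.smul h⟩

lemma Hol.dif {f : ℂ → E} (hf : Hol f) : Hol (fwdDiff pr f) := by
  refine Hol.sub (f := fun l => f (l + pr)) (fun Y => ?_) hf
  obtain ⟨R, h⟩ := hf (Y + 7)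
  exact ⟨R, h.comp (by fun_prop) fun l hl => shift_mem hl⟩

lemma exp_pr (k : ℤ) (l : ℂ) : exp (k * (l + pr)) = exp (k * l) := by
  rw [mul_add, exp_add, pr, exp_int_mul_two_pi_mul_I, mul_one]

theorem one_step [CompleteSpace E] {g : ℂ → E} (hg : Hol g) (hb : Bd (-(1 / 2)) g) {a : ℝ}
    (ha : 0 < a) (hr : Sm a (fwdDiff pr g)) : ∃ c : E, Sm (min a 1) fun l => g l - c := by
  obtain ⟨c, hc⟩ := exists_lim hg (η := 1 / 2) (a := a / 2) (by norm_num) (by norm_num) hb
    (by linarith) (hr _ (by linarith))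
  have h0 : Bd (-0) g := by
    simpa using (hc 0 le_rfl (by linarith) (by norm_num)).add (Bd.const c)
  refine ⟨c, fun b hb1 => ?_⟩
  have hba : b < a := lt_of_lt_of_le hb1 (min_le_left _ _)
  have hb2 : b < 1 := lt_of_lt_of_le hb1 (min_le_right _ _)
  set b' := max b (min (a / 4) (1 / 2)) with hb'
  have p0 : 0 < min (a / 4) (1 / 2) := lt_min (by linarith) (by norm_num)
  have p1 : b' < a := max_lt hba (lt_of_le_of_lt (min_le_left _ _) (by linarith))
  have p2 : b' ≤ 1 - 0 := max_le (by linarith) ((min_le_right _ _).trans (by norm_num))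
  obtain ⟨c', hc'⟩ := exists_lim hg (η := 0) (a := (b' + a) / 2) le_rfl one_pos h0
    (by linarith [le_max_right b (min (a / 4) (1 / 2))]) (hr _ (by linarith))
  have h1 := hc' b' (p0.le.trans (le_max_right _ _)) (by linarith) p2
  have h2 : c - c' = 0 := by
    refine Bd.const_eq_zero p0 ?_
    simpa using (h1.mono (le_max_right _ _)).sub (hc _ p0.le
      (lt_of_le_of_lt (min_le_left _ _) (by linarith)) ((min_le_right _ _).trans (by norm_num)))
  rw [sub_eq_zero.1 h2]
  exact h1.mono (le_max_left _ _)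

theorem periodic_exp [CompleteSpace E] (K : ℕ) : ∀ (g : ℂ → E) (a : ℝ), K < a → a ≤ K + 1 →
    Hol g → Bd (-(1 / 2)) g → Sm a (fwdDiff pr g) →
    ∃ c : ℕ → E, Sm a fun l => g l - ∑ k ∈ Finset.range (K + 1), exp (-k * l) • c k := by
  induction K with
  | zero =>
    intro g a h1 h2 hg hb hr
    obtain ⟨c, hc⟩ := one_step hg hb (by simpa using h1) hr
    rw [min_eq_left (by simpa using h2)] at hc
    exact ⟨fun _ => c, by simpa using hc⟩
  | succ K ih =>
    intro g a h1 h2 hg hb hr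
    push_cast at h1 h2
    have hK : (0 : ℝ) ≤ K := Nat.cast_nonneg K
    obtain ⟨c, hc⟩ := one_step hg hb (by linarith) hr
    rw [min_eq_right (by linarith)] at hc
    obtain ⟨c', hc'⟩ := ih (fun l => exp (-((-1 : ℝ) : ℂ) * l) • (g l - c)) (a - 1) (by linarith)
      (by linarith) ((hg.sub (Hol.of_diff (by fun_prop))).smul (by fun_prop))
      (by have := (hc (1 / 2) (by norm_num)).exp_smul (-1)
          norm_num at this ⊢; exact this)
      (fun b hb => by
        have := (hr (b + 1) (by linarith)).exp_smul (-1)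
        rw [show b + 1 + -1 = b by ring] at this
        convert this using 2 with l
        have e := exp_pr 1 l
        simp only [Int.cast_one, one_mul] at e
        simp only [fwdDiff, ofReal_neg, ofReal_one, neg_neg, one_mul, e, smul_sub]
        abel)
    refine ⟨fun k => Nat.casesOn k c c', fun b hb => ?_⟩
    have := (hc' (b - 1) (by linarith)).exp_smul 1
    rw [show b - 1 + 1 = b by ring] at this
    convert this using 2 with l
    rw [Finset.sum_range_succ', smul_sub, smul_smul, ← exp_add, Finset.smul_sum]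
    simp only [smul_smul, ← exp_add]
    have e1 : ∀ k : ℕ, -((k + 1 : ℕ) : ℂ) * l = -((1 : ℝ) : ℂ) * l + -(k : ℂ) * l := fun k => by
      push_cast; ring
    simp only [e1]
    simp; abel

/-- polynomial functions of degree `< d` -/
def pf (d : ℕ) (c : ℕ → E) (l : ℂ) : E := ∑ j ∈ Finset.range d, l ^ j • c j

lemma pf_diff (d : ℕ) (c : ℕ → E) : Differentiable ℂ (pf d c) := by unfold pf; fun_prop

lemma pf_bd {b : ℝ} (hb : b < 0) (d : ℕ) (c : ℕ → E) : Bd b (pf d c) :=
  Bd.sum _ fun j _ => Bd.pow_smul hb j (c j)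

lemma pr_ne : pr ≠ 0 := by simp [pr]

lemma anti_dif (d : ℕ) : ∀ c : ℕ → E, ∃ c' : ℕ → E,
    ∀ l, pf (d + 1) c' (l + pr) - pf (d + 1) c' l = pf d c l := by
  induction d with
  | zero => exact fun c => ⟨fun _ => 0, fun l => by simp [pf]⟩
  | succ d ih =>
    intro c
    set e : E := (((d + 1 : ℕ) : ℂ) * pr)⁻¹ • c d with he
    obtain ⟨c', hc'⟩ := ih fun j => c j - (pr ^ (d + 1 - j) * ((d + 1).choose j : ℂ)) • e
    refine ⟨fun j => if j = d + 1 then e else c' j, fun l => ?_⟩
    have e1 : ∀ z, pf (d + 1 + 1) (fun j => if j = d + 1 then e else c' j) z =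
        pf (d + 1) c' z + z ^ (d + 1) • e := fun z => by
      unfold pf
      rw [Finset.sum_range_succ]
      simp only [if_true]
      congr 1
      exact Finset.sum_congr rfl fun j hj => by rw [if_neg (Finset.mem_range.1 hj).ne]
    have e2 : (l + pr) ^ (d + 1) • e = (∑ j ∈ Finset.range d,
        l ^ j • (pr ^ (d + 1 - j) * ((d + 1).choose j : ℂ)) • e) + l ^ d • c d + l ^ (d + 1) • e := by
      rw [add_pow, Finset.sum_range_succ, Finset.sum_range_succ, add_smul, add_smul,
        Finset.sum_smul]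
      congr 1
      · congr 1
        · exact Finset.sum_congr rfl fun j _ => by rw [mul_assoc, mul_smul (l ^ j)]
        · rw [he, smul_smul]
          congr 1
          have h1 : ((d + 1 : ℕ) : ℂ) ≠ 0 := Nat.cast_ne_zero.2 (Nat.succ_ne_zero d)
          have := pr_ne
          rw [Nat.choose_succ_self_right, show d + 1 - d = 1 by omega]
          field_simp
      · simp
    have e3 := hc' l
    rw [e1, e1, e2]
    have e4 : pf (d + 1) c l = pf d c l + l ^ d • c d := by unfold pf; rw [Finset.sum_range_succ]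
    have e5 : pf d (fun j => c j - (pr ^ (d + 1 - j) * ((d + 1).choose j : ℂ)) • e) l =
        pf d c l - ∑ j ∈ Finset.range d,
          l ^ j • (pr ^ (d + 1 - j) * ((d + 1).choose j : ℂ)) • e := by
      unfold pf; rw [← Finset.sum_sub_distrib]
      exact Finset.sum_congr rfl fun j _ => smul_sub _ _ _
    rw [e5] at e3
    rw [e4, eq_sub_iff_add_eq.1 e3 |>.symm]; abel

/-- exponential polynomials -/
def ep (K : ℕ) (d : ℕ → ℕ) (c : ℕ → ℕ → E) (l : ℂ) : E :=
  ∑ k ∈ Finset.range K, exp (-k * l) • pf (d k) (c k) l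

lemma ep_diff (K : ℕ) (d : ℕ → ℕ) (c : ℕ → ℕ → E) : Differentiable ℂ (ep K d c) := by
  unfold ep
  exact Differentiable.fun_sum fun k _ => Differentiable.smul (by fun_prop) (pf_diff _ _)

lemma term_bd {b : ℝ} (k d : ℕ) (c : ℕ → E) (hb : b < k) :
    Bd b fun l => exp (-k * l) • pf d c l := by
  have := (pf_bd (b := b - k) (by linarith) d c).exp_smul k
  rw [show b - k + k = b by ring] at this
  simpa using this

lemma ep_bd (K : ℕ) (d : ℕ → ℕ) (c : ℕ → ℕ → E) : Bd (-(1 / 2)) (ep K d c) :=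
  Bd.sum _ fun k _ => term_bd k _ _ (by linarith [Nat.cast_nonneg (α := ℝ) k])

theorem step_exp [CompleteSpace E] {K d : ℕ} {g : ℂ → E} {a : ℝ} (h1 : K < a) (h2 : a ≤ K + 1)
    (hg : Hol g) (hb : Bd (-(1 / 2)) g) {c : ℕ → ℕ → E}
    (hr : Sm a fun l => fwdDiff pr g l - ep (K + 1) (fun _ => d) c l) :
    ∃ c' : ℕ → ℕ → E, Sm a fun l => g l - ep (K + 1) (fun _ => d + 1) c' l := by
  choose F hF using fun k => anti_dif d (c k)
  obtain ⟨e, he⟩ := periodic_exp K (fun l => g l - ep (K + 1) (fun _ => d + 1) F l) a h1 h2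
    (hg.sub (Hol.of_diff (ep_diff _ _ _))) (hb.sub (ep_bd _ _ _)) (by
      convert hr using 2 with l
      have e1 : ep (K + 1) (fun _ => d + 1) F (l + pr) - ep (K + 1) (fun _ => d + 1) F l =
          ep (K + 1) (fun _ => d) c l := by
        unfold ep
        rw [← Finset.sum_sub_distrib]
        refine Finset.sum_congr rfl fun k _ => ?_
        have e := exp_pr (-k) l
        push_cast at e
        rw [e, ← smul_sub, hF]
      simp only [fwdDiff]
      rw [← e1]; abel)
  refine ⟨fun k j => F k j + if j = 0 then e k else 0, ?_⟩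
  convert he using 2 with l
  rw [sub_sub]
  congr 1
  unfold ep
  rw [← Finset.sum_add_distrib]
  refine Finset.sum_congr rfl fun k _ => ?_
  rw [← smul_add]
  congr 1
  unfold pf
  simp only [smul_add, Finset.sum_add_distrib]
  congr 1
  rw [Finset.sum_range_succ']
  simp

theorem iter_exp [CompleteSpace E] {K : ℕ} {a : ℝ} (h1 : K < a) (h2 : a ≤ K + 1) (M : ℕ) :
    ∀ g : ℂ → E, Hol g → Bd (-(1 / 2)) g → Sm a ((fwdDiff pr)^[M] g) →
    ∃ c : ℕ → ℕ → E, Sm a fun l => g l - ep (K + 1) (fun _ => M) c l := by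
  induction M with
  | zero => exact fun g _ _ h => ⟨fun _ _ => 0, by simpa [ep, pf] using h⟩
  | succ M ih =>
    intro g hg hb h
    obtain ⟨c, hc⟩ := ih _ hg.dif hb.dif h
    exact step_exp h1 h2 hg hb hc

lemma pf_eq_zero {b : ℝ} (hb : 0 < b) (d : ℕ) : ∀ c : ℕ → E, Bd b (pf d c) →
    ∀ j < d, c j = 0 := by
  induction d with
  | zero => exact fun _ _ j hj => absurd hj (Nat.not_lt_zero j)
  | succ d ih =>
    intro c h
    have hd : c d = 0 := by
      obtain ⟨R, C, -, hC, h⟩ := h.pos 1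
      have t1 : Tendsto (fun x : ℝ => ((x : ℂ) ^ d)⁻¹ • pf (d + 1) c x) atTop (𝓝 0) := by
        have ht : Tendsto (fun x : ℝ => C * Real.exp (-b * x)) atTop (𝓝 0) := by
          simpa using (Real.tendsto_exp_atBot.comp
            (tendsto_id.const_mul_atTop_of_neg (neg_lt_zero.2 hb))).const_mul C
        refine squeeze_zero_norm' ?_ ht
        filter_upwards [eventually_gt_atTop R, eventually_ge_atTop 1] with x hx hx1
        rw [norm_smul, norm_inv, norm_pow, norm_real, Real.norm_of_nonneg (by linarith)]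
        have h3 : ‖pf (d + 1) c x‖ ≤ C * Real.exp (-b * x) := by
          simpa using h x ⟨by simpa using hx, by simp⟩
        have h4 : (x ^ d)⁻¹ ≤ 1 := inv_le_one_of_one_le₀ (one_le_pow₀ hx1)
        calc _ ≤ 1 * (C * Real.exp (-b * x)) := by gcongr
          _ = _ := one_mul _
      have t2 : Tendsto (fun x : ℝ => ((x : ℂ) ^ d)⁻¹ • pf (d + 1) c x) atTop
          (𝓝 ((∑ j ∈ Finset.range d, (0 : ℂ) • c j) + c d)) := by
        refine Tendsto.congr' (f₁ := fun x : ℝ => (∑ j ∈ Finset.range d,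
          (((x ^ (d - j))⁻¹ : ℝ) : ℂ) • c j) + c d) ?_ ?_
        · filter_upwards [eventually_gt_atTop 0] with x hx
          have hx' : (x : ℂ) ≠ 0 := ofReal_ne_zero.2 hx.ne'
          unfold pf
          rw [Finset.sum_range_succ, smul_add, Finset.smul_sum, smul_smul, inv_mul_cancel₀
            (pow_ne_zero _ hx'), one_smul]
          congr 1
          refine Finset.sum_congr rfl fun j hj => ?_
          rw [smul_smul]
          congr 1
          have : d = j + (d - j) := by have := Finset.mem_range.1 hj; omega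
          push_cast
          conv_rhs => rw [this, pow_add]
          field_simp
        · refine Tendsto.add_const _ (tendsto_finsetSum _ fun j hj => Tendsto.smul_const ?_ _)
          rw [← ofReal_zero]
          refine (continuous_ofReal.tendsto _).comp (tendsto_inv_atTop_zero.comp
            (tendsto_pow_atTop ?_))
          have := Finset.mem_range.1 hj; omega
      simpa using (tendsto_nhds_unique t2 t1)
    intro j hj
    rcases Nat.lt_succ_iff_lt_or_eq.1 hj with hj | rfl
    · refine ih c ?_ j hj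
      convert h using 1
      funext l; unfold pf; rw [Finset.sum_range_succ, hd]; simp
    · exact hd

theorem ep_eq_zero (K : ℕ) : ∀ (a : ℝ) (d : ℕ → ℕ) (c : ℕ → ℕ → E), (K : ℝ) < a + 1 →
    Sm a (ep K d c) → ∀ k < K, ∀ j < d k, c k j = 0 := by
  intro a d c hK h k
  induction k using Nat.strong_induction_on with
  | _ k ih =>
    intro hk
    have hka : (k : ℝ) + 1 ≤ K := by exact_mod_cast hk
    set b := min ((a - k) / 2) (1 / 2) with hb
    have hb0 : 0 < b := lt_min (by linarith) (by norm_num)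
    have hb1 : b ≤ (a - k) / 2 := min_le_left _ _
    have hb2 : b ≤ 1 / 2 := min_le_right _ _
    refine pf_eq_zero hb0 _ _ ?_
    have h1 : Bd (k + b) fun l => ep K d c l - ∑ k' ∈ (Finset.range K).erase k,
        exp (-k' * l) • pf (d k') (c k') l := by
      refine (h _ (by linarith)).sub (Bd.sum _ fun k' hk' => ?_)
      rcases lt_or_gt_of_ne (Finset.ne_of_mem_erase hk') with h2 | h2
      · convert Bd.zero (E := E) (k + b) using 2 with l
        unfold pf
        rw [Finset.sum_eq_zero, smul_zero]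
        intro j hj
        rw [ih k' h2 (h2.trans hk) j (Finset.mem_range.1 hj), smul_zero]
      · have : (k : ℝ) + 1 ≤ k' := by exact_mod_cast h2
        exact term_bd _ _ _ (by linarith)
    have h2 := h1.exp_smul (-k)
    rw [show (k : ℝ) + b + -k = b by ring] at h2
    convert h2 using 2 with l
    unfold ep
    rw [← Finset.add_sum_erase _ _ (Finset.mem_range.2 hk), add_sub_cancel_right, smul_smul,
      ← exp_add]
    simp

end Crest.Agent.N207.L.X
end
end

-- ▼ part N207/L/Xd

/-!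
Row 207, block L (helper82), lemma X: a bounded holomorphic function whose iterated `2πi`
differences decay has an exponential polynomial expansion on a logarithmic domain.
-/

set_option autoImplicit false

open Complex Set Filter Topology
open scoped Real

noncomputable section

namespace Crest.Agent.N207.L

variable {E : Type*} [NormedAddCommGroup E] [NormedSpace ℂ E]

/-- the exponentially wide domain -/
def Wd (R0 c δ : ℝ) : Set ℂ := {l | R0 < l.re ∧ |l.im| < c * Real.exp (δ * l.re)}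

namespace X

omit [NormedSpace ℂ E] in
lemma newton (M : ℕ) : ∀ (v : ℕ → E) (A : ℝ) (n : ℕ), 0 ≤ A → (∀ m < M, ‖v m‖ ≤ A) →
    (∀ m, m + M ≤ n → ‖(fwdDiff 1)^[M] v m‖ ≤ A) → ‖v n‖ ≤ 2 ^ M * A * (1 + n) ^ M := by
  induction M with
  | zero => intro v A n _ _ h; simpa using h n (by simp)
  | succ M ih =>
    intro v A n hA h1 h2
    have hw : ∀ m < n, ‖fwdDiff 1 v m‖ ≤ 2 ^ M * (2 * A) * (1 + n) ^ M := fun m hm => by
      refine (ih (fwdDiff 1 v) (2 * A) m (by linarith) (fun k hk => ?_) fun k hk => ?_).trans ?_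
      · refine (norm_sub_le _ _).trans ?_
        linarith [h1 (k + 1) (by omega), h1 k (by omega)]
      · exact (h2 k (by omega)).trans (by linarith)
      · have : (m : ℝ) ≤ n := by exact_mod_cast hm.le
        gcongr
    have e : v n = v 0 + ∑ m ∈ Finset.range n, fwdDiff 1 v m := by
      simp only [fwdDiff]; rw [Finset.sum_range_sub]; abel
    have h3 : ‖∑ m ∈ Finset.range n, fwdDiff 1 v m‖ ≤ n * (2 ^ M * (2 * A) * (1 + n) ^ M) := by
      refine (norm_sum_le _ _).trans ?_
      simpa using Finset.sum_le_card_nsmul _ _ _ fun m hm => hw m (Finset.mem_range.1 hm)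
    have h4 : A ≤ 2 ^ M * (2 * A) * (1 + n) ^ M := by
      have p1 : (1 : ℝ) ≤ 2 ^ M := one_le_pow₀ (by norm_num)
      have p2 : (1 : ℝ) ≤ (1 + n) ^ M := one_le_pow₀ (by linarith [Nat.cast_nonneg (α := ℝ) n])
      calc A ≤ 1 * (2 * A) * 1 := by linarith
        _ ≤ _ := by gcongr
    rw [e]
    refine (norm_add_le _ _).trans ?_
    have h5 := h1 0 (Nat.succ_pos M)
    calc _ ≤ 2 ^ M * (2 * A) * (1 + n) ^ M + n * (2 ^ M * (2 * A) * (1 + n) ^ M) := by linarith
      _ = _ := by ring

omit [NormedSpace ℂ E] in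
lemma iter_up (M : ℕ) : ∀ (u : ℂ → E) (z : ℂ) (m : ℕ),
    (fwdDiff 1)^[M] (fun m : ℕ => u (z + m * pr)) m = (fwdDiff pr)^[M] u (z + m * pr) := by
  induction M with
  | zero => intros; rfl
  | succ M ih =>
    intro u z m
    rw [Function.iterate_succ_apply, Function.iterate_succ_apply, ← ih]
    have e : fwdDiff 1 (fun m : ℕ => u (z + m * pr)) = fun m : ℕ => fwdDiff pr u (z + m * pr) := by
      funext k
      simp only [fwdDiff]; congr 2; push_cast; ring
    rw [e]

lemma iter_down (M : ℕ) : ∀ (u : ℂ → E) (z : ℂ) (m : ℕ),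
    ‖(fwdDiff 1)^[M] (fun m : ℕ => u (z - m * pr)) m‖ =
      ‖(fwdDiff pr)^[M] u (z - (m + M : ℕ) * pr)‖ := by
  induction M with
  | zero => intros; rfl
  | succ M ih =>
    intro u z m
    rw [Function.iterate_succ_apply, Function.iterate_succ_apply]
    have e : fwdDiff 1 (fun m : ℕ => u (z - m * pr)) =
        fun m : ℕ => ((-1 : ℂ) • fwdDiff pr u) (z - pr - m * pr) := by
      funext k
      simp only [fwdDiff, Pi.smul_apply, neg_smul, one_smul, neg_sub]
      rw [show z - pr - k * pr + pr = z - k * pr by ring,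
        show z - ((k + 1 : ℕ) : ℂ) * pr = z - pr - k * pr by push_cast; ring]
    rw [e, ih, fwdDiff_iter_const_smul, Pi.smul_apply, norm_smul, norm_neg, norm_one, one_mul]
    congr 2; push_cast; ring

lemma iter_exp_smul (M k : ℕ) : ∀ f : ℂ → E, (fwdDiff pr)^[M] (fun l => exp (-k * l) • f l) =
    fun l => exp (-k * l) • (fwdDiff pr)^[M] f l := by
  induction M with
  | zero => intro f; rfl
  | succ M ih =>
    intro f
    rw [Function.iterate_succ_apply, Function.iterate_succ_apply, ← ih]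
    congr 1; funext l
    have e := exp_pr (-k) l
    push_cast at e
    simp only [fwdDiff, e, smul_sub]

lemma iter_pf (d : ℕ) : ∀ (M : ℕ) (c : ℕ → E), d ≤ M → (fwdDiff pr)^[M] (pf d c) = 0 := by
  induction d with
  | zero =>
    intro M c _
    have : pf 0 c = (0 : ℂ) • pf 0 c := by funext l; simp [pf]
    rw [this, fwdDiff_iter_const_smul, zero_smul]
  | succ d ih =>
    intro M c hM
    obtain ⟨M, rfl⟩ : ∃ M', M = M' + 1 := ⟨M - 1, by omega⟩
    rw [Function.iterate_succ_apply]
    have e : fwdDiff pr (pf (d + 1) c) = pf d fun i => ∑ j ∈ Finset.range (d + 1),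
        if i < j then (pr ^ (j - i) * (j.choose i : ℂ)) • c j else 0 := by
      funext l
      simp only [fwdDiff, pf, Finset.smul_sum]
      rw [← Finset.sum_sub_distrib, Finset.sum_comm]
      refine Finset.sum_congr rfl fun j hj => ?_
      have hj' : j ≤ d := Nat.lt_succ_iff.1 (Finset.mem_range.1 hj)
      rw [add_pow, Finset.sum_range_succ, add_smul, Finset.sum_smul]
      simp only [Nat.sub_self, pow_zero, mul_one, Nat.choose_self, Nat.cast_one,
        add_sub_cancel_right, smul_ite, smul_zero]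
      rw [← Finset.sum_filter]
      refine Finset.sum_congr ?_ fun i _ => by rw [mul_assoc, mul_smul]
      ext i; simp only [Finset.mem_range, Finset.mem_filter]; omega
    rw [e]
    exact ih M _ (by omega)

lemma iter_ep {K M : ℕ} {d : ℕ → ℕ} (h : ∀ k < K, d k ≤ M) (c : ℕ → ℕ → E) :
    (fwdDiff pr)^[M] (ep K d c) = 0 := by
  have e : ep K d c = ∑ k ∈ Finset.range K, fun l => exp (-k * l) • pf (d k) (c k) l := by
    funext l; simp [ep]
  rw [e, fwdDiff_iter_finsetSum]
  refine Finset.sum_eq_zero fun k hk => ?_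
  rw [iter_exp_smul, iter_pf _ _ _ (h k (Finset.mem_range.1 hk))]
  funext l; simp

lemma strip_sub {R0 c δ : ℝ} (hc : 0 < c) (hδ : 0 < δ) (Y : ℝ) :
    ∃ R, ∀ l : ℂ, R < l.re → |l.im| < Y → l ∈ Wd R0 c δ := by
  refine ⟨max R0 (Y / (c * δ)), fun l h1 h2 => ⟨lt_of_le_of_lt (le_max_left _ _) h1, ?_⟩⟩
  have h3 := lt_of_le_of_lt (le_max_right _ _) h1
  rw [div_lt_iff₀ (by positivity)] at h3
  have := Real.add_one_le_exp (δ * l.re)
  nlinarith

lemma pf_ext {d d' : ℕ} (h : d ≤ d') (c : ℕ → E) (l : ℂ) :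
    pf d' (fun j => if j < d then c j else 0) l = pf d c l := by
  unfold pf
  simp only [smul_ite, smul_zero]
  rw [← Finset.sum_filter]
  refine Finset.sum_congr ?_ fun _ _ => rfl
  ext i; simp only [Finset.mem_range, Finset.mem_filter]; omega

/-- coefficients independent of the order -/
theorem exists_co [CompleteSpace E] {D : ℕ} (hD : 0 < D) {N : ℂ → E} (hN : Hol N) (hb : Bd 0 N)
    (hM : ∀ M : ℕ, Bd (M / D) ((fwdDiff pr)^[M] N)) : ∃ co : ℕ → ℕ → E, ∀ K : ℕ,
      Sm (K + 1 / D) fun l => N l - ep (K + 1) (fun k => D * k + 1) co l := by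
  have hD1 : (1 : ℝ) ≤ D := by exact_mod_cast hD
  have q1 : (0 : ℝ) < 1 / D := by positivity
  have q2 : (1 : ℝ) / D ≤ 1 := by rw [div_le_one (by linarith)]; exact hD1
  have key : ∀ K : ℕ, ∃ c : ℕ → ℕ → E,
      Sm (K + 1 / D) fun l => N l - ep (K + 1) (fun _ => D * K + 1) c l := fun K =>
    iter_exp (by linarith) (by linarith) _ N hN (hb.mono (by norm_num)) fun b hb =>
      (hM (D * K + 1)).mono (by push_cast; rw [add_div, mul_div_cancel_left₀ _ (by linarith)]
                                exact hb.le)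
  choose c hc using key
  refine ⟨fun k => c k k, fun K => ?_⟩
  induction K with
  | zero => simpa [ep] using hc 0
  | succ K ih =>
    have h1 := hc (K + 1)
    have h2 : ∀ k < K + 1, ∀ j < D * (K + 1) + 1,
        c (K + 1) k j - (if j < D * k + 1 then c k k j else 0) = 0 := by
      refine ep_eq_zero (K + 1) (K + 1 / D) (fun _ => D * (K + 1) + 1) _ (by push_cast; linarith)
        fun b hb => ?_
      have h3 := ((ih b hb).sub (h1 b (by push_cast; linarith))).sub
        (term_bd (b := b) (K + 1) (D * (K + 1) + 1) (c (K + 1) (K + 1)) (by push_cast; linarith))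
      convert h3 using 2 with l
      unfold ep
      rw [Finset.sum_range_succ _ (K + 1), sub_sub_sub_cancel_left, add_sub_right_comm,
        add_sub_cancel_right, ← Finset.sum_sub_distrib]
      refine Finset.sum_congr rfl fun k hk => ?_
      rw [← smul_sub]
      congr 1
      have hk' : D * k + 1 ≤ D * (K + 1) + 1 :=
        Nat.succ_le_succ (Nat.mul_le_mul_left _ (Finset.mem_range.1 hk).le)
      rw [← pf_ext hk']
      unfold pf
      simp only [smul_sub, Finset.sum_sub_distrib]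
    convert h1 using 3 with l
    unfold ep
    rw [Finset.sum_range_succ _ (K + 1), Finset.sum_range_succ _ (K + 1)]
    congr 1
    refine Finset.sum_congr rfl fun k hk => ?_
    congr 1
    have hk' : D * k + 1 ≤ D * (K + 1) + 1 :=
      Nat.succ_le_succ (Nat.mul_le_mul_left _ (Finset.mem_range.1 hk).le)
    show pf (D * k + 1) (c k k) l = pf (D * (K + 1) + 1) (c (K + 1) k) l
    rw [← pf_ext hk']
    unfold pf
    refine Finset.sum_congr rfl fun j hj => ?_
    rw [sub_eq_zero.1 (h2 k (Finset.mem_range.1 hk) j (Finset.mem_range.1 hj))]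

lemma om_facts {C0 : ℝ} (hC : 0 < C0) {l : ℂ} (hl : l ∈ J.Om C0) :
    C0 < l.re ∧ 1 + ‖l‖ < Real.exp (l.re / C0) := by
  have h1 : 0 ≤ Real.log (1 + ‖l‖) := Real.log_nonneg (by linarith [norm_nonneg l])
  have h2 : C0 * (1 + Real.log (1 + ‖l‖)) < l.re := hl
  refine ⟨by nlinarith, ?_⟩
  rw [← Real.log_lt_iff_lt_exp (by positivity), lt_div_iff₀ hC]
  nlinarith

lemma ep_le {C0 : ℝ} (hC : 0 < C0) (K : ℕ) (d : ℕ → ℕ) (c : ℕ → ℕ → E) (R : ℝ) :
    ∃ B, ∀ l ∈ J.Om C0, l.re ≤ R → ‖ep K d c l‖ ≤ B := by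
  obtain ⟨B, hB⟩ := (isCompact_closedBall (0 : ℂ) (Real.exp (R / C0))).exists_bound_of_continuousOn
    (ep_diff K d c).continuous.continuousOn
  refine ⟨B, fun l hl h => hB l ?_⟩
  have h1 := (om_facts hC hl).2
  have h2 : Real.exp (l.re / C0) ≤ Real.exp (R / C0) := by gcongr
  rw [mem_closedBall_zero_iff]; linarith

omit [NormedSpace ℂ E] in
/-- vertical summation from the base strip -/
lemma vertical [NormedSpace ℂ E] {u : ℂ → E} {M : ℕ} {l : ℂ} {A : ℝ} (hA : 0 ≤ A)
    (h1 : ∀ z : ℂ, z.re = l.re → |z.im| < 7 * (M + 1) → ‖u z‖ ≤ A)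
    (h2 : ∀ z : ℂ, z.re = l.re → (∀ n ≤ M, |(z + n * pr).im| ≤ |l.im|) →
      ‖(fwdDiff pr)^[M] u z‖ ≤ A) : ‖u l‖ ≤ 2 ^ M * A * (1 + ‖l‖) ^ M := by
  have hp := Real.pi_gt_three
  have hp' := Real.pi_lt_d2
  set n := ⌊|l.im| / (2 * π)⌋₊ with hn
  have n1 : (n : ℝ) * (2 * π) ≤ |l.im| := by
    rw [← le_div_iff₀ (by positivity)]; exact Nat.floor_le (by positivity)
  have n2 : |l.im| < (n + 1) * (2 * π) := by
    rw [← div_lt_iff₀ (by positivity)]; exact Nat.lt_floor_add_one _
  have n3 : (n : ℝ) ≤ ‖l‖ := by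
    have := abs_im_le_norm l
    nlinarith [Nat.cast_nonneg (α := ℝ) n]
  have imp : ∀ (z : ℂ) (m : ℕ), (z + m * pr).im = z.im + m * (2 * π) := fun z m => by simp [pr]
  have imm : ∀ (z : ℂ) (m : ℕ), (z - m * pr).im = z.im - m * (2 * π) := fun z m => by simp [pr]
  have rep : ∀ (z : ℂ) (m : ℕ), (z + m * pr).re = z.re := fun z m => by simp [pr]
  have rem : ∀ (z : ℂ) (m : ℕ), (z - m * pr).re = z.re := fun z m => by simp [pr]
  refine le_trans ?_ (by gcongr : 2 ^ M * A * (1 + (n : ℝ)) ^ M ≤ 2 ^ M * A * (1 + ‖l‖) ^ M)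
  rcases le_total 0 l.im with h | h
  · rw [abs_of_nonneg h] at n1 n2 h2
    have := newton M (fun m : ℕ => u (l - n * pr + m * pr)) A n hA (fun m hm => ?_) fun m hm => ?_
    · simpa using this
    · have hm' : (m : ℝ) + 1 ≤ M := by exact_mod_cast hm
      refine h1 _ (by rw [rep, rem]) ?_
      rw [imp, imm, abs_lt]
      constructor <;> nlinarith [Nat.cast_nonneg (α := ℝ) m]
    · rw [iter_up]
      refine h2 _ (by rw [rep, rem]) fun k hk => ?_
      have hk' : (m : ℝ) + k ≤ n := by exact_mod_cast (by omega : m + k ≤ n)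
      rw [imp, imp, imm, abs_le]
      constructor <;> nlinarith [Nat.cast_nonneg (α := ℝ) m, Nat.cast_nonneg (α := ℝ) k]
  · rw [abs_of_nonpos h] at n1 n2 h2
    have := newton M (fun m : ℕ => u (l + n * pr - m * pr)) A n hA (fun m hm => ?_) fun m hm => ?_
    · simpa using this
    · have hm' : (m : ℝ) + 1 ≤ M := by exact_mod_cast hm
      refine h1 _ (by rw [rem, rep]) ?_
      rw [imm, imp, abs_lt]
      constructor <;> nlinarith [Nat.cast_nonneg (α := ℝ) m]
    · rw [iter_down]
      refine h2 _ (by rw [rem, rep]) fun k hk => ?_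
      have hk' : (m : ℝ) + M ≤ n := by exact_mod_cast hm
      have hk2 : (k : ℝ) ≤ M := by exact_mod_cast hk
      rw [imp, imm, imp, abs_le]
      push_cast
      constructor <;> nlinarith [Nat.cast_nonneg (α := ℝ) m, Nat.cast_nonneg (α := ℝ) k]

end X

open X in
/-- **Lemma X** -/
theorem lemX [CompleteSpace E] {D : ℕ} (hD : 0 < D) {R0 c δ : ℝ} (hc : 0 < c) (hδ : 0 < δ)
    {N : ℂ → E} (hd : DifferentiableOn ℂ N (Wd R0 c δ)) {B : ℝ}
    (hB : ∀ l ∈ Wd R0 c δ, ‖N l‖ ≤ B)
    (hM : ∀ M : ℕ, ∃ C R : ℝ, ∀ l : ℂ, R ≤ l.re →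
      (∀ n ≤ M, l + n * (2 * π * I) ∈ Wd R0 c δ) →
      ‖(fwdDiff (2 * π * I))^[M] N l‖ ≤ C * Real.exp (-(M * l.re) / D)) :
    ∃ (C0 : ℝ) (co : ℕ → ℕ → E), 0 < C0 ∧ J.Om C0 ⊆ Wd R0 c δ ∧ ∀ K : ℕ, ∃ B' : ℝ,
      ∀ l ∈ J.Om C0, ‖N l - ∑ k ∈ Finset.range K, ∑ j ∈ Finset.range (D * k + 1),
        (exp (-k * l) * l ^ j) • co k j‖ ≤ B' * Real.exp (-(K * l.re) / 2) := by
  have hD1 : (1 : ℝ) ≤ D := by exact_mod_cast hD
  have hp := Real.pi_gt_three
  have hp' := Real.pi_lt_d2
  have hN : Hol N := fun Y => by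
    obtain ⟨R, h⟩ := strip_sub (R0 := R0) hc hδ Y
    exact ⟨R, hd.mono fun l hl => h l hl.1 hl.2⟩
  have hb : Bd 0 N := fun Y => by
    obtain ⟨R, h⟩ := strip_sub (R0 := R0) hc hδ Y
    exact ⟨R, B, fun l hl => by simpa using hB l (h l hl.1 hl.2)⟩
  obtain ⟨co, hco⟩ := exists_co hD hN hb fun M Y => by
    obtain ⟨C, R, h⟩ := hM M
    obtain ⟨R', h'⟩ := strip_sub (R0 := R0) hc hδ (Y + 7 * M)
    refine ⟨max R R', C, fun l hl => ?_⟩
    rw [show -((M : ℝ) / D) * l.re = -(M * l.re) / D by ring]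
    refine h l ((le_max_left _ _).trans hl.1.le) fun n hn => h' _ ?_ ?_
    · simpa using lt_of_le_of_lt (le_max_right _ _) hl.1
    · have hn' : (n : ℝ) ≤ M := by exact_mod_cast hn
      have e : (l + n * (2 * π * I)).im = l.im + n * (2 * π) := by simp
      have := abs_lt.1 hl.2
      rw [e, abs_lt]
      constructor <;> nlinarith [Nat.cast_nonneg (α := ℝ) n]
  obtain ⟨C0, c1, c2, c3, c4⟩ : ∃ C0 : ℝ, R0 ≤ C0 ∧ 4 * D ≤ C0 ∧ 2 / δ ≤ C0 ∧ 2 / (δ * c) ≤ C0 :=
    ⟨max (max R0 (4 * D)) (max (2 / δ) (2 / (δ * c))), by simp, by simp, by simp, by simp⟩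
  have hC0 : 0 < C0 := by linarith
  have hW : ∀ l ∈ J.Om C0, ∀ z : ℂ, z.re = l.re → |z.im| ≤ |l.im| → z ∈ Wd R0 c δ := by
    intro l hl z h1 h2
    obtain ⟨f1, f2⟩ := om_facts hC0 hl
    refine ⟨by linarith, ?_⟩
    rw [h1]
    have f3 : l.re / C0 ≤ δ * l.re / 2 := by
      rw [div_le_iff₀ hδ] at c3
      rw [div_le_iff₀ hC0]; nlinarith
    have f4 : 1 ≤ c * Real.exp (δ * l.re / 2) := by
      rw [div_le_iff₀ (by positivity)] at c4
      have := Real.add_one_le_exp (δ * l.re / 2)
      have h5 : C0 * (δ * c) ≤ l.re * (δ * c) := by gcongr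
      nlinarith
    have f5 : Real.exp (l.re / C0) ≤ Real.exp (δ * l.re / 2) := Real.exp_le_exp.2 f3
    have f6 : Real.exp (δ * l.re) = Real.exp (δ * l.re / 2) * Real.exp (δ * l.re / 2) := by
      rw [← Real.exp_add]; congr 1; ring
    have := abs_im_le_norm l
    rw [f6]
    nlinarith [Real.exp_pos (δ * l.re / 2)]
  refine ⟨C0, co, hC0, fun l hl => hW l hl l rfl le_rfl, fun K => ?_⟩
  have eS : ∀ l, ∑ k ∈ Finset.range K, ∑ j ∈ Finset.range (D * k + 1),
      (exp (-k * l) * l ^ j) • co k j = ep K (fun k => D * k + 1) co l := fun l => by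
    simp only [ep, pf, Finset.smul_sum, mul_smul]
  simp only [eS]
  rcases Nat.eq_zero_or_pos K with rfl | hK
  · exact ⟨B, fun l hl => by simpa [ep] using hB l (hW l hl l rfl le_rfl)⟩
  have hK1 : (1 : ℝ) ≤ K := by exact_mod_cast hK
  have q1 : (0 : ℝ) < 1 / D := by positivity
  set u : ℂ → E := fun l => N l - ep K (fun k => D * k + 1) co l with hu
  have hu1 : Bd (3 * K / 4) u := by
    convert (hco K _ (by linarith)).add (term_bd (b := 3 * K / 4) K (D * K + 1) (co K)
      (by linarith)) using 2 with l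
    simp only [hu, ep, Finset.sum_range_succ]; abel
  have hu2 : (fwdDiff pr)^[D * K] u = (fwdDiff pr)^[D * K] N := by
    have e : u = N + (-1 : ℂ) • ep K (fun k => D * k + 1) co := by
      funext l; simp [hu, sub_eq_add_neg]
    rw [e, fwdDiff_iter_add, fwdDiff_iter_const_smul, iter_ep, smul_zero, add_zero]
    intro k hk
    calc D * k + 1 ≤ D * k + D := by omega
      _ = D * (k + 1) := by ring
      _ ≤ D * K := Nat.mul_le_mul_left _ hk
  obtain ⟨R1, C1, -, hC1, h1⟩ := hu1.pos (7 * ((D * K : ℕ) + 1))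
  obtain ⟨C2, R2, h2⟩ := hM (D * K)
  obtain ⟨B3, h3⟩ := ep_le hC0 K (fun k => D * k + 1) co (max R1 R2)
  refine ⟨max (2 ^ (D * K) * max C1 C2) ((B + B3) * Real.exp (K * max R1 R2 / 2)),
    fun l hl => ?_⟩
  obtain ⟨f1, f2⟩ := om_facts hC0 hl
  rcases le_or_gt l.re (max R1 R2) with h | h
  · refine le_trans ?_ (mul_le_mul_of_nonneg_right (le_max_right _ _) (Real.exp_pos _).le)
    have f3 := (norm_sub_le _ _).trans (add_le_add (hB l (hW l hl l rfl le_rfl)) (h3 l hl h))
    have f4 : 1 ≤ Real.exp (K * max R1 R2 / 2) * Real.exp (-(K * l.re) / 2) := by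
      rw [← Real.exp_add]; apply Real.one_le_exp; nlinarith
    have f5 : 0 ≤ B + B3 := (norm_nonneg _).trans f3
    rw [mul_assoc]; nlinarith
  · refine le_trans ?_ (mul_le_mul_of_nonneg_right (le_max_left _ _) (Real.exp_pos _).le)
    have hA : 0 ≤ max C1 C2 := hC1.trans (le_max_left _ _)
    have f3 := vertical (u := u) (M := D * K) (l := l)
      (A := max C1 C2 * Real.exp (-(3 * K / 4) * l.re)) (by positivity) (fun z e1 e2 => by
        refine (h1 z ⟨by rw [e1]; exact lt_of_le_of_lt (le_max_left _ _) h, e2⟩).trans ?_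
        rw [e1]; gcongr; exact le_max_left _ _) (fun z e1 e2 => by
        rw [hu2]
        refine (h2 z (by rw [e1]; exact (le_max_right _ _).trans h.le) fun n hn =>
          hW l hl _ (by simpa using e1) (e2 n hn)).trans ?_
        rw [e1]
        calc _ ≤ max C1 C2 * Real.exp (-((D * K : ℕ) * l.re) / D) := by
              gcongr; exact le_max_right _ _
          _ ≤ _ := by
              gcongr
              push_cast
              rw [mul_assoc, neg_div, mul_div_cancel_left₀ _ (by linarith)]; nlinarith)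
    refine f3.trans ?_
    have f4 : (1 + ‖l‖) ^ (D * K) ≤ Real.exp (K * l.re / 4) := by
      calc _ ≤ Real.exp (l.re / C0) ^ (D * K) := by gcongr
        _ = Real.exp ((D * K : ℕ) * (l.re / C0)) := (Real.exp_nat_mul _ _).symm
        _ ≤ _ := by
          gcongr
          push_cast
          rw [mul_div_assoc', div_le_iff₀ hC0]
          have : 0 ≤ K * l.re := by nlinarith
          nlinarith
    calc _ ≤ 2 ^ (D * K) * (max C1 C2 * Real.exp (-(3 * K / 4) * l.re)) *
          Real.exp (K * l.re / 4) := by gcongr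
      _ = 2 ^ (D * K) * max C1 C2 * (Real.exp (-(3 * K / 4) * l.re) *
          Real.exp (K * l.re / 4)) := by ring
      _ = _ := by rw [← Real.exp_add]; congr 2; ring

end Crest.Agent.N207.L
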