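import Crest.Agent.N250.H.Fix
import Crest.Agent.N250.H.Int
import Crest.Agent.N207.L.Defs
import Crest.Agent.N207.J.As1

-- ▼ part N207/J/Grn1
section

/-!
Row 207 (helper80), block J.  Volterra operators with separable kernels on `ℝ →ᵇ H`.
-/

set_option autoImplicit false
set_option linter.unusedSectionVars false

open Metric Set Filter Topology MeasureTheory BoundedContinuousFunction

noncomputable section

namespace Crest.Agent.N207.J

open Crest.Agent.N250.H

variable {H : Type*} [NormedAddCommGroup H] [NormedSpace ℂ H] [CompleteSpace H]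

/-- the integration domain: `Iic x` (backwards, `true`) or `Ioi x` (forwards, `false`) -/
def dom (b : Bool) (x : ℝ) : Set ℝ := if b then Iic x else Ioi x

@[simp] theorem dom_true (x : ℝ) : dom true x = Iic x := rfl
@[simp] theorem dom_false (x : ℝ) : dom false x = Ioi x := rfl

theorem meas_dom (b : Bool) (x : ℝ) : MeasurableSet (dom b x) := by
  cases b
  · exact measurableSet_Ioi
  · exact measurableSet_Iic

theorem ivl_of_dom {b : Bool} {g : ℝ → H} (h : ∀ x, IntegrableOn g (dom b x)) (x y : ℝ) :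
    IntervalIntegrable g volume x y := by
  rw [intervalIntegrable_iff]
  cases b
  · exact (h (min x y)).mono_set fun s hs => hs.1
  · exact (h (max x y)).mono_set fun s hs => hs.2

theorem int_dom_sub {b : Bool} {g : ℝ → H} (h : ∀ x, IntegrableOn g (dom b x)) (x y : ℝ) :
    (∫ s in dom b x, g s) - ∫ s in dom b y, g s =
      (if b then (1 : ℂ) else -1) • ∫ s in y..x, g s := by
  cases b
  · simp only [dom_false, Bool.false_eq_true, if_false, neg_smul, one_smul]
    rw [← intervalIntegral.integral_symm]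
    exact intervalIntegral.integral_Ioi_sub_Ioi' (h x) (h y)
  · simpa using intervalIntegral.integral_Iic_sub_Iic (h y) (h x)

theorem cont_dom {b : Bool} {g : ℝ → H} (h : ∀ x, IntegrableOn g (dom b x)) :
    Continuous fun x => ∫ s in dom b x, g s := by
  have : (fun x => ∫ s in dom b x, g s) = fun x => (∫ s in dom b 0, g s) +
      (if b then (1 : ℂ) else -1) • ∫ s in (0 : ℝ)..x, g s := by
    funext x
    rw [← int_dom_sub h]
    abel
  rw [this]
  exact continuous_const.add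
    ((intervalIntegral.continuous_primitive (ivl_of_dom h) 0).const_smul _)

/-- a separable kernel `A x * B y` with integrable majorant `m x` of mass at most `C` -/
structure VK (b : Bool) (A B : ℝ → ℂ) (m : ℝ → ℝ → ℝ) (C : ℝ) : Prop where
  cont : Continuous A
  ne : ∀ x, A x ≠ 0
  meas : AEStronglyMeasurable B volume
  int : ∀ x, Integrable (m x)
  nn : ∀ x y, 0 ≤ m x y
  mass : ∀ x, ∫ y, m x y ≤ C
  bd : ∀ x, ∀ y ∈ dom b x, ‖A x * B y‖ ≤ m x y

namespace VK

variable {b : Bool} {A B : ℝ → ℂ} {m : ℝ → ℝ → ℝ} {C : ℝ}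

theorem C0 (h : VK b A B m C) : 0 ≤ C := (integral_nonneg (h.nn 0)).trans (h.mass 0)

theorem bd' (h : VK b A B m C) (f : ℝ →ᵇ H) (x : ℝ) :
    ∀ᵐ y ∂(volume.restrict (dom b x)), ‖(A x * B y) • f y‖ ≤ m x y * ‖f‖ :=
  (ae_restrict_mem (meas_dom b x)).mono fun y hy => by
    rw [norm_smul]
    exact mul_le_mul (h.bd x y hy) (f.norm_coe_le_norm y) (norm_nonneg _) (h.nn x y)

theorem meas' (h : VK b A B m C) (f : ℝ →ᵇ H) (x : ℝ) :
    AEStronglyMeasurable (fun y => (A x * B y) • f y) (volume.restrict (dom b x)) :=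
  ((h.meas.const_mul _).smul f.continuous.aestronglyMeasurable).restrict

theorem intK (h : VK b A B m C) (f : ℝ →ᵇ H) (x : ℝ) :
    IntegrableOn (fun y => (A x * B y) • f y) (dom b x) :=
  ((h.int x).mul_const ‖f‖).integrableOn.mono' (h.meas' f x) (h.bd' f x)

theorem intB (h : VK b A B m C) (f : ℝ →ᵇ H) (x : ℝ) :
    IntegrableOn (fun y => B y • f y) (dom b x) := by
  have := (h.intK f x).smul (A x)⁻¹
  refine this.congr (Eventually.of_forall fun y => ?_)
  simp only [Pi.smul_apply, smul_smul]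
  rw [inv_mul_cancel_left₀ (h.ne x)]

theorem val_eq (A B : ℝ → ℂ) (f : ℝ → H) (S : Set ℝ) (x : ℝ) :
    A x • ∫ y in S, B y • f y = ∫ y in S, (A x * B y) • f y := by
  rw [← integral_smul]
  simp only [smul_smul]

theorem norm_val (h : VK b A B m C) (f : ℝ →ᵇ H) (x : ℝ) :
    ‖A x • ∫ y in dom b x, B y • f y‖ ≤ C * ‖f‖ := by
  rw [val_eq]
  refine (norm_integral_le_of_norm_le ((h.int x).mul_const ‖f‖).integrableOn (h.bd' f x)).trans ?_
  rw [integral_mul_const]
  refine mul_le_mul_of_nonneg_right ?_ (norm_nonneg _)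
  exact (setIntegral_le_integral (h.int x) (Eventually.of_forall (h.nn x))).trans (h.mass x)

/-- the operator -/
def op (h : VK b A B m C) : (ℝ →ᵇ H) →L[ℂ] (ℝ →ᵇ H) :=
  LinearMap.mkContinuous
    { toFun := fun f => ofNormedAddCommGroup (fun x => A x • ∫ y in dom b x, B y • f y)
        (h.cont.smul (cont_dom (h.intB f))) (C * ‖f‖) (h.norm_val f)
      map_add' := fun f g => by
        ext x
        simp only [coe_ofNormedAddCommGroup, coe_add, Pi.add_apply, smul_add]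
        rw [integral_add (h.intB f x) (h.intB g x), smul_add]
      map_smul' := fun a f => by
        ext x
        simp only [coe_ofNormedAddCommGroup, coe_smul, RingHom.id_apply]
        rw [smul_comm a, ← integral_smul a]
        simp only [smul_comm a] }
    C fun f => (BoundedContinuousFunction.norm_le (mul_nonneg h.C0 (norm_nonneg _))).2
      (h.norm_val f)

end VK

open Classical in
/-- the Volterra operator `f ↦ A x • ∫ B y • f y` (zero if the kernel is not admissible) -/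
def vop (H : Type*) [NormedAddCommGroup H] [NormedSpace ℂ H] [CompleteSpace H] (b : Bool)
    (A B : ℝ → ℂ) : (ℝ →ᵇ H) →L[ℂ] (ℝ →ᵇ H) :=
  if h : ∃ p : (ℝ → ℝ → ℝ) × ℝ, VK b A B p.1 p.2 then h.choose_spec.op else 0

namespace VK

variable {b : Bool} {A B : ℝ → ℂ} {m : ℝ → ℝ → ℝ} {C : ℝ}

theorem apply (h : VK b A B m C) (f : ℝ →ᵇ H) (x : ℝ) :
    vop H b A B f x = A x • ∫ y in dom b x, B y • f y := by
  have : ∃ p : (ℝ → ℝ → ℝ) × ℝ, VK b A B p.1 p.2 := ⟨(m, C), h⟩
  rw [vop, dif_pos this]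
  rfl

theorem norm_le (h : VK b A B m C) : ‖vop H b A B‖ ≤ C :=
  ContinuousLinearMap.opNorm_le_bound _ h.C0 fun f =>
    (BoundedContinuousFunction.norm_le (mul_nonneg h.C0 (norm_nonneg _))).2 fun x => by
      rw [h.apply]; exact h.norm_val f x

end VK

/-- holomorphic dependence on a parameter -/
theorem diffOn_vop {E : Type*} [NormedAddCommGroup E] [NormedSpace ℂ E] {U : Set E} (hU : IsOpen U)
    {b : Bool} {A B : E → ℝ → ℂ} {m : ℝ → ℝ → ℝ} {C : ℝ} (h : ∀ z ∈ U, VK b (A z) (B z) m C)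
    (hd : ∀ x y, DifferentiableOn ℂ (fun z => A z x * B z y) U) :
    DifferentiableOn ℂ (fun z => vop H b (A z) (B z)) U := by
  refine diffOn_clm hU (fun z hz => (h z hz).norm_le) fun f => ?_
  refine diffOn_bcf hU (M := C * ‖f‖) (fun z hz => ((vop H b (A z) (B z)).le_opNorm f).trans
    (mul_le_mul_of_nonneg_right (h z hz).norm_le (norm_nonneg _))) fun x => ?_
  rcases U.eq_empty_or_nonempty with rfl | ⟨z0, hz0⟩
  · exact differentiableOn_empty
  refine DifferentiableOn.congr (f := fun z => ∫ y in dom b x, (A z x * B z y) • f y) ?_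
    fun z hz => by rw [(h z hz).apply, VK.val_eq]
  refine int_diffOn hU (((h z0 hz0).int x).mul_const ‖f‖).integrableOn
    (fun z hz => (h z hz).meas' f x) (Eventually.of_forall fun y => (hd x y).smul_const _) ?_
  refine (ae_restrict_mem (meas_dom b x)).mono fun y hy z hz => ?_
  rw [norm_smul]
  exact mul_le_mul ((h z hz).bd x y hy) (f.norm_coe_le_norm y) (norm_nonneg _) ((h z hz).nn x y)

/-! ### multipliers of a constant vector -/

open Classical in
/-- `a ↦ (x ↦ A x • a)` (zero if `A` is not bounded continuous) -/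
def mop (H : Type*) [NormedAddCommGroup H] [NormedSpace ℂ H] (A : ℝ → ℂ) : H →L[ℂ] (ℝ →ᵇ H) :=
  if h : Continuous A ∧ ∃ C, ∀ x, ‖A x‖ ≤ C then
    LinearMap.mkContinuous
      { toFun := fun a => ofNormedAddCommGroup (fun x => A x • a) (h.1.smul continuous_const)
          (h.2.choose * ‖a‖) fun x => by
            rw [norm_smul]; exact mul_le_mul_of_nonneg_right (h.2.choose_spec x) (norm_nonneg _)
        map_add' := fun f g => by ext x; simp
        map_smul' := fun a f => by ext x; simp [smul_comm a] }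
      h.2.choose fun a => (BoundedContinuousFunction.norm_le
        (mul_nonneg ((norm_nonneg _).trans (h.2.choose_spec 0)) (norm_nonneg _))).2 fun x =>
          (norm_smul (A x) a).trans_le
            (mul_le_mul_of_nonneg_right (h.2.choose_spec x) (norm_nonneg _))
  else 0

theorem mop_apply {A : ℝ → ℂ} {C : ℝ} (hA : Continuous A) (hC : ∀ x, ‖A x‖ ≤ C) (a : H) (x : ℝ) :
    mop H A a x = A x • a := by
  rw [mop, dif_pos ⟨hA, C, hC⟩]
  rfl

theorem norm_mop_le {A : ℝ → ℂ} {C : ℝ} (hA : Continuous A) (hC : ∀ x, ‖A x‖ ≤ C) :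
    ‖mop H A‖ ≤ C := by
  have C0 : 0 ≤ C := (norm_nonneg _).trans (hC 0)
  refine ContinuousLinearMap.opNorm_le_bound _ C0 fun a =>
    (norm_le (mul_nonneg C0 (norm_nonneg _))).2 fun x => ?_
  rw [mop_apply hA hC, norm_smul]
  exact mul_le_mul_of_nonneg_right (hC x) (norm_nonneg _)

theorem diffOn_mop {E : Type*} [NormedAddCommGroup E] [NormedSpace ℂ E] {U : Set E} (hU : IsOpen U)
    {A : E → ℝ → ℂ} {C : ℝ} (hA : ∀ z ∈ U, Continuous (A z)) (hC : ∀ z ∈ U, ∀ x, ‖A z x‖ ≤ C)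
    (hd : ∀ x, DifferentiableOn ℂ (fun z => A z x) U) :
    DifferentiableOn ℂ (fun z => mop H (A z)) U := by
  refine diffOn_clm hU (fun z hz => norm_mop_le (hA z hz) (hC z hz)) fun a => ?_
  refine diffOn_bcf hU (M := C * ‖a‖) (fun z hz => ((mop H (A z)).le_opNorm a).trans
    (mul_le_mul_of_nonneg_right (norm_mop_le (hA z hz) (hC z hz)) (norm_nonneg _))) fun x => ?_
  exact ((hd x).smul_const a).congr fun z hz => mop_apply (hA z hz) (hC z hz) a x

/-! ### the exponential majorants -/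




end Crest.Agent.N207.J
end
end

-- ▼ part N207/L/Gr1
section

/-! # N207/L/Gr1 (helper80): Green operators along a path, in the stored variables -/

set_option autoImplicit false
set_option linter.unusedSectionVars false
open Set Filter Topology MeasureTheory BoundedContinuousFunction

noncomputable section

namespace Crest.Agent.N207.L
open J

namespace Pth

variable (γ : Pth) (V : Type*) [NormedAddCommGroup V] [NormedSpace ℂ V] [CompleteSpace V]

/-- true value `= tw d k x •` stored value (`d = 1` solutions, `d = 2` sources) -/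
def tw (d k : ℕ) (x : ℝ) : ℂ := ((γ.w x ^ d * γ.om x ^ k : ℝ) : ℂ)

/-- outer factor -/
def Aw (m : ℂ) (k : ℕ) (x : ℝ) : ℂ := Complex.exp (m * γ.t x) / γ.tw 1 k x

/-- inner factor -/
def Bw (m : ℂ) (k : ℕ) (y : ℝ) : ℂ := Complex.exp (-m * γ.t y) * γ.tw 2 k y * γ.τ y

/-- `∫_a^x e^{-(k+2)(t x - t y)} f` -/
def gm (k : ℕ) : (ℝ →ᵇ V) →L[ℂ] (ℝ →ᵇ V) :=
  vop V true (γ.Aw (-(k + 2)) k) (γ.Bw (-(k + 2)) k)

/-- `∫_x^b e^{-k(t y - t x)} f`; for `k = 0` from `x` to the base point -/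
def gp (k : ℕ) : (ℝ →ᵇ V) →L[ℂ] (ℝ →ᵇ V) :=
  if k = 0 then vop V false (γ.Aw 0 0) (γ.upᶜ.indicator (γ.Bw 0 0)) -
    vop V true (γ.Aw 0 0) (γ.up.indicator (γ.Bw 0 0))
  else vop V false (γ.Aw k k) (γ.Bw k k)

/-- decaying homogeneous solution with stored value `A` at `a` -/
def em (k : ℕ) : V →L[ℂ] (ℝ →ᵇ V) :=
  mop V fun x => γ.Aw (-(k + 2)) k x / γ.Aw (-(k + 2)) k γ.a

/-- growing homogeneous solution with stored value `B` at `pt k` (zero on a half line) -/
def ep (k : ℕ) : V →L[ℂ] (ℝ →ᵇ V) :=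
  if γ.fin = true then mop V fun x => γ.Aw k k x / γ.Aw k k (γ.pt k) else 0

/-- majorant of the kernels -/
def pm (b : Bool) (K μ x : ℝ) : ℝ → ℝ := (dom b x).indicator fun y =>
  K * (Real.exp ((if b then μ else -μ) * ((γ.t y).re - (γ.t x).re)) * (γ.τ y).re)

variable {γ V} {C o : ℝ}

namespace Ok

theorem C0 (h : γ.Ok C o) : 0 ≤ C :=
  (integral_nonneg fun r => mul_nonneg (h.w0 r).le (norm_nonneg _)).trans h.int_le

theorem mτ (h : γ.Ok C o) : AEStronglyMeasurable γ.τ volume := by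
  refine LocallyIntegrable.aestronglyMeasurable fun x => ⟨Ioc (x - 1) (x + 1),
    Ioc_mem_nhds (by linarith) (by linarith), ?_⟩
  exact (intervalIntegrable_iff_integrableOn_Ioc_of_le (by linarith)).1 (h.li _ _)

theorem mup (γ : Pth) : MeasurableSet γ.up := by
  unfold up
  split_ifs
  · exact measurableSet_Ioi
  · exact MeasurableSet.empty

theorem tw_pos (h : γ.Ok C o) (ho : 0 < o) (d k : ℕ) (x : ℝ) : 0 < γ.w x ^ d * γ.om x ^ k :=
  mul_pos (pow_pos (h.w0 x) d) (pow_pos (ho.trans_le (h.o0 x)) k)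

theorem tw_ne (h : γ.Ok C o) (ho : 0 < o) (d k : ℕ) (x : ℝ) : γ.tw d k x ≠ 0 :=
  Complex.ofReal_ne_zero.2 (h.tw_pos ho d k x).ne'

theorem norm_tw (h : γ.Ok C o) (ho : 0 < o) (d k : ℕ) (x : ℝ) :
    ‖γ.tw d k x‖ = γ.w x ^ d * γ.om x ^ k := by
  rw [tw, Complex.norm_real, Real.norm_of_nonneg (h.tw_pos ho d k x).le]

theorem ctw (h : γ.Ok C o) (d k : ℕ) : Continuous (γ.tw d k) := by
  have := h.wc; have := h.oc
  unfold tw
  fun_prop

theorem cA (h : γ.Ok C o) (ho : 0 < o) (m : ℂ) (k : ℕ) : Continuous (γ.Aw m k) := by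
  have := h.cont
  exact Continuous.div (by fun_prop) (h.ctw 1 k) (h.tw_ne ho 1 k)

theorem Aw_ne (h : γ.Ok C o) (ho : 0 < o) (m : ℂ) (k : ℕ) (x : ℝ) : γ.Aw m k x ≠ 0 :=
  div_ne_zero (Complex.exp_ne_zero _) (h.tw_ne ho 1 k x)

theorem mB (h : γ.Ok C o) (m : ℂ) (k : ℕ) : AEStronglyMeasurable (γ.Bw m k) volume := by
  have := h.cont; have := h.ctw 2 k
  refine AEStronglyMeasurable.mul (Continuous.aestronglyMeasurable ?_) h.mτ
  fun_prop

theorem norm_AA (h : γ.Ok C o) (ho : 0 < o) (m : ℝ) (k : ℕ) (x y : ℝ) :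
    ‖γ.Aw m k x / γ.Aw m k y‖ = Real.exp (m * ((γ.t x).re - (γ.t y).re)) *
      (γ.w y / γ.w x * (γ.om y / γ.om x) ^ k) := by
  have := h.w0 x; have := h.w0 y
  have := ho.trans_le (h.o0 x); have := ho.trans_le (h.o0 y)
  simp only [Aw, norm_div, Complex.norm_exp, h.norm_tw ho, Complex.mul_re, Complex.ofReal_re,
    Complex.ofReal_im, zero_mul, sub_zero, mul_sub, Real.exp_sub, div_pow]
  field_simp

theorem AB_eq (h : γ.Ok C o) (ho : 0 < o) (m : ℂ) (k : ℕ) (x y : ℝ) :
    γ.Aw m k x * γ.Bw m k y = γ.Aw m k x / γ.Aw m k y * (γ.w y * γ.τ y) := by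
  have h1 := h.tw_ne ho 1 k y
  have h2 : γ.tw 2 k y = γ.w y * γ.tw 1 k y := by simp only [tw]; push_cast; ring
  rw [Bw, h2, div_eq_mul_inv, mul_assoc (γ.Aw m k x), Aw, Aw, neg_mul, Complex.exp_neg]
  field_simp

theorem norm_wτ (h : γ.Ok C o) (y : ℝ) : ‖(γ.w y : ℂ) * γ.τ y‖ = γ.w y * ‖γ.τ y‖ := by
  rw [norm_mul, Complex.norm_real, Real.norm_of_nonneg (h.w0 y).le]

theorem ratio (h : γ.Ok C o) (ho : 0 < o) {x y α β : ℝ} (k : ℕ) (h1 : γ.w y ≤ Real.exp α * γ.w x)
    (h2 : γ.om y ≤ Real.exp β * γ.om x) :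
    γ.w y / γ.w x * (γ.om y / γ.om x) ^ k ≤ Real.exp (α + k * β) := by
  have := h.w0 x; have := h.w0 y
  have := ho.trans_le (h.o0 x); have := ho.trans_le (h.o0 y)
  rw [Real.exp_add, Real.exp_nat_mul]
  gcongr
  · rwa [div_le_iff₀ ‹_›]
  · rwa [div_le_iff₀ ‹_›]

theorem der_re (h : γ.Ok C o) (x : ℝ) :
    HasDerivWithinAt (fun y => (γ.t y).re) (γ.τ x).re (Ici x) x :=
  Complex.reCLM.hasFDerivAt.comp_hasDerivWithinAt x (h.der x)

theorem li_re (h : γ.Ok C o) (x y : ℝ) : IntervalIntegrable (fun s => (γ.τ s).re) volume x y :=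
  ⟨(h.li x y).1.re, (h.li x y).2.re⟩

theorem re_mono (h : γ.Ok C o) : Monotone fun y => (γ.t y).re := by
  intro x y hxy
  have := intervalIntegral.integral_eq_sub_of_hasDeriv_right
    (Complex.continuous_re.comp h.cont).continuousOn
    (fun s _ => (h.der_re s).mono Ioi_subset_Ici_self) (h.li_re x y)
  have h2 := intervalIntegral.integral_nonneg (μ := volume) hxy fun s _ => h.re0 s
  simp only [Function.comp] at this
  linarith

theorem exp_int (h : γ.Ok C o) (ν c y z : ℝ) :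
    IntervalIntegrable (fun s => Real.exp (ν * ((γ.t s).re - c)) * (γ.τ s).re) volume y z ∧
    ν * ∫ s in y..z, Real.exp (ν * ((γ.t s).re - c)) * (γ.τ s).re =
      Real.exp (ν * ((γ.t z).re - c)) - Real.exp (ν * ((γ.t y).re - c)) := by
  have hc : Continuous fun s => Real.exp (ν * ((γ.t s).re - c)) := by
    have := h.cont; fun_prop
  have hi := (h.li_re y z).continuousOn_mul hc.continuousOn
  refine ⟨hi, ?_⟩
  rw [← intervalIntegral.integral_const_mul]
  refine intervalIntegral.integral_eq_sub_of_hasDeriv_right hc.continuousOn (fun s _ => ?_)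
    (hi.const_mul ν)
  have := ((((h.der_re s).sub_const c).const_mul ν).exp).mono Ioi_subset_Ici_self
  convert this using 1
  ring

theorem pm_nonneg (h : γ.Ok C o) {K : ℝ} (hK : 0 ≤ K) (b : Bool) (μ x y : ℝ) :
    0 ≤ γ.pm b K μ x y :=
  indicator_nonneg (fun s _ => mul_nonneg hK (mul_nonneg (Real.exp_pos _).le (h.re0 s))) _

theorem pm_int (h : γ.Ok C o) {K μ : ℝ} (hK : 0 ≤ K) (hμ : 0 < μ) (b : Bool) (x : ℝ) :
    Integrable (γ.pm b K μ x) ∧ ∫ y, γ.pm b K μ x y ≤ K / μ := by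
  rw [pm, integrable_indicator_iff (meas_dom b x), integral_indicator (meas_dom b x),
    integral_const_mul]
  set φ := fun s => Real.exp ((if b then μ else -μ) * ((γ.t s).re - (γ.t x).re)) * (γ.τ s).re
    with hφ
  have φ0 : ∀ s, ‖φ s‖ = φ s := fun s =>
    Real.norm_of_nonneg (mul_nonneg (Real.exp_pos _).le (h.re0 s))
  suffices hs : IntegrableOn φ (dom b x) ∧ ∫ s in dom b x, φ s ≤ 1 / μ from
    ⟨hs.1.const_mul K, (mul_le_mul_of_nonneg_left hs.2 hK).trans_eq (by ring)⟩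
  cases b
  · have hb : ∀ z, ∫ s in x..z, φ s ≤ 1 / μ := fun z => by
      have := (h.exp_int (-μ) (γ.t x).re x z).2
      have h2 := Real.exp_pos (-μ * ((γ.t z).re - (γ.t x).re))
      simp only [sub_self, mul_zero, Real.exp_zero] at this
      rw [le_div_iff₀ hμ]
      simp only [hφ, Bool.false_eq_true, if_false]
      linarith
    have hi : IntegrableOn φ (Ioi x) :=
      integrableOn_Ioi_of_intervalIntegral_norm_bounded (1 / μ) x (b := id) (l := atTop)
        (fun z => (h.exp_int (-μ) (γ.t x).re x z).1.1) tendsto_id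
        (Eventually.of_forall fun z => by simpa only [φ0, id] using hb z)
    exact ⟨hi, le_of_tendsto' (intervalIntegral_tendsto_integral_Ioi x hi tendsto_id) hb⟩
  · have hb : ∀ z, ∫ s in z..x, φ s ≤ 1 / μ := fun z => by
      have := (h.exp_int μ (γ.t x).re z x).2
      have h2 := Real.exp_pos (μ * ((γ.t z).re - (γ.t x).re))
      simp only [sub_self, mul_zero, Real.exp_zero] at this
      rw [le_div_iff₀ hμ]
      simp only [hφ, if_true]
      linarith
    have hi : IntegrableOn φ (Iic x) :=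
      integrableOn_Iic_of_intervalIntegral_norm_bounded (1 / μ) x (a := id) (l := atBot)
        (fun z => (h.exp_int μ (γ.t x).re z x).1.1) tendsto_id
        (Eventually.of_forall fun z => by simpa only [φ0, id] using hb z)
    exact ⟨hi, le_of_tendsto' (intervalIntegral_tendsto_integral_Iic x hi tendsto_id) hb⟩

theorem AA_m (h : γ.Ok C o) (ho : 0 < o) (k : ℕ) {x y : ℝ} (hy : y ≤ x) :
    ‖γ.Aw (-(k + 2)) k x / γ.Aw (-(k + 2)) k y‖ ≤
      Real.exp ((k + 1) / 2 * ((γ.t y).re - (γ.t x).re)) := by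
  have e := h.norm_AA ho (-(k + 2)) k x y
  push_cast at e
  rw [e]
  refine (mul_le_mul_of_nonneg_left (h.ratio ho k (h.wb y x hy) (h.ob y x hy))
    (Real.exp_pos _).le).trans ?_
  rw [← Real.exp_add, Real.exp_le_exp, Complex.sub_re]
  have := h.re_mono hy
  have hk : (0 : ℝ) ≤ k := Nat.cast_nonneg k
  nlinarith [mul_nonneg hk (sub_nonneg.2 this)]

theorem AA_p (h : γ.Ok C o) (ho : 0 < o) {k : ℕ} (hk : k ≠ 0) {x y : ℝ} (hy : x ≤ y) :
    ‖γ.Aw k k x / γ.Aw k k y‖ ≤ Real.exp (-((k + 1) / 16) * ((γ.t y).re - (γ.t x).re)) := by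
  have e := h.norm_AA ho k k x y
  push_cast at e
  rw [e]
  refine (mul_le_mul_of_nonneg_left (h.ratio ho k (h.wf x y hy) (h.of x y hy))
    (Real.exp_pos _).le).trans ?_
  rw [← Real.exp_add, Real.exp_le_exp, Complex.sub_re]
  have := h.re_mono hy
  have hk : (0 : ℝ) ≤ k - 1 := by
    have : (1 : ℝ) ≤ k := by exact_mod_cast Nat.one_le_iff_ne_zero.2 hk
    linarith
  nlinarith [mul_nonneg hk (sub_nonneg.2 this)]

theorem AA_0 (h : γ.Ok C o) (ho : 0 < o) (x y : ℝ) :
    ‖γ.Aw 0 0 x / γ.Aw 0 0 y‖ = γ.w y / γ.w x := by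
  simpa using h.norm_AA ho 0 0 x y

theorem vk_of (h : γ.Ok C o) (ho : 0 < o) {b : Bool} {m : ℂ} {k : ℕ} {μ : ℝ} (hμ : 0 < μ)
    (hb : ∀ x, ∀ y ∈ dom b x, ‖γ.Aw m k x / γ.Aw m k y‖ ≤
      Real.exp ((if b then μ else -μ) * ((γ.t y).re - (γ.t x).re))) :
    VK b (γ.Aw m k) (γ.Bw m k) (γ.pm b C μ) (C / μ) := by
  refine ⟨h.cA ho _ _, h.Aw_ne ho _ _, h.mB _ _, fun x => (h.pm_int h.C0 hμ b x).1,
    h.pm_nonneg h.C0 b μ, fun x => (h.pm_int h.C0 hμ b x).2, fun x y hy => ?_⟩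
  rw [h.AB_eq ho, norm_mul, h.norm_wτ, pm, indicator_of_mem hy, mul_left_comm C, mul_comm (γ.w y)]
  exact mul_le_mul (hb x y hy) (h.slope y) (mul_nonneg (norm_nonneg _) (h.w0 y).le)
    (Real.exp_pos _).le

theorem vk_m (h : γ.Ok C o) (ho : 0 < o) (k : ℕ) : VK true (γ.Aw (-(k + 2)) k) (γ.Bw (-(k + 2)) k)
    (γ.pm true C ((k + 1) / 2)) (C / ((k + 1) / 2)) :=
  h.vk_of ho (by positivity) fun _ _ hy => h.AA_m ho k hy

theorem vk_p (h : γ.Ok C o) (ho : 0 < o) {k : ℕ} (hk : k ≠ 0) : VK false (γ.Aw k k) (γ.Bw k k)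
    (γ.pm false C ((k + 1) / 16)) (C / ((k + 1) / 16)) :=
  h.vk_of ho (by positivity) fun _ _ hy => h.AA_p ho hk (le_of_lt hy)

theorem vk_0 (h : γ.Ok C o) (ho : 0 < o) {b : Bool} {S : Set ℝ} (hS : MeasurableSet S)
    (hb : ∀ x, ∀ y ∈ dom b x, y ∈ S → (x < y ↔ y ∉ γ.up)) :
    VK b (γ.Aw 0 0) (S.indicator (γ.Bw 0 0)) (fun _ y => γ.w y * ‖γ.τ y‖) C := by
  have nn : ∀ y, 0 ≤ γ.w y * ‖γ.τ y‖ := fun y => mul_nonneg (h.w0 y).le (norm_nonneg _)
  refine ⟨h.cA ho _ _, h.Aw_ne ho _ _, (h.mB _ _).indicator hS, fun _ => h.int, fun _ => nn,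
    fun _ => h.int_le, fun x y hy => ?_⟩
  by_cases h1 : y ∈ S
  · rw [indicator_of_mem h1, h.AB_eq ho, norm_mul, h.norm_wτ, h.AA_0 ho]
    exact mul_le_of_le_one_left (nn y) ((div_le_one (h.w0 x)).2 (h.mono x y (hb x y hy h1)))
  · simpa [indicator_of_notMem h1] using nn y

theorem vk_f (h : γ.Ok C o) (ho : 0 < o) :
    VK false (γ.Aw 0 0) (γ.upᶜ.indicator (γ.Bw 0 0)) (fun _ y => γ.w y * ‖γ.τ y‖) C :=
  h.vk_0 ho (mup γ).compl fun _ _ hy h1 => ⟨fun _ => h1, fun _ => hy⟩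

theorem vk_b (h : γ.Ok C o) (ho : 0 < o) :
    VK true (γ.Aw 0 0) (γ.up.indicator (γ.Bw 0 0)) (fun _ y => γ.w y * ‖γ.τ y‖) C :=
  h.vk_0 ho (mup γ) fun _ _ hy h1 => ⟨fun h2 => absurd hy (not_le.2 h2), fun h2 => absurd h1 h2⟩

/-- the curve and the weights are constant where the velocity vanishes -/
theorem const (h : γ.Ok C o) {x y : ℝ} (hxy : x ≤ y) (h0 : ∀ s ∈ Ico x y, γ.τ s = 0) :
    γ.t x = γ.t y ∧ γ.w x = γ.w y ∧ γ.om x = γ.om y := by
  have e : γ.t y = γ.t x := constant_of_has_deriv_right_zero h.cont.continuousOn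
    (fun s hs => h0 s hs ▸ h.der s) y ⟨hxy, le_rfl⟩
  have a1 := h.wb x y hxy; have a2 := h.wf x y hxy
  have a3 := h.ob x y hxy; have a4 := h.of x y hxy
  simp only [e, sub_self, Complex.zero_re, mul_zero, Real.exp_zero, one_mul] at a1 a2 a3 a4
  exact ⟨e.symm, le_antisymm a1 a2, le_antisymm a3 a4⟩

theorem Aw_const (h : γ.Ok C o) {x y : ℝ} (hxy : x ≤ y) (h0 : ∀ s ∈ Ico x y, γ.τ s = 0) (m : ℂ)
    (k : ℕ) : γ.Aw m k x = γ.Aw m k y := by
  obtain ⟨h1, h2, h3⟩ := h.const hxy h0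
  simp only [Aw, tw, h1, h2, h3]

theorem em_bd (h : γ.Ok C o) (ho : 0 < o) (k : ℕ) (x : ℝ) :
    ‖γ.Aw (-(k + 2)) k x / γ.Aw (-(k + 2)) k γ.a‖ ≤ 1 := by
  rcases le_total γ.a x with hx | hx
  · refine (h.AA_m ho k hx).trans (Real.exp_le_one_iff.2 ?_)
    exact mul_nonpos_of_nonneg_of_nonpos (by positivity) (sub_nonpos.2 (h.re_mono hx))
  · rw [h.Aw_const hx fun s hs => h.left s hs.2, div_self (h.Aw_ne ho _ _ _), norm_one]

theorem ep_bd (h : γ.Ok C o) (ho : 0 < o) (hf : γ.fin = true) (k : ℕ) (x : ℝ) :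
    ‖γ.Aw k k x / γ.Aw k k (γ.pt k)‖ ≤ 1 := by
  by_cases h0 : k = 0
  · subst h0
    rw [Nat.cast_zero, h.AA_0 ho, div_le_one (h.w0 x)]
    exact h.wmin hf x
  rw [pt, if_neg h0]
  rcases le_total x γ.b with hx | hx
  · refine (h.AA_p ho h0 hx).trans (Real.exp_le_one_iff.2 ?_)
    exact mul_nonpos_of_nonpos_of_nonneg (neg_nonpos.2 (by positivity))
      (sub_nonneg.2 (h.re_mono hx))
  · rw [← h.Aw_const hx fun s hs => h.right hf s hs.1, div_self (h.Aw_ne ho _ _ _), norm_one]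

theorem norm_gm (h : γ.Ok C o) (ho : 0 < o) (k : ℕ) : ‖γ.gm V k‖ ≤ 16 * C / (k + 1) := by
  refine (h.vk_m ho k).norm_le.trans ?_
  have := h.C0
  rw [div_div_eq_mul_div]
  exact div_le_div_of_nonneg_right (by linarith) (by positivity)

theorem norm_gp (h : γ.Ok C o) (ho : 0 < o) (k : ℕ) : ‖γ.gp V k‖ ≤ 16 * C / (k + 1) := by
  have := h.C0
  unfold gp
  split_ifs with h0
  · subst h0
    refine (norm_sub_le _ _).trans
      ((add_le_add (h.vk_f ho).norm_le (h.vk_b ho).norm_le).trans ?_)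
    simp only [Nat.cast_zero, zero_add, div_one]
    linarith
  · refine (h.vk_p ho h0).norm_le.trans (le_of_eq ?_)
    rw [div_div_eq_mul_div, mul_comm]

theorem em_apply (h : γ.Ok C o) (ho : 0 < o) (k : ℕ) (A : V) (x : ℝ) :
    γ.em V k A x = (γ.Aw (-(k + 2)) k x / γ.Aw (-(k + 2)) k γ.a) • A :=
  mop_apply ((h.cA ho _ _).div_const _) (h.em_bd ho k) A x

theorem ep_apply (h : γ.Ok C o) (ho : 0 < o) (hf : γ.fin = true) (k : ℕ) (B : V) (x : ℝ) :
    γ.ep V k B x = (γ.Aw k k x / γ.Aw k k (γ.pt k)) • B := by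
  rw [ep, if_pos hf]
  exact mop_apply ((h.cA ho _ _).div_const _) (h.ep_bd ho hf k) B x

theorem norm_em (h : γ.Ok C o) (ho : 0 < o) (k : ℕ) : ‖γ.em V k‖ ≤ 1 :=
  norm_mop_le ((h.cA ho _ _).div_const _) (h.em_bd ho k)

theorem norm_ep (h : γ.Ok C o) (ho : 0 < o) (k : ℕ) : ‖γ.ep V k‖ ≤ 1 := by
  unfold ep
  split_ifs with hf
  · exact norm_mop_le ((h.cA ho _ _).div_const _) (h.ep_bd ho hf k)
  · simp

/-- the Green part of the layer -/
def grn (h : γ.Ok C o) (ho : 0 < o) {C' : ℝ} (h1 : 1 ≤ C') (h2 : 16 * C ≤ C') : Grn BH BH C' where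
  gm := γ.gm H
  gp := γ.gp H
  em := γ.em H
  ep := γ.ep H
  gm_le := fun k => (h.norm_gm ho k).trans (by gcongr)
  gp_le := fun k => (h.norm_gp ho k).trans (by gcongr)
  em_le := fun k => (h.norm_em ho k).trans h1
  ep_le := fun k => (h.norm_ep ho k).trans h1

end Ok

end Pth

end Crest.Agent.N207.L
end
end

-- ▼ part N207/L/Gr2

/-! # N207/L/Gr2 (helper80): the Green operators solve the mode equations; uniqueness;
holomorphic dependence on the curve -/

set_option autoImplicit false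
set_option linter.unusedSectionVars false
open Set Filter Topology MeasureTheory BoundedContinuousFunction

noncomputable section

namespace Crest.Agent.N207.L
open J

variable {V : Type*} [NormedAddCommGroup V] [NormedSpace ℂ V] [CompleteSpace V]

/-- `v' = τ (m v + G)` (right derivatives) -/
structure Ode (τ : ℝ → ℂ) (m : ℂ) (G v : ℝ → V) : Prop where
  cont : Continuous v
  der : ∀ x, HasDerivWithinAt v (τ x • (m • v x + G x)) (Ici x) x

namespace Ode
variable {τ : ℝ → ℂ} {m : ℂ} {G G' v v' : ℝ → V}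

theorem congr (h : Ode τ m G v) (h1 : ∀ x, G' x = G x) (h2 : ∀ x, v' x = v x) : Ode τ m G' v' := by
  rw [funext h1, funext h2]; exact h

theorem add (h : Ode τ m G v) (h' : Ode τ m G' v') :
    Ode τ m (fun x => G x + G' x) fun x => v x + v' x :=
  ⟨h.cont.add h'.cont, fun x => by
    refine ((h.der x).add (h'.der x)).congr_deriv ?_
    simp only [smul_add]; abel⟩

theorem smul (h : Ode τ m G v) (c : ℂ) : Ode τ m (fun x => c • G x) fun x => c • v x :=
  ⟨h.cont.const_smul c, fun x => by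
    refine ((h.der x).const_smul c).congr_deriv ?_
    simp only [smul_add, smul_comm c]⟩

theorem sub (h : Ode τ m G v) (h' : Ode τ m G' v') :
    Ode τ m (fun x => G x - G' x) fun x => v x - v' x :=
  (h.add (h'.smul (-1))).congr (fun x => by simp [sub_eq_add_neg]) fun x => by simp [sub_eq_add_neg]

theorem clm {W : Type*} [NormedAddCommGroup W] [NormedSpace ℂ W] [CompleteSpace W]
    (h : Ode τ m G v) (T : V →L[ℂ] W) : Ode τ m (fun x => T (G x)) fun x => T (v x) :=
  ⟨T.continuous.comp h.cont, fun x => by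
    refine ((T.restrictScalars ℝ).hasFDerivAt.comp_hasDerivWithinAt x (h.der x)).congr_deriv ?_
    simp⟩

end Ode

theorem der_of_prim {g Φ : ℝ → V} (hg : ∀ x y, IntervalIntegrable g volume x y)
    (hΦ : ∀ x y, Φ x - Φ y = ∫ s in y..x, g s) :
    Continuous Φ ∧ ∀ x, ContinuousWithinAt g (Ici x) x → HasDerivWithinAt Φ (g x) (Ici x) x := by
  have e : Φ = fun x => Φ 0 + ∫ s in (0 : ℝ)..x, g s := by
    funext x; rw [← hΦ]; abel
  rw [e]
  refine ⟨continuous_const.add (intervalIntegral.continuous_primitive hg 0), fun x hx => ?_⟩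
  refine HasDerivWithinAt.const_add _ (intervalIntegral.integral_hasDerivWithinAt_right
    (t := Ioi x) (hg 0 x) ?_ (hx.mono Ioi_subset_Ici_self))
  exact ⟨Ioc x (x + 1), Ioc_mem_nhdsGT (by linarith), (hg x (x + 1)).1.aestronglyMeasurable⟩

namespace Pth.Ok

variable {γ : Pth} {C o : ℝ}

theorem der_exp (h : γ.Ok C o) (m : ℂ) (x : ℝ) : HasDerivWithinAt
    (fun y => Complex.exp (m * γ.t y)) (Complex.exp (m * γ.t x) * (m * γ.τ x)) (Ici x) x :=
  ((h.der x).const_mul m).cexp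

theorem ode_exp (h : γ.Ok C o) (m : ℂ) (A : V) :
    Ode γ.τ m (fun _ => 0) fun x => Complex.exp (m * γ.t x) • A := by
  have := h.cont
  refine ⟨by fun_prop, fun x => ?_⟩
  convert (h.der_exp m x).smul_const A using 1
  rw [add_zero, smul_smul, smul_smul]
  congr 1
  ring

/-- the homogeneous equation -/
theorem hom (h : γ.Ok C o) {m : ℂ} {v : ℝ → V} (hv : Ode γ.τ m (fun _ => 0) v) (x y : ℝ) :
    v x = Complex.exp (m * (γ.t x - γ.t y)) • v y := by
  have hc : Continuous fun x => Complex.exp (-m * γ.t x) • v x := by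
    have := h.cont; have := hv.cont; fun_prop
  have hd : ∀ x, HasDerivWithinAt (fun x => Complex.exp (-m * γ.t x) • v x) 0 (Ici x) x := by
    intro x
    refine ((h.der_exp (-m) x).smul (hv.der x)).congr_deriv ?_
    rw [add_zero, smul_smul, smul_smul, ← add_smul]
    rw [show Complex.exp (-m * γ.t x) * γ.τ x * m + Complex.exp (-m * γ.t x) * (-m * γ.τ x) = 0 by
      ring, zero_smul]
  have key : ∀ x y, x ≤ y → Complex.exp (-m * γ.t y) • v y = Complex.exp (-m * γ.t x) • v x :=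
    fun x y hxy => constant_of_has_deriv_right_zero hc.continuousOn (fun s _ => hd s) y
      ⟨hxy, le_rfl⟩
  have e : Complex.exp (-m * γ.t x) • v x = Complex.exp (-m * γ.t y) • v y := by
    rcases le_total x y with hxy | hxy
    · exact (key x y hxy).symm
    · exact key y x hxy
  have := congrArg (fun u => Complex.exp (m * γ.t x) • u) e
  simp only [smul_smul, ← Complex.exp_add] at this
  rw [show m * γ.t x + -m * γ.t x = 0 by ring, Complex.exp_zero, one_smul] at this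
  rw [this]
  congr 2
  ring

/-- uniqueness from the value at one point -/
theorem uniq_pt (h : γ.Ok C o) {m : ℂ} {G v v' : ℝ → V} (hv : Ode γ.τ m G v) (hv' : Ode γ.τ m G v')
    {y : ℝ} (hy : v y = v' y) (x : ℝ) : v x = v' x := by
  have := h.hom ((hv.sub hv').congr (fun _ => (sub_self _).symm) fun _ => rfl) x y
  rwa [hy, sub_self, smul_zero, sub_eq_zero] at this

/-- uniqueness from decay at infinity -/
theorem uniq_half (h : γ.Ok C o) (k : ℕ) {G v v' : ℝ → V} (hv : Ode γ.τ k G v)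
    (hv' : Ode γ.τ k G v') (hl : Tendsto (fun x => v x - v' x) atTop (𝓝 0)) (y : ℝ) :
    v y = v' y := by
  have h1 := h.hom ((hv.sub hv').congr (fun _ => (sub_self _).symm) fun _ => rfl)
  have : ‖v y - v' y‖ ≤ 0 := by
    refine ge_of_tendsto (tendsto_zero_iff_norm_tendsto_zero.1 hl) ?_
    filter_upwards [eventually_ge_atTop y] with x hx
    rw [h1 x y, norm_smul, Complex.norm_exp]
    refine le_mul_of_one_le_left (norm_nonneg _) (Real.one_le_exp ?_)
    have := h.re_mono hx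
    simp only [Complex.mul_re, Complex.natCast_re, Complex.natCast_im, zero_mul, sub_zero,
      Complex.sub_re]
    exact mul_nonneg (Nat.cast_nonneg k) (by linarith)
  exact sub_eq_zero.1 (norm_le_zero_iff.1 this)

theorem tw_Aw (h : γ.Ok C o) (ho : 0 < o) (m : ℂ) (k : ℕ) (x : ℝ) :
    γ.tw 1 k x * γ.Aw m k x = Complex.exp (m * γ.t x) := by
  rw [Aw, mul_div_cancel₀ _ (h.tw_ne ho 1 k x)]

theorem ode_of_prim (h : γ.Ok C o) (m σ : ℂ) (k : ℕ) (f : ℝ →ᵇ V) {Φ : ℝ → V}
    (hg : ∀ x y, IntervalIntegrable (fun s => γ.Bw m k s • f s) volume x y)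
    (hΦ : ∀ x y, Φ x - Φ y = σ • ∫ s in y..x, γ.Bw m k s • f s) :
    Ode γ.τ m (fun x => σ • γ.tw 2 k x • f x) fun x => Complex.exp (m * γ.t x) • Φ x := by
  obtain ⟨h1, h2⟩ := der_of_prim (g := fun s => σ • γ.Bw m k s • f s) (Φ := Φ)
    (fun x y => (hg x y).smul σ) fun x y => by rw [hΦ, intervalIntegral.integral_smul]
  have := h.cont
  refine ⟨by fun_prop, fun x => ?_⟩
  have hr : ContinuousWithinAt (fun s => σ • γ.Bw m k s • f s) (Ici x) x := by
    refine ContinuousWithinAt.const_smul (ContinuousWithinAt.smul ?_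
      f.continuous.continuousWithinAt) σ
    have := h.ctw 2 k
    exact ContinuousWithinAt.mul (Continuous.continuousWithinAt (by fun_prop)) (h.rc x)
  refine ((h.der_exp m x).smul (h2 x hr)).congr_deriv ?_
  have e : Complex.exp (m * γ.t x) * Complex.exp (-m * γ.t x) = 1 := by
    rw [← Complex.exp_add]; simp
  simp only [smul_add, smul_smul, Bw]
  rw [add_comm]
  congr 2
  · ring
  · linear_combination (σ * γ.tw 2 k x * γ.τ x) * e

theorem ode_gm (h : γ.Ok C o) (ho : 0 < o) (k : ℕ) (f : ℝ →ᵇ V) :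
    Ode γ.τ (-(k + 2)) (fun x => γ.tw 2 k x • f x) fun x => γ.tw 1 k x • γ.gm V k f x := by
  have hk := h.vk_m ho k
  refine (h.ode_of_prim (-(k + 2)) 1 k f (ivl_of_dom (hk.intB f))
    (int_dom_sub (hk.intB f))).congr (fun x => by simp) fun x => ?_
  rw [gm, hk.apply, smul_smul, h.tw_Aw ho]

theorem ode_gp (h : γ.Ok C o) (ho : 0 < o) (k : ℕ) (f : ℝ →ᵇ V) :
    Ode γ.τ k (fun x => -(γ.tw 2 k x • f x)) fun x => γ.tw 1 k x • γ.gp V k f x := by
  by_cases h0 : k = 0
  · subst h0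
    have h1 := (h.vk_f ho).intB f
    have h2 := (h.vk_b ho).intB f
    have e : (fun s => γ.Bw 0 0 s • f s) = fun s => γ.upᶜ.indicator (γ.Bw 0 0) s • f s +
        γ.up.indicator (γ.Bw 0 0) s • f s := by
      funext s
      rw [← add_smul, add_comm, indicator_self_add_compl_apply]
    rw [Nat.cast_zero]
    refine (h.ode_of_prim 0 (-1) 0 f
      (Φ := fun x => (∫ s in dom false x, γ.upᶜ.indicator (γ.Bw 0 0) s • f s) -
        ∫ s in dom true x, γ.up.indicator (γ.Bw 0 0) s • f s)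
      (fun x y => e ▸ (ivl_of_dom h1 x y).add (ivl_of_dom h2 x y)) fun x y => ?_).congr
      (fun x => by simp) fun x => ?_
    · rw [e, intervalIntegral.integral_add (ivl_of_dom h1 y x) (ivl_of_dom h2 y x),
        sub_sub_sub_comm, int_dom_sub h1, int_dom_sub h2]
      simp [sub_eq_add_neg, add_comm]
    · rw [gp, if_pos rfl, _root_.sub_apply, coe_sub, Pi.sub_apply,
        (h.vk_f ho).apply, (h.vk_b ho).apply, ← smul_sub, smul_smul, h.tw_Aw ho]
  · have hk := h.vk_p ho h0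
    refine (h.ode_of_prim k (-1) k f (ivl_of_dom (hk.intB f))
      (int_dom_sub (hk.intB f))).congr (fun x => by simp) fun x => ?_
    rw [gp, if_neg h0, hk.apply, smul_smul, h.tw_Aw ho]

theorem gm_a (h : γ.Ok C o) (ho : 0 < o) (k : ℕ) (f : ℝ →ᵇ V) : γ.gm V k f γ.a = 0 := by
  rw [gm, (h.vk_m ho k).apply, dom_true, integral_Iic_eq_integral_Iio,
    setIntegral_eq_zero_of_forall_eq_zero, smul_zero]
  intro y hy
  simp [Bw, h.left y hy]

theorem gp_pt (h : γ.Ok C o) (ho : 0 < o) (hf : γ.fin = true) (k : ℕ) (f : ℝ →ᵇ V) :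
    γ.gp V k f (γ.pt k) = 0 := by
  by_cases h0 : k = 0
  · subst h0
    rw [gp, if_pos rfl, _root_.sub_apply, coe_sub, Pi.sub_apply,
      (h.vk_f ho).apply, (h.vk_b ho).apply, setIntegral_eq_zero_of_forall_eq_zero,
      setIntegral_eq_zero_of_forall_eq_zero, sub_self]
    · intro y hy
      rw [indicator_of_notMem (by simpa [up, hf, pt] using hy), zero_smul]
    · intro y hy
      rw [indicator_of_notMem (by simpa [up, hf, pt] using hy), zero_smul]
  · rw [gp, if_neg h0, (h.vk_p ho h0).apply, setIntegral_eq_zero_of_forall_eq_zero, smul_zero]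
    intro y hy
    have : γ.b < y := by simpa [pt, h0] using hy
    simp [Bw, h.right hf y this.le]

theorem ode_em (h : γ.Ok C o) (ho : 0 < o) (k : ℕ) (A : V) :
    Ode γ.τ (-(k + 2)) (fun _ => 0) fun x => γ.tw 1 k x • γ.em V k A x :=
  (h.ode_exp (-(k + 2)) ((γ.Aw (-(k + 2)) k γ.a)⁻¹ • A)).congr (fun _ => rfl) fun x => by
    rw [h.em_apply ho, smul_smul, smul_smul, div_eq_mul_inv, ← mul_assoc, h.tw_Aw ho]

theorem em_a (h : γ.Ok C o) (ho : 0 < o) (k : ℕ) (A : V) : γ.em V k A γ.a = A := by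
  rw [h.em_apply ho, div_self (h.Aw_ne ho _ _ _), one_smul]

theorem ep_half (hf : γ.fin = false) (k : ℕ) : γ.ep V k = 0 := by simp [ep, hf]

theorem ode_ep (h : γ.Ok C o) (ho : 0 < o) (k : ℕ) (B : V) :
    Ode γ.τ k (fun _ => 0) fun x => γ.tw 1 k x • γ.ep V k B x := by
  cases hf : γ.fin
  · exact (h.ode_exp k (0 : V)).congr (fun _ => rfl) fun x => by simp [ep_half hf]
  · exact (h.ode_exp k ((γ.Aw k k (γ.pt k))⁻¹ • B)).congr (fun _ => rfl) fun x => by
      rw [h.ep_apply ho hf, smul_smul, smul_smul, div_eq_mul_inv, ← mul_assoc, h.tw_Aw ho]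

theorem ep_pt (h : γ.Ok C o) (ho : 0 < o) (hf : γ.fin = true) (k : ℕ) (B : V) :
    γ.ep V k B (γ.pt k) = B := by
  rw [h.ep_apply ho hf, div_self (h.Aw_ne ho _ _ _), one_smul]

/-- the Duhamel form of the decaying amplitude solves its equation -/
theorem ode_q (h : γ.Ok C o) (ho : 0 < o) (k : ℕ) (c : ℂ) (A : V) (f : ℝ →ᵇ V) :
    Ode γ.τ (-(k + 2)) (fun x => -(c • γ.tw 2 k x • f x))
      fun x => γ.tw 1 k x • (γ.em V k A x - c • γ.gm V k f x) :=
  ((h.ode_em ho k A).sub ((h.ode_gm ho k f).smul c)).congr (fun x => by simp) fun x => by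
    rw [smul_sub, smul_comm]

/-- the Duhamel form of the growing amplitude solves its equation -/
theorem ode_p (h : γ.Ok C o) (ho : 0 < o) (k : ℕ) (c : ℂ) (B : V) (f : ℝ →ᵇ V) :
    Ode γ.τ k (fun x => c • γ.tw 2 k x • f x)
      fun x => γ.tw 1 k x • (γ.ep V k B x - c • γ.gp V k f x) :=
  ((h.ode_ep ho k B).sub ((h.ode_gp ho k f).smul c)).congr (fun x => by simp) fun x => by
    rw [smul_sub, smul_comm]

/-- converse: equation and datum give the Duhamel form -/
theorem duh_q (h : γ.Ok C o) (ho : 0 < o) (k : ℕ) (c : ℂ) {A : V} {f : ℝ →ᵇ V} {q : ℝ → V}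
    (hq : Ode γ.τ (-(k + 2)) (fun x => -(c • γ.tw 2 k x • f x)) q)
    (ha : q γ.a = γ.tw 1 k γ.a • A) (x : ℝ) :
    q x = γ.tw 1 k x • (γ.em V k A x - c • γ.gm V k f x) :=
  h.uniq_pt hq (h.ode_q ho k c A f) (by rw [ha, h.em_a ho, h.gm_a ho, smul_zero, sub_zero]) x

theorem duh_p (h : γ.Ok C o) (ho : 0 < o) (k : ℕ) (c : ℂ) {B : V} {f : ℝ →ᵇ V} {p : ℝ → V}
    (hp : Ode γ.τ k (fun x => c • γ.tw 2 k x • f x) p)
    (hb : γ.fin = true → p (γ.pt k) = γ.tw 1 k (γ.pt k) • B)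
    {M : ℝ} (hM : γ.fin = false → ∀ x, ‖p x‖ ≤ M * γ.w x) (x : ℝ) :
    p x = γ.tw 1 k x • (γ.ep V k B x - c • γ.gp V k f x) := by
  cases hf : γ.fin
  · refine h.uniq_half k hp (h.ode_p ho k c B f) ?_ x
    refine squeeze_zero_norm (a := fun x => (M + ‖γ.ep V k B - c • γ.gp V k f‖) * γ.w x)
      (fun x => (norm_sub_le _ _).trans ?_) (by simpa using (h.dec hf).const_mul _)
    rw [add_mul, norm_smul, h.norm_tw ho, pow_one, mul_comm ‖_‖]
    refine add_le_add (hM hf x) (mul_le_mul ?_ ((γ.ep V k B - c • γ.gp V k f).norm_coe_le_norm x)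
      (norm_nonneg _) (h.w0 x).le)
    exact mul_le_of_le_one_right (h.w0 x).le
      (pow_le_one₀ (ho.le.trans (h.o0 x)) (h.o1 x))
  · exact h.uniq_pt hp (h.ode_p ho k c B f)
      (by rw [hb hf, h.ep_pt ho hf, h.gp_pt ho hf, smul_zero, sub_zero]) x

end Pth.Ok

/-! ### holomorphy -/

namespace Pth.Fam

variable {Z : Type} [NormedAddCommGroup Z] [NormedSpace ℂ Z] {γ : Pth} {t τ : Z → ℝ → ℂ}
  {U : Set Z} {C o : ℝ}

theorem dA (h : γ.Fam t τ U C o) (m : ℂ) (k : ℕ) (x : ℝ) :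
    DifferentiableOn ℂ (fun z => (γ.re (t z) (τ z)).Aw m k x) U :=
  (((h.ht x).const_mul m).cexp).mul_const (γ.tw 1 k x)⁻¹

theorem dB (h : γ.Fam t τ U C o) (m : ℂ) (k : ℕ) (x : ℝ) :
    DifferentiableOn ℂ (fun z => (γ.re (t z) (τ z)).Bw m k x) U :=
  ((((h.ht x).const_mul (-m)).cexp).mul_const (γ.tw 2 k x)).mul (h.hτ x)

theorem diff_v (h : γ.Fam t τ U C o) (ho : 0 < o) {b : Bool} (m : ℝ) {k : ℕ} {μ : ℝ} (hμ : 0 < μ)
    (hb : ∀ x, ∀ y ∈ J.dom b x, ‖γ.Aw m k x / γ.Aw m k y‖ ≤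
      Real.exp ((if b then μ else -μ) * ((γ.t y).re - (γ.t x).re))) :
    DifferentiableOn ℂ (fun z => vop V b ((γ.re (t z) (τ z)).Aw m k) ((γ.re (t z) (τ z)).Bw m k))
      U := by
  obtain ⟨M, hM⟩ := h.dom
  rcases U.eq_empty_or_nonempty with rfl | ⟨z0, hz0⟩
  · exact differentiableOn_empty
  have M0 : 0 ≤ M := (norm_nonneg _).trans (hM z0 hz0 0).1
  have K0 : 0 ≤ Real.exp (|m| * (2 * M)) * M := by positivity
  refine diffOn_vop h.op (m := γ.pm b (Real.exp (|m| * (2 * M)) * M) μ)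
    (C := Real.exp (|m| * (2 * M)) * M / μ) (fun z hz => ?_) fun x y => (h.dA m k x).mul (h.dB m k y)
  have hz' := h.ok z hz
  refine ⟨hz'.cA ho _ _, hz'.Aw_ne ho _ _, hz'.mB _ _, fun x => (h.base.pm_int K0 hμ b x).1,
    h.base.pm_nonneg K0 b μ, fun x => (h.base.pm_int K0 hμ b x).2, fun x y hy => ?_⟩
  rw [hz'.AB_eq ho, norm_mul, hz'.norm_wτ, pm, indicator_of_mem hy, mul_mul_mul_comm]
  refine mul_le_mul ?_ ?_ (mul_nonneg (hz'.w0 y).le (norm_nonneg _)) (by positivity)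
  · refine le_trans ?_ (mul_le_mul_of_nonneg_left (hb x y hy) (Real.exp_pos _).le)
    rw [hz'.norm_AA ho, h.base.norm_AA ho, ← mul_assoc (Real.exp (|m| * _)), ← Real.exp_add]
    refine mul_le_mul_of_nonneg_right (Real.exp_le_exp.2 ?_) ?_
    · have a1 := (Complex.abs_re_le_norm _).trans (hM z hz x).1
      have a2 := (Complex.abs_re_le_norm _).trans (hM z hz y).1
      rw [Complex.sub_re, abs_le] at a1 a2
      have a3 : |(t z x).re - (γ.t x).re - ((t z y).re - (γ.t y).re)| ≤ 2 * M :=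
        abs_le.2 ⟨by linarith, by linarith⟩
      have a4 := (le_abs_self _).trans ((abs_mul m _).trans_le
        (mul_le_mul_of_nonneg_left a3 (abs_nonneg m)))
      change m * ((t z x).re - (t z y).re) ≤ _
      linarith
    · have := h.base.w0 x; have := h.base.w0 y
      have := ho.trans_le (h.base.o0 x); have := ho.trans_le (h.base.o0 y)
      change 0 ≤ γ.w y / γ.w x * (γ.om y / γ.om x) ^ k
      positivity
  · exact (mul_le_of_le_one_left (norm_nonneg _) (hz'.w1 y)).trans (hM z hz y).2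

theorem diff_gm (h : γ.Fam t τ U C o) (ho : 0 < o) (k : ℕ) :
    DifferentiableOn ℂ (fun z => (γ.re (t z) (τ z)).gm V k) U := by
  have := h.diff_v (V := V) ho (b := true) (-(k + 2)) (k := k) (μ := (k + 1) / 2) (by positivity)
    fun x y hy => by push_cast; exact h.base.AA_m ho k hy
  push_cast at this
  exact this

theorem diff_gp (h : γ.Fam t τ U C o) (ho : 0 < o) (k : ℕ) :
    DifferentiableOn ℂ (fun z => (γ.re (t z) (τ z)).gp V k) U := by
  by_cases h0 : k = 0
  · obtain ⟨M, hM⟩ := h.dom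
    have key : ∀ (b : Bool) (S : Set ℝ), MeasurableSet S →
        (∀ x, ∀ y ∈ J.dom b x, y ∈ S → (x < y ↔ y ∉ γ.up)) → DifferentiableOn ℂ
        (fun z => vop V b ((γ.re (t z) (τ z)).Aw 0 0) (S.indicator ((γ.re (t z) (τ z)).Bw 0 0)))
        U := by
      intro b S hS hb
      rcases U.eq_empty_or_nonempty with rfl | ⟨z0, hz0⟩
      · exact differentiableOn_empty
      have M0 : 0 ≤ M := (norm_nonneg _).trans (hM z0 hz0 0).1
      have nn : ∀ y, 0 ≤ M * (γ.w y * ‖γ.τ y‖) := fun y =>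
        mul_nonneg M0 (mul_nonneg (h.base.w0 y).le (norm_nonneg _))
      refine diffOn_vop h.op (m := fun _ y => M * (γ.w y * ‖γ.τ y‖))
        (C := ∫ y, M * (γ.w y * ‖γ.τ y‖)) (fun z hz => ?_) fun x y => ?_
      · have hv := (h.ok z hz).vk_0 ho hS hb
        refine ⟨hv.cont, hv.ne, hv.meas, fun _ => h.base.int.const_mul M, fun _ => nn,
          fun _ => le_rfl, fun x y hy => (hv.bd x y hy).trans ?_⟩
        rw [mul_left_comm]
        exact mul_le_mul_of_nonneg_left ((hM z hz y).2.trans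
          (mul_le_mul_of_nonneg_left (Complex.re_le_norm _) M0)) (h.base.w0 y).le
      · by_cases h1 : y ∈ S
        · simp only [indicator_of_mem h1]
          exact (h.dA 0 0 x).mul (h.dB 0 0 y)
        · simp [indicator_of_notMem h1]
    simp only [gp, if_pos h0]
    exact (key false γ.upᶜ (Ok.mup γ).compl fun _ _ hy h1 => ⟨fun _ => h1, fun _ => hy⟩).sub
      (key true γ.up (Ok.mup γ) fun _ _ hy h1 =>
        ⟨fun h2 => absurd hy (not_le.2 h2), fun h2 => absurd h1 h2⟩)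
  · have := h.diff_v (V := V) ho (b := false) k (k := k) (μ := (k + 1) / 16) (by positivity)
      fun x y hy => by push_cast; exact h.base.AA_p ho h0 (le_of_lt hy)
    push_cast at this
    simpa only [gp, if_neg h0] using this

theorem diff_em (h : γ.Fam t τ U C o) (ho : 0 < o) (k : ℕ) :
    DifferentiableOn ℂ (fun z => (γ.re (t z) (τ z)).em V k) U :=
  diffOn_mop h.op (fun z hz => ((h.ok z hz).cA ho _ _).div_const _)
    (fun z hz => (h.ok z hz).em_bd ho k) fun x =>
      (h.dA _ k x).mul ((h.dA _ k γ.a).inv fun z hz => (h.ok z hz).Aw_ne ho _ _ _)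

theorem diff_ep (h : γ.Fam t τ U C o) (ho : 0 < o) (k : ℕ) :
    DifferentiableOn ℂ (fun z => (γ.re (t z) (τ z)).ep V k) U := by
  cases hf : γ.fin
  · have : ∀ z, (γ.re (t z) (τ z)).ep V k = 0 := fun z => Ok.ep_half (γ := γ.re (t z) (τ z)) hf k
    simp [this]
  · have : ∀ z, (γ.re (t z) (τ z)).fin = true := fun z => hf
    simp only [ep, this, if_true]
    exact diffOn_mop h.op (fun z hz => ((h.ok z hz).cA ho _ _).div_const _)
      (fun z hz => (h.ok z hz).ep_bd ho hf k) fun x =>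
        (h.dA _ k x).mul ((h.dA _ k (γ.pt k)).inv fun z hz => (h.ok z hz).Aw_ne ho _ _ _)

end Pth.Fam

end Crest.Agent.N207.L
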