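import Crest.Agent.N250.H.Fix

/-! # N207/L/Sup (helper59): superposition of an analytic germ of order two on a pair of
Banach spaces `(A1, A2)` with a product `A1 × A1 → A2` and an inclusion `A2 → A1` -/

set_option autoImplicit false
set_option linter.unusedSectionVars false
open Set Filter Topology Metric
open scoped NNReal ENNReal

noncomputable section

namespace Crest.Agent.N207.L
open Crest.Agent.N250.H

/-- power series data of a germ of order two -/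
structure Ser {κ ι : Type} [Fintype κ] [Fintype ι] (Q : (κ → ℂ) → ι → ℂ) where
  p : FormalMultilinearSeries ℂ (κ → ℂ) (ι → ℂ)
  ρ : ℝ
  K : ℝ
  pos : 0 < ρ
  K0 : 0 < K
  bd : ∀ n, ‖p n‖ * ρ ^ n ≤ K
  sum : ∀ v, ‖v‖ < ρ → HasSum (fun r => p (r + 2) fun _ => v) (Q v)

theorem exists_ser {κ ι : Type} [Fintype κ] [Fintype ι] {Q : (κ → ℂ) → ι → ℂ}
    (an : AnalyticAt ℂ Q 0) (q0 : Q 0 = 0)
    (q1 : HasFDerivAt Q (0 : (κ → ℂ) →L[ℂ] ι → ℂ) 0) : Nonempty (Ser Q) := by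
  obtain ⟨p, r, hr⟩ := an
  obtain ⟨ρ, h0, h1⟩ := ENNReal.lt_iff_exists_nnreal_btwn.1 hr.r_pos
  obtain ⟨K, hK, hb⟩ := p.norm_mul_pow_le_of_lt_radius (h1.trans_le hr.r_le)
  refine ⟨⟨p, ρ, K, by exact_mod_cast h0, hK, hb, fun v hv => ?_⟩⟩
  have hv' : v ∈ Metric.eball (0 : κ → ℂ) r := by
    rw [mem_eball_zero_iff]
    refine lt_trans ?_ h1
    rw [← ofReal_norm, ← ENNReal.ofReal_coe_nnreal]
    exact (ENNReal.ofReal_lt_ofReal_iff (by exact_mod_cast h0)).2 hv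
  have hs := hr.hasSum hv'
  rw [zero_add] at hs
  have e0 : (p 0 fun _ => v) = 0 := by
    rw [hr.coeff_zero, q0]
  have e1 : (p 1 fun _ => v) = 0 := by
    have := hr.hasFPowerSeriesAt.hasFDerivAt.unique q1
    have h2 := congrArg (fun L => L v) this
    simpa [Matrix.vec_single_eq_const] using h2
  have := (hasSum_nat_add_iff' 2).2 hs
  simpa [Finset.sum_range_succ, e0, e1] using this

/-- a product and an inclusion -/
structure Alg (A1 A2 : Type) [NormedAddCommGroup A1] [NormedSpace ℂ A1] [NormedAddCommGroup A2]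
    [NormedSpace ℂ A2] where
  mul : A1 →L[ℂ] A1 →L[ℂ] A2
  inc : A2 →L[ℂ] A1

variable {A1 A2 B1 B2 : Type} [NormedAddCommGroup A1] [NormedSpace ℂ A1] [NormedAddCommGroup A2]
  [NormedSpace ℂ A2] [NormedAddCommGroup B1] [NormedSpace ℂ B1] [NormedAddCommGroup B2]
  [NormedSpace ℂ B2]

namespace Alg

structure Bnd (𝒜 : Alg A1 A2) (β : ℝ) : Prop where
  one_le : 1 ≤ β
  mul_le : ∀ a b, ‖𝒜.mul a b‖ ≤ β * ‖a‖ * ‖b‖
  inc_le : ∀ c, ‖𝒜.inc c‖ ≤ β * ‖c‖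

/-- homomorphisms -/
structure Hom (𝒜 : Alg A1 A2) (ℬ : Alg B1 B2) (φ1 : A1 →L[ℂ] B1) (φ2 : A2 →L[ℂ] B2) : Prop where
  mul : ∀ a b, φ2 (𝒜.mul a b) = ℬ.mul (φ1 a) (φ1 b)
  inc : ∀ c, φ1 (𝒜.inc c) = ℬ.inc (φ2 c)

/-- the scalar field -/
def sc : Alg ℂ ℂ := ⟨ContinuousLinearMap.mul ℂ ℂ, ContinuousLinearMap.id ℂ ℂ⟩

/-- products of `r + 2` factors -/
def prd (𝒜 : Alg A1 A2) : (r : ℕ) → (Fin (r + 2) → A1) → A2
  | 0, a => 𝒜.mul (a 0) (a 1)
  | r + 1, a => 𝒜.mul (a 0) (𝒜.inc (prd 𝒜 r fun j => a j.succ))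

variable {𝒜 : Alg A1 A2} {ℬ : Alg B1 B2} {β : ℝ}

theorem norm_prd (h : 𝒜.Bnd β) {s : ℝ} (hs : 0 ≤ s) : ∀ (r : ℕ) (a : Fin (r + 2) → A1),
    (∀ j, ‖a j‖ ≤ s) → ‖𝒜.prd r a‖ ≤ (β ^ 2 * s) ^ (r + 2)
  | 0, a, ha => by
    have h1 := h.one_le
    have := ha 0; have := ha 1
    refine (h.mul_le _ _).trans ?_
    calc β * ‖a 0‖ * ‖a 1‖ ≤ β ^ 4 * s * s := by
          gcongr; exact le_self_pow₀ h1 (by norm_num)
      _ = _ := by ring
  | r + 1, a, ha => by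
    have h1 := h.one_le
    have h2 := norm_prd h hs r (fun j => a j.succ) fun j => ha _
    have h3 := (h.inc_le _).trans (mul_le_mul_of_nonneg_left h2 (by linarith))
    have := ha 0
    refine (h.mul_le _ _).trans ?_
    calc β * ‖a 0‖ * ‖𝒜.inc (𝒜.prd r fun j => a j.succ)‖
        ≤ β * s * (β * (β ^ 2 * s) ^ (r + 2)) := by gcongr
      _ = _ := by ring

theorem Hom.prd {φ1 : A1 →L[ℂ] B1} {φ2 : A2 →L[ℂ] B2} (h : 𝒜.Hom ℬ φ1 φ2) :
    ∀ (r : ℕ) (a : Fin (r + 2) → A1), φ2 (𝒜.prd r a) = ℬ.prd r fun j => φ1 (a j)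
  | 0, a => h.mul _ _
  | r + 1, a => by
    simp only [Alg.prd]
    rw [h.mul, h.inc, Hom.prd h r]

theorem prd_sc : ∀ (r : ℕ) (a : Fin (r + 2) → ℂ), sc.prd r a = ∏ j, a j
  | 0, a => by simp [prd, sc]
  | r + 1, a => by
    rw [Fin.prod_univ_succ, ← prd_sc r]; rfl

theorem diff_prd {E : Type*} [NormedAddCommGroup E] [NormedSpace ℂ E] {U : Set E} :
    ∀ (r : ℕ) (a : E → Fin (r + 2) → A1), (∀ j, DifferentiableOn ℂ (fun z => a z j) U) →
      DifferentiableOn ℂ (fun z => 𝒜.prd r (a z)) U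
  | 0, _, ha => (𝒜.mul.differentiable.comp_differentiableOn (ha 0)).clm_apply (ha 1)
  | r + 1, a, ha => (𝒜.mul.differentiable.comp_differentiableOn (ha 0)).clm_apply
      (𝒜.inc.differentiable.comp_differentiableOn
        (diff_prd r (fun z j => a z j.succ) fun _ => ha _))

theorem prd_mem {S : Submodule ℂ A2} (h : ∀ a b, 𝒜.mul a b ∈ S) :
    ∀ (r : ℕ) (a : Fin (r + 2) → A1), 𝒜.prd r a ∈ S
  | 0, _ => h _ _
  | _ + 1, _ => h _ _

variable {κ ι : Type} [Fintype κ] [Fintype ι] [DecidableEq κ] {Q : (κ → ℂ) → ι → ℂ}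

/-- the homogeneous part of degree `r + 2` -/
def term (𝒜 : Alg A1 A2) (S : Ser Q) (r : ℕ) (J : κ → A1) : ι → A2 := fun i =>
  ∑ α : Fin (r + 2) → κ,
    S.p (r + 2) (fun j => Pi.single (α j) 1) i • 𝒜.prd r fun j => J (α j)

/-- the superposition operator -/
def Qh (𝒜 : Alg A1 A2) (S : Ser Q) (J : κ → A1) : ι → A2 := ∑' r, 𝒜.term S r J

/-- the radius -/
def rad (S : Ser Q) (β : ℝ) : ℝ := S.ρ / ((Fintype.card κ + 1) * β ^ 2)

theorem rad_pos (S : Ser Q) (h : 1 ≤ β) : 0 < rad S β := by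
  have := S.pos; unfold rad; positivity

theorem mul_rad_le (S : Ser Q) (h : 1 ≤ β) : β * rad S β ≤ S.ρ := by
  have := S.pos
  unfold rad
  rw [← mul_div_assoc, div_le_iff₀ (by positivity)]
  have : β ≤ (Fintype.card κ + 1) * β ^ 2 := by
    have : (0 : ℝ) ≤ Fintype.card κ := by positivity
    nlinarith
  nlinarith

theorem norm_term (h : 𝒜.Bnd β) (S : Ser Q) (r : ℕ) (J : κ → A1) :
    ‖𝒜.term S r J‖ ≤ S.K * (‖J‖ / rad S β) ^ (r + 2) := by
  have h1 := h.one_le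
  have hρ := S.pos
  have hK := S.K0
  have hr := rad_pos S h1
  refine (pi_norm_le_iff_of_nonneg (by positivity)).2 fun i => ?_
  have hp : ‖S.p (r + 2)‖ ≤ S.K / S.ρ ^ (r + 2) := by
    rw [le_div_iff₀ (by positivity)]; exact S.bd _
  have hc : ∀ α : Fin (r + 2) → κ,
      ‖S.p (r + 2) (fun j => Pi.single (α j) 1) i • 𝒜.prd r fun j => J (α j)‖
        ≤ S.K / S.ρ ^ (r + 2) * (β ^ 2 * ‖J‖) ^ (r + 2) := by
    intro α
    rw [norm_smul]
    refine mul_le_mul ?_ (norm_prd h (norm_nonneg _) r _ fun j => norm_le_pi_norm J _)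
      (norm_nonneg _) (by positivity)
    refine (norm_le_pi_norm _ i).trans (((S.p (r + 2)).le_opNorm _).trans ?_)
    simpa [Pi.norm_single] using hp
  refine (norm_sum_le _ _).trans ((Finset.sum_le_sum fun α _ => hc α).trans ?_)
  rw [Finset.sum_const, Finset.card_univ, Fintype.card_fun, Fintype.card_fin, nsmul_eq_mul]
  push_cast
  calc (Fintype.card κ : ℝ) ^ (r + 2) * (S.K / S.ρ ^ (r + 2) * (β ^ 2 * ‖J‖) ^ (r + 2))
      ≤ (Fintype.card κ + 1 : ℝ) ^ (r + 2) *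
        (S.K / S.ρ ^ (r + 2) * (β ^ 2 * ‖J‖) ^ (r + 2)) := by gcongr; linarith
    _ = _ := by
      unfold rad
      rw [div_div_eq_mul_div, div_pow]
      simp only [mul_pow]
      field_simp

theorem diff_term {E : Type*} [NormedAddCommGroup E] [NormedSpace ℂ E] {U : Set E} (S : Ser Q)
    (r : ℕ) {J : E → κ → A1} (hJ : DifferentiableOn ℂ J U) :
    DifferentiableOn ℂ (fun z => 𝒜.term S r (J z)) U := by
  refine differentiableOn_pi.2 fun i => ?_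
  refine DifferentiableOn.fun_sum fun α _ => DifferentiableOn.const_smul ?_ _
  exact diff_prd r (fun z j => J z (α j)) fun j => differentiableOn_pi.1 hJ _

theorem Hom.term {φ1 : A1 →L[ℂ] B1} {φ2 : A2 →L[ℂ] B2} (h : 𝒜.Hom ℬ φ1 φ2) (S : Ser Q) (r : ℕ)
    (J : κ → A1) (i : ι) : φ2 (𝒜.term S r J i) = ℬ.term S r (fun m => φ1 (J m)) i := by
  simp only [Alg.term, map_sum, map_smul, h.prd]

theorem term_sc (S : Ser Q) (r : ℕ) (v : κ → ℂ) : sc.term S r v = S.p (r + 2) fun _ => v := by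
  funext i
  have e : (fun _ : Fin (r + 2) => v) = fun _ => ∑ m, v m • (Pi.single m 1 : κ → ℂ) := by
    funext _; exact pi_eq_sum_univ' v
  rw [e, (S.p (r + 2)).map_sum]
  simp only [term, prd_sc, Finset.sum_apply, ContinuousMultilinearMap.map_smul_univ,
    Pi.smul_apply, smul_eq_mul, mul_comm]

theorem term_le_half (h : 𝒜.Bnd β) (S : Ser Q) {J : κ → A1} (hJ : ‖J‖ ≤ rad S β / 2) (r : ℕ) :
    ‖𝒜.term S r J‖ ≤ S.K * (‖J‖ / rad S β) ^ 2 * (1 / 2) ^ r := by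
  have hr := rad_pos S h.one_le
  have hK := S.K0
  refine (norm_term h S r J).trans ?_
  have : ‖J‖ / rad S β ≤ 1 / 2 := by rw [div_le_iff₀ hr]; linarith
  rw [pow_add, mul_comm (_ ^ r), ← mul_assoc]
  gcongr

variable [CompleteSpace A2]

theorem summable_term (h : 𝒜.Bnd β) (S : Ser Q) {J : κ → A1} (hJ : ‖J‖ ≤ rad S β / 2) :
    Summable fun r => 𝒜.term S r J :=
  Summable.of_norm_bounded (summable_geometric_two.mul_left _) (term_le_half h S hJ)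

theorem hasSum_Qh (h : 𝒜.Bnd β) (S : Ser Q) {J : κ → A1} (hJ : ‖J‖ ≤ rad S β / 2) :
    HasSum (fun r => 𝒜.term S r J) (𝒜.Qh S J) := (summable_term h S hJ).hasSum

theorem hasSum_Qh_apply (h : 𝒜.Bnd β) (S : Ser Q) {J : κ → A1} (hJ : ‖J‖ ≤ rad S β / 2) (i : ι) :
    HasSum (fun r => 𝒜.term S r J i) (𝒜.Qh S J i) := Pi.hasSum.1 (hasSum_Qh h S hJ) i

theorem norm_Qh (h : 𝒜.Bnd β) (S : Ser Q) {J : κ → A1} (hJ : ‖J‖ ≤ rad S β / 2) :
    ‖𝒜.Qh S J‖ ≤ 2 * S.K / rad S β ^ 2 * ‖J‖ ^ 2 := by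
  have := tsum_of_norm_bounded (hasSum_geometric_two.mul_left (S.K * (‖J‖ / rad S β) ^ 2))
    (term_le_half h S hJ)
  refine this.trans (le_of_eq ?_)
  rw [div_pow]; ring

theorem term_unif (h : 𝒜.Bnd β) (S : Ser Q) {J : κ → A1} (hJ : ‖J‖ ≤ rad S β / 2) (r : ℕ) :
    ‖𝒜.term S r J‖ ≤ S.K * (1 / 2) ^ r := by
  have hr := rad_pos S h.one_le
  have hK := S.K0
  refine (term_le_half h S hJ r).trans ?_
  have : ‖J‖ / rad S β ≤ 1 := by rw [div_le_iff₀ hr]; linarith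
  have h2 : (‖J‖ / rad S β) ^ 2 ≤ 1 := pow_le_one₀ (by positivity) this
  gcongr
  exact mul_le_of_le_one_right hK.le h2

theorem unif_Qh (h : 𝒜.Bnd β) (S : Ser Q) :
    TendstoUniformlyOn (fun N J => ∑ r ∈ Finset.range N, 𝒜.term S r J) (𝒜.Qh S) atTop
      (closedBall 0 (rad S β / 2)) :=
  tendstoUniformlyOn_tsum_nat (summable_geometric_two.mul_left S.K) fun r _ hJ =>
    term_unif h S (mem_closedBall_zero_iff.1 hJ) r

theorem diff_Qh (h : 𝒜.Bnd β) (S : Ser Q) :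
    DifferentiableOn ℂ (𝒜.Qh S) (ball 0 (rad S β / 2)) := by
  refine diffOn_of_lim isOpen_ball (M := S.K * 2) (Eventually.of_forall fun N => ⟨?_, ?_⟩)
    ((unif_Qh h S).mono ball_subset_closedBall)
  · exact DifferentiableOn.fun_sum fun r _ => diff_term S r differentiableOn_id
  · intro J hJ
    refine (norm_sum_le _ _).trans ((Finset.sum_le_sum fun r _ =>
      term_unif h S (mem_ball_zero_iff.1 hJ).le r).trans ?_)
    rw [← Finset.mul_sum]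
    exact mul_le_mul_of_nonneg_left (sum_geometric_two_le N) S.K0.le

theorem Hom.Qh {φ1 : A1 →L[ℂ] B1} {φ2 : A2 →L[ℂ] B2} (hφ : 𝒜.Hom ℬ φ1 φ2) (h : 𝒜.Bnd β)
    (S : Ser Q) {J : κ → A1} (hJ : ‖J‖ ≤ rad S β / 2) (i : ι) :
    φ2 (𝒜.Qh S J i) = ℬ.Qh S (fun m => φ1 (J m)) i := by
  have h1 : HasSum (fun r => ℬ.term S r fun m => φ1 (J m)) fun i => φ2 (𝒜.Qh S J i) :=
    Pi.hasSum.2 fun i => by
      simpa only [hφ.term] using φ2.hasSum (hasSum_Qh_apply h S hJ i)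
  exact (congrFun h1.tsum_eq i).symm

/-- characters -/
theorem Hom.chr {e1 : A1 →L[ℂ] ℂ} {e2 : A2 →L[ℂ] ℂ} (hφ : 𝒜.Hom sc e1 e2) (h : 𝒜.Bnd β)
    (he : ∀ a, ‖e1 a‖ ≤ β * ‖a‖) (S : Ser Q) {J : κ → A1} (hJ : ‖J‖ ≤ rad S β / 2) (i : ι) :
    e2 (𝒜.Qh S J i) = Q (fun m => e1 (J m)) i := by
  rw [hφ.Qh h S hJ]
  have h1 := h.one_le
  have hr := rad_pos S h1
  have hv : ‖fun m => e1 (J m)‖ < S.ρ := by
    refine lt_of_le_of_lt (b := β * (rad S β / 2)) ?_ ?_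
    · refine (pi_norm_le_iff_of_nonneg (by positivity)).2 fun m => (he _).trans ?_
      gcongr
      exact (norm_le_pi_norm J m).trans hJ
    · have := mul_rad_le S h1
      nlinarith
  have := S.sum _ hv
  simp only [← term_sc] at this
  rw [Alg.Qh, this.tsum_eq]

theorem Qh_mem (h : 𝒜.Bnd β) (S : Ser Q) {T : Submodule ℂ A2} (hT : IsClosed (T : Set A2))
    (hm : ∀ a b, 𝒜.mul a b ∈ T) {J : κ → A1} (hJ : ‖J‖ ≤ rad S β / 2) (i : ι) :
    𝒜.Qh S J i ∈ T :=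
  hT.mem_of_tendsto (hasSum_Qh_apply h S hJ i).tendsto_sum_nat (Eventually.of_forall fun _ =>
    T.sum_mem fun r _ => T.sum_mem fun _ _ => T.smul_mem _ (prd_mem hm r _))

end Alg

end Crest.Agent.N207.L
end
private theorem rz_c4dde2cfab : type_of% @_root_.Crest.Agent.N207.L.Alg.prd.eq_def := @_root_.Crest.Agent.N207.L.Alg.prd.eq_def -- L75
private theorem rz_82af499e6f : type_of% @_root_.Crest.Agent.N207.L.Alg.prd.eq_1 := @_root_.Crest.Agent.N207.L.Alg.prd.eq_1 -- L75
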