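import Crest.Agent.N207.L.Tru
import Crest.Agent.N207.L.Gr2
import Crest.Agent.N207.J.As5
import Crest.Agent.N250.H.Fix
import Crest.Agent.N207.L.Sup
import Crest.Agent.N207.L.Cmp

-- ▼ part N207/L/Pc1
section

/-! # N207/L/Pc1 (helper59): the linear part of a piece, at the level of sequences -/

set_option autoImplicit false
set_option linter.unusedSectionVars false
set_option maxHeartbeats 400000
open Set Filter Topology MeasureTheory BoundedContinuousFunction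

noncomputable section

namespace Crest.Agent.N207.L
open J Crest.Agent.N250.H

namespace Pth

def EM (γ : Pth) : D →L[ℂ] CL := dg (γ.em H)
def EP (γ : Pth) : D →L[ℂ] CL := dg (γ.ep H)
def GM (γ : Pth) : CL →L[ℂ] CL := dg fun k => (((k : ℂ) + 1) / 2) • γ.gm H k
def GP (γ : Pth) : CL →L[ℂ] CL := dg fun k => (((k : ℂ) + 1) / 2) • γ.gp H k

variable {ι : Type} [Fintype ι]

/-- free part -/
def L0 (γ : Pth) : (ι → D) × (ι → D) →L[ℂ] Tr ι :=
  (ContinuousLinearMap.pi fun i => γ.EP ∘L ContinuousLinearMap.proj i ∘L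
    ContinuousLinearMap.snd ℂ _ _).prod ((ContinuousLinearMap.pi fun i => γ.EM ∘L
      ContinuousLinearMap.proj i ∘L ContinuousLinearMap.fst ℂ _ _).prod 0)

/-- forced part -/
def L1 (γ : Pth) : (ι → CL) →L[ℂ] Tr ι :=
  (ContinuousLinearMap.pi fun i => -γ.GP ∘L ContinuousLinearMap.proj i).prod
    ((ContinuousLinearMap.pi fun i => -γ.GM ∘L ContinuousLinearMap.proj i).prod
      (ContinuousLinearMap.id ℂ _))

theorem L0_apply (γ : Pth) (v : (ι → D) × (ι → D)) :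
    γ.L0 v = (fun i => γ.EP (v.2 i), fun i => γ.EM (v.1 i), 0) := rfl

theorem L1_apply (γ : Pth) (f : ι → CL) :
    γ.L1 f = (fun i => -γ.GP (f i), fun i => -γ.GM (f i), f) := rfl

/-- the triple with data `v` and source `f` -/
def tri (γ : Pth) (v : (ι → D) × (ι → D)) (f : ι → CL) : Tr ι := γ.L0 v + γ.L1 f

theorem tri_p (γ : Pth) (v : (ι → D) × (ι → D)) (f : ι → CL) (i : ι) :
    (γ.tri v f).1 i = γ.EP (v.2 i) - γ.GP (f i) := (sub_eq_add_neg _ _).symm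

theorem tri_q (γ : Pth) (v : (ι → D) × (ι → D)) (f : ι → CL) (i : ι) :
    (γ.tri v f).2.1 i = γ.EM (v.1 i) - γ.GM (f i) := (sub_eq_add_neg _ _).symm

theorem tri_F (γ : Pth) (v : (ι → D) × (ι → D)) (f : ι → CL) : (γ.tri v f).2.2 = f := zero_add f

theorem tw_one_eq (γ : Pth) (X : CL) (k : ℕ) (x : ℝ) :
    tru 6 γ.w γ.om X k x = (wn 6 k)⁻¹ • P k (γ.tw 1 k x • X k x) := by
  rw [tru, map_smul, smul_smul, ← wt_eq_wn, tw]
  congr 1
  push_cast
  ring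

theorem tw_two_eq (γ : Pth) (X : CL) (k : ℕ) (x : ℝ) :
    tru 4 (fun x => γ.w x ^ 2) γ.om X k x = (wn 4 k)⁻¹ • P k (γ.tw 2 k x • X k x) := by
  rw [tru, map_smul, smul_smul, ← wt_eq_wn, tw]
  congr 1
  push_cast
  ring

variable {γ : Pth} {C o : ℝ}

namespace Ok

theorem hm_bd (h : γ.Ok C o) (ho : 0 < o) (k : ℕ) :
    ‖(((k : ℂ) + 1) / 2) • γ.gm H k‖ ≤ 16 * C / 2 := Grn.half_bd (h.norm_gm ho) k

theorem hp_bd (h : γ.Ok C o) (ho : 0 < o) (k : ℕ) :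
    ‖(((k : ℂ) + 1) / 2) • γ.gp H k‖ ≤ 16 * C / 2 := Grn.half_bd (h.norm_gp ho) k

theorem EM_apply (h : γ.Ok C o) (ho : 0 < o) (A : D) (k : ℕ) : γ.EM A k = γ.em H k (A k) :=
  dg_apply (h.norm_em ho) A k

theorem EP_apply (h : γ.Ok C o) (ho : 0 < o) (A : D) (k : ℕ) : γ.EP A k = γ.ep H k (A k) :=
  dg_apply (h.norm_ep ho) A k

theorem GM_apply (h : γ.Ok C o) (ho : 0 < o) (f : CL) (k : ℕ) :
    γ.GM f k = (((k : ℂ) + 1) / 2) • γ.gm H k (f k) := dg_apply (h.hm_bd ho) f k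

theorem GP_apply (h : γ.Ok C o) (ho : 0 < o) (f : CL) (k : ℕ) :
    γ.GP f k = (((k : ℂ) + 1) / 2) • γ.gp H k (f k) := dg_apply (h.hp_bd ho) f k

theorem norm_EM (h : γ.Ok C o) (ho : 0 < o) : ‖γ.EM‖ ≤ 1 := norm_dg_le (h.norm_em ho)
theorem norm_EP (h : γ.Ok C o) (ho : 0 < o) : ‖γ.EP‖ ≤ 1 := norm_dg_le (h.norm_ep ho)
theorem norm_GM (h : γ.Ok C o) (ho : 0 < o) : ‖γ.GM‖ ≤ 16 * C / 2 := norm_dg_le (h.hm_bd ho)
theorem norm_GP (h : γ.Ok C o) (ho : 0 < o) : ‖γ.GP‖ ≤ 16 * C / 2 := norm_dg_le (h.hp_bd ho)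

theorem norm_L0 (h : γ.Ok C o) (ho : 0 < o) (v : (ι → D) × (ι → D)) : ‖γ.L0 v‖ ≤ ‖v‖ := by
  have h0 := norm_nonneg v
  rw [L0_apply]
  refine norm_prod_le_iff.2 ⟨?_, norm_prod_le_iff.2 ⟨?_, by simp⟩⟩
  · refine (pi_norm_le_iff_of_nonneg h0).2 fun i => ((γ.EP).le_of_opNorm_le (h.norm_EP ho) _).trans ?_
    rw [one_mul]
    exact (norm_le_pi_norm v.2 i).trans (norm_snd_le v)
  · refine (pi_norm_le_iff_of_nonneg h0).2 fun i => ((γ.EM).le_of_opNorm_le (h.norm_EM ho) _).trans ?_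
    rw [one_mul]
    exact (norm_le_pi_norm v.1 i).trans (norm_fst_le v)

theorem norm_L1 (h : γ.Ok C o) (ho : 0 < o) (f : ι → CL) : ‖γ.L1 f‖ ≤ (8 * C + 1) * ‖f‖ := by
  have h0 := norm_nonneg f
  have hC := h.C0
  rw [L1_apply]
  refine norm_prod_le_iff.2 ⟨?_, norm_prod_le_iff.2 ⟨?_, by nlinarith⟩⟩
  · refine (pi_norm_le_iff_of_nonneg (by positivity)).2 fun i => ?_
    rw [norm_neg]
    refine ((γ.GP).le_of_opNorm_le (h.norm_GP ho) _).trans ?_
    have := norm_le_pi_norm f i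
    gcongr; linarith
  · refine (pi_norm_le_iff_of_nonneg (by positivity)).2 fun i => ?_
    rw [norm_neg]
    refine ((γ.GM).le_of_opNorm_le (h.norm_GM ho) _).trans ?_
    have := norm_le_pi_norm f i
    gcongr; linarith

theorem ode_sq (h : γ.Ok C o) (ho : 0 < o) (A : D) (f : CL) (k : ℕ) :
    Ode γ.τ (-(k + 2))
      (fun x => -((2 * (k : ℂ) + 2)⁻¹ • tru 4 (fun x => γ.w x ^ 2) γ.om f k x))
      (tru 6 γ.w γ.om (γ.EM A - γ.GM f) k) := by
  refine (((h.ode_q ho k (((k : ℂ) + 1) / 2) (A k) (f k)).clm (P k)).smul (wn 6 k)⁻¹).congr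
    (fun x => ?_) fun x => ?_
  · rw [tw_two_eq, map_neg, map_smul (P k) (((k : ℂ) + 1) / 2), smul_neg, smul_smul, smul_smul,
      Grn.half_wn]
  · rw [tw_one_eq, lp.coeFn_sub, Pi.sub_apply, h.EM_apply ho, h.GM_apply ho]
    rfl

theorem ode_sp (h : γ.Ok C o) (ho : 0 < o) (B : D) (f : CL) (k : ℕ) :
    Ode γ.τ k (fun x => (2 * (k : ℂ) + 2)⁻¹ • tru 4 (fun x => γ.w x ^ 2) γ.om f k x)
      (tru 6 γ.w γ.om (γ.EP B - γ.GP f) k) := by
  refine (((h.ode_p ho k (((k : ℂ) + 1) / 2) (B k) (f k)).clm (P k)).smul (wn 6 k)⁻¹).congr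
    (fun x => ?_) fun x => ?_
  · rw [tw_two_eq, map_smul (P k) (((k : ℂ) + 1) / 2), smul_smul, smul_smul, Grn.half_wn]
  · rw [tw_one_eq, lp.coeFn_sub, Pi.sub_apply, h.EP_apply ho, h.GP_apply ho]
    rfl

theorem tr_sq (h : γ.Ok C o) (ho : 0 < o) (A : D) (f : CL) :
    tr γ.a (γ.EM A - γ.GM f) = A := CL.ext fun k => by
  rw [tr_apply, lp.coeFn_sub, Pi.sub_apply, h.EM_apply ho, h.GM_apply ho, coe_sub, Pi.sub_apply,
    coe_smul, h.em_a ho]
  simp only [h.gm_a ho, smul_zero, sub_zero]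

theorem trs_sp (h : γ.Ok C o) (ho : 0 < o) (hf : γ.fin = true) (B : D) (f : CL) :
    trs γ.pt (γ.EP B - γ.GP f) = B := CL.ext fun k => by
  rw [trs_apply, lp.coeFn_sub, Pi.sub_apply, h.EP_apply ho, h.GP_apply ho, coe_sub, Pi.sub_apply,
    coe_smul, h.ep_pt ho hf]
  simp only [h.gp_pt ho hf, smul_zero, sub_zero]

theorem dat_tri (h : γ.Ok C o) (ho : 0 < o) (v : (ι → D) × (ι → D)) (f : ι → CL) :
    Dat γ ((γ.tri v f).p γ) ((γ.tri v f).q γ) v.1 v.2 where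
  hq i k := by rw [Tr.q, tri_q, tru_eq_tr, h.tr_sq ho]
  hp hf i k := by rw [Tr.p, tri_p, tru_eq_pt, h.trs_sp ho hf]

theorem om0 (h : γ.Ok C o) (ho : 0 < o) (x : ℝ) : 0 < γ.om x := ho.trans_le (h.o0 x)

theorem tendsto_bd (h : γ.Ok C o) (ho : 0 < o) (hf : γ.fin = false) {p : Md} {η : ℝ}
    (hp : Bd 6 γ.w γ.om p η) (k : ℕ) : Tendsto (p k) atTop (𝓝 0) := by
  refine squeeze_zero_norm (a := fun x => η * γ.w x) (fun x => ?_)
    (by simpa using (h.dec hf).const_mul η)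
  refine (hp.mode_le (fun x => (h.w0 x).le) (fun x => (h.om0 ho x).le) k x).trans ?_
  refine mul_le_mul_of_nonneg_left ?_ hp.nn
  exact mul_le_of_le_one_right (h.w0 x).le (pow_le_one₀ (h.om0 ho x).le (h.o1 x))

/-- uniqueness for the growing amplitudes -/
theorem uniq_p (h : γ.Ok C o) (ho : 0 < o) {p p' : Md} {η η' : ℝ} (hp : Bd 6 γ.w γ.om p η)
    (hp' : Bd 6 γ.w γ.om p' η') {k : ℕ} {G : ℝ → H} (h1 : Ode γ.τ k G (p k))
    (h2 : Ode γ.τ k G (p' k)) (hd : γ.fin = true → p k (γ.pt k) = p' k (γ.pt k)) :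
    p k = p' k := by
  funext x
  cases hf : γ.fin
  · refine h.uniq_half k h1 h2 ?_ x
    simpa using (h.tendsto_bd ho hf hp k).sub (h.tendsto_bd ho hf hp' k)
  · exact h.uniq_pt h1 h2 (hd hf) x

theorem bd6 (h : γ.Ok C o) (ho : 0 < o) (X : CL) : Bd 6 γ.w γ.om (tru 6 γ.w γ.om X) ‖X‖ :=
  bd_tru h.wc (fun x => (h.w0 x).le) h.oc (fun x => (h.om0 ho x).le) X

theorem bd4 (h : γ.Ok C o) (ho : 0 < o) (X : CL) :
    Bd 4 (fun x => γ.w x ^ 2) γ.om (tru 4 (fun x => γ.w x ^ 2) γ.om X) ‖X‖ :=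
  bd_tru (h.wc.pow 2) (fun _ => sq_nonneg _) h.oc (fun x => (h.om0 ho x).le) X

end Ok

namespace Fam

variable {Z : Type} [NormedAddCommGroup Z] [NormedSpace ℂ Z] {t τ : Z → ℝ → ℂ} {U : Set Z}

theorem diff_EM (h : γ.Fam t τ U C o) (ho : 0 < o) :
    DifferentiableOn ℂ (fun z => (γ.re (t z) (τ z)).EM) U :=
  diffOn_dg h.op (fun z hz => (h.ok z hz).norm_em ho) fun k v =>
    (h.diff_em ho k).clm_apply (differentiableOn_const v)

theorem diff_EP (h : γ.Fam t τ U C o) (ho : 0 < o) :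
    DifferentiableOn ℂ (fun z => (γ.re (t z) (τ z)).EP) U :=
  diffOn_dg h.op (fun z hz => (h.ok z hz).norm_ep ho) fun k v =>
    (h.diff_ep ho k).clm_apply (differentiableOn_const v)

theorem diff_GM (h : γ.Fam t τ U C o) (ho : 0 < o) :
    DifferentiableOn ℂ (fun z => (γ.re (t z) (τ z)).GM) U :=
  diffOn_dg h.op (fun z hz => (h.ok z hz).hm_bd ho) fun k v =>
    ((h.diff_gm ho k).clm_apply (differentiableOn_const v)).const_smul (((k : ℂ) + 1) / 2)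

theorem diff_GP (h : γ.Fam t τ U C o) (ho : 0 < o) :
    DifferentiableOn ℂ (fun z => (γ.re (t z) (τ z)).GP) U :=
  diffOn_dg h.op (fun z hz => (h.ok z hz).hp_bd ho) fun k v =>
    ((h.diff_gp ho k).clm_apply (differentiableOn_const v)).const_smul (((k : ℂ) + 1) / 2)

theorem diff_L0 (h : γ.Fam t τ U C o) (ho : 0 < o) :
    DifferentiableOn ℂ (fun z => (γ.re (t z) (τ z)).L0 (ι := ι)) U := by
  refine diffOn_clm h.op (M := 1) (fun z hz => ContinuousLinearMap.opNorm_le_bound _ zero_le_one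
    fun v => by simpa using (h.ok z hz).norm_L0 ho v) fun v => ?_
  simp only [L0_apply]
  exact (differentiableOn_pi.2 fun i => (h.diff_EP ho).clm_apply (differentiableOn_const _)).prodMk
    ((differentiableOn_pi.2 fun i => (h.diff_EM ho).clm_apply (differentiableOn_const _)).prodMk
      (differentiableOn_const _))

theorem diff_L1 (h : γ.Fam t τ U C o) (ho : 0 < o) :
    DifferentiableOn ℂ (fun z => (γ.re (t z) (τ z)).L1 (ι := ι)) U := by
  have := h.base.C0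
  refine diffOn_clm h.op (M := 8 * C + 1) (fun z hz => ContinuousLinearMap.opNorm_le_bound _
    (by positivity) ((h.ok z hz).norm_L1 ho)) fun v => ?_
  simp only [L1_apply]
  exact (differentiableOn_pi.2 fun i =>
    ((h.diff_GP ho).clm_apply (differentiableOn_const _)).neg).prodMk
    ((differentiableOn_pi.2 fun i =>
      ((h.diff_GM ho).clm_apply (differentiableOn_const _)).neg).prodMk (differentiableOn_const _))

end Fam

end Pth

end Crest.Agent.N207.L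
end
end

-- ▼ part N207/L/Fix
section

/-! # N207/L/Fix (helper59): the fixed point `f = Q (L v + M f)` for a quadratically small `Q` -/

set_option autoImplicit false
set_option linter.unusedSectionVars false
open Set Filter Topology Metric

noncomputable section

namespace Crest.Agent.N207.L
open Crest.Agent.N250.H

variable {X1 X2 V Z : Type*} [NormedAddCommGroup X1] [NormedSpace ℂ X1] [NormedAddCommGroup X2]
  [NormedSpace ℂ X2] [NormedAddCommGroup V] [NormedSpace ℂ V] [NormedAddCommGroup Z]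
  [NormedSpace ℂ Z]

/-- quadratically small holomorphic maps -/
structure Qd (Q : X1 → X2) (r K : ℝ) : Prop where
  r0 : 0 < r
  K0 : 0 < K
  diff : DifferentiableOn ℂ Q (ball 0 r)
  bd : ∀ J, ‖J‖ ≤ r → ‖Q J‖ ≤ K * ‖J‖ ^ 2

/-- the radius of the fixed point ball -/
def eta (r K c : ℝ) : ℝ := min (r / (4 * c)) (1 / (36 * K * c ^ 2))

variable {Q : X1 → X2} {r K c : ℝ}

theorem Qd.eta_pos (h : Qd Q r K) (hc : 0 < c) : 0 < eta r K c := by
  have := h.r0; have := h.K0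
  exact lt_min (by positivity) (by positivity)

theorem eta_le1 (hc : 0 < c) : 4 * c * eta r K c ≤ r := by
  have := min_le_left (r / (4 * c)) (1 / (36 * K * c ^ 2))
  rw [le_div_iff₀ (by positivity)] at this
  unfold eta; linarith

theorem Qd.eta_le2 (h : Qd Q r K) (hc : 0 < c) : 36 * K * c ^ 2 * eta r K c ≤ 1 := by
  have := h.K0
  have h1 := min_le_right (r / (4 * c)) (1 / (36 * K * c ^ 2))
  rw [le_div_iff₀ (by positivity)] at h1
  unfold eta; linarith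

theorem Qd.arg_le (h : Qd Q r K) (hc : 0 < c) {u : X1} {M : X2 →L[ℂ] X1}
    (hu : ‖u‖ ≤ c * eta r K c) (hM : ‖M‖ ≤ c) {f : X2} (hf : ‖f‖ ≤ 2 * eta r K c) :
    ‖u + M f‖ ≤ 3 * c * eta r K c := by
  have := h.eta_pos hc
  have h1 : ‖M f‖ ≤ c * (2 * eta r K c) := (M.le_opNorm f).trans (by gcongr)
  linarith [norm_add_le u (M f)]

theorem Qd.arg_lt (h : Qd Q r K) (hc : 0 < c) {u : X1} {M : X2 →L[ℂ] X1}
    (hu : ‖u‖ ≤ c * eta r K c) (hM : ‖M‖ ≤ c) {f : X2} (hf : ‖f‖ ≤ 2 * eta r K c) :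
    ‖u + M f‖ < r := by
  have h1 := h.arg_le hc hu hM hf
  have h2 := eta_le1 (r := r) (K := K) hc
  have := mul_pos hc (h.eta_pos hc)
  linarith

theorem Qd.ctr (h : Qd Q r K) (hc : 0 < c) {u : X1} {M : X2 →L[ℂ] X1}
    (hu : ‖u‖ ≤ c * eta r K c) (hM : ‖M‖ ≤ c) :
    Ctr (fun f => Q (u + M f)) (closedBall 0 (eta r K c)) (1 / 2) := by
  have he := h.eta_pos hc
  have hK := h.K0
  have h2 := h.eta_le2 hc
  set η := eta r K c with hη
  have hb : ∀ f ∈ ball (0 : X2) (η + η), ‖f‖ ≤ 2 * η := fun f hf => by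
    have := mem_ball_zero_iff.1 hf; linarith
  have := ctr_of_small (T := fun f => Q (u + M f)) (x0 := 0) (ρ := η) (r := η) (ε := η / 4) he
    (h.diff.comp (by fun_prop) fun f hf => mem_ball_zero_iff.2 (h.arg_lt hc hu hM (hb f hf)))
    (fun f hf => ?_) (by linarith)
  · convert this using 1
    field_simp; norm_num
  · rw [sub_zero]
    refine (h.bd _ (h.arg_lt hc hu hM (hb f hf)).le).trans ?_
    have h3 := h.arg_le hc hu hM (hb f hf)
    calc K * ‖u + M f‖ ^ 2 ≤ K * (3 * c * η) ^ 2 := by gcongr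
      _ = 36 * K * c ^ 2 * η * (η / 4) := by ring
      _ ≤ 1 * (η / 4) := by gcongr
      _ = _ := one_mul _

theorem Qd.uniq (h : Qd Q r K) (hc : 0 < c) {u : X1} {M : X2 →L[ℂ] X1}
    (hu : ‖u‖ ≤ c * eta r K c) (hM : ‖M‖ ≤ c) {f g : X2} (hf : ‖f‖ ≤ eta r K c)
    (hg : ‖g‖ ≤ eta r K c) (ef : Q (u + M f) = f) (eg : Q (u + M g) = g) : f = g :=
  (h.ctr hc hu hM).uniq (by norm_num) (mem_closedBall_zero_iff.2 hf)
    (mem_closedBall_zero_iff.2 hg) ef eg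

theorem Qd.fix_le (h : Qd Q r K) (hc : 0 < c) {u : X1} {M : X2 →L[ℂ] X1}
    (hu : ‖u‖ ≤ c * eta r K c) (hM : ‖M‖ ≤ c) {f : X2} (hf : ‖f‖ ≤ eta r K c)
    (ef : Q (u + M f) = f) : ‖f‖ ≤ 2 * K * ‖u‖ ^ 2 := by
  have he := h.eta_pos hc
  have h1 := (h.ctr hc hu hM).dist_le (by norm_num) (mem_closedBall_zero_iff.2 hf)
    (mem_closedBall_self he.le) ef
  have h2 := h.arg_lt hc hu hM (f := 0) (by simp; positivity)
  simp only [sub_zero, map_zero, add_zero] at h1 h2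
  have h3 := h.bd u h2.le
  norm_num at h1
  linarith

/-- existence and holomorphy -/
theorem Qd.exists_fix [CompleteSpace X2] (h : Qd Q r K) (hc : 0 < c) {U : Set Z} (hU : IsOpen U)
    {u : Z → X1} {M : Z → X2 →L[ℂ] X1} (hu : DifferentiableOn ℂ u U)
    (hM : DifferentiableOn ℂ M U) (bu : ∀ z ∈ U, ‖u z‖ ≤ c * eta r K c)
    (bM : ∀ z ∈ U, ‖M z‖ ≤ c) :
    ∃ f : Z → X2, DifferentiableOn ℂ f U ∧ ∀ z ∈ U, ‖f z‖ ≤ eta r K c ∧
      ‖f z‖ ≤ 2 * K * ‖u z‖ ^ 2 ∧ Q (u z + M z (f z)) = f z := by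
  have he := h.eta_pos hc
  obtain ⟨f, hf, h1⟩ := exists_fix_hol (T := fun z f => Q (u z + M z f)) (k := 1 / 2)
    (ρ := eta r K c) (x0 := 0) (U := U) (V := U ×ˢ closedBall 0 (eta r K c)) hU (by norm_num)
    (by norm_num) he.le (fun z hz => h.ctr hc (bu z hz) (bM z hz)) (fun z hz x hx => ⟨hz, hx⟩) (by
      refine h.diff.comp (DifferentiableOn.add ?_ (DifferentiableOn.clm_apply ?_ ?_)) ?_
      · exact hu.comp differentiableOn_fst fun p hp => hp.1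
      · exact hM.comp differentiableOn_fst fun p hp => hp.1
      · exact differentiableOn_snd
      · intro p hp
        refine mem_ball_zero_iff.2 (h.arg_lt hc (bu _ hp.1) (bM _ hp.1) ?_)
        have := mem_closedBall_zero_iff.1 hp.2
        linarith)
  refine ⟨f, hf, fun z hz => ?_⟩
  have h2 := mem_closedBall_zero_iff.1 (h1 z hz).1
  exact ⟨h2, h.fix_le hc (bu z hz) (bM z hz) h2 (h1 z hz).2, (h1 z hz).2⟩

end Crest.Agent.N207.L
end
end

-- ▼ part N207/L/Pc2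
section

/-! # N207/L/Pc2 (helper59): the solution map of a piece -/

set_option autoImplicit false
set_option linter.unusedSectionVars false
set_option maxHeartbeats 400000
open Set Filter Topology MeasureTheory BoundedContinuousFunction Metric

noncomputable section

namespace Crest.Agent.N207.L
open J Crest.Agent.N250.H

variable {ι : Type} [Fintype ι] {w om : ℝ → ℝ} {o C : ℝ}

/-- the product and the inclusion of a pair of weights -/
def alg (hw : Wts w om o) : Alg CL CL := ⟨hw.bcf.mul, hw.bcf.incl⟩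

theorem alg_bnd (hw : Wts w om o) : (alg hw).Bnd (96 * o⁻¹) where
  one_le := by linarith [hw.one_le]
  mul_le := hw.bcf.norm_mul_apply
  inc_le c := (hw.bcf.incl.le_of_opNorm_le hw.bcf.norm_incl c).trans (by
    have := hw.one_le
    gcongr; linarith)

/-- the stored jets of a triple -/
def JT (hw : Wts w om o) : Tr ι →L[ℂ] (ι × Jx → CL) :=
  ContinuousLinearMap.pi fun j => hw.bcf.jetc j.2 ∘L
    ((ContinuousLinearMap.proj j.1 ∘L ContinuousLinearMap.fst ℂ _ _).prod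
      ((ContinuousLinearMap.proj j.1 ∘L ContinuousLinearMap.fst ℂ _ _ ∘L
        ContinuousLinearMap.snd ℂ _ _).prod (ContinuousLinearMap.proj j.1 ∘L
          ContinuousLinearMap.snd ℂ _ _ ∘L ContinuousLinearMap.snd ℂ _ _)))

theorem JT_apply (hw : Wts w om o) (S : Tr ι) (j : ι × Jx) :
    JT hw S j = hw.bcf.jetc j.2 (S.1 j.1, S.2.1 j.1, S.2.2 j.1) := rfl

theorem Tr.norm_p (S : Tr ι) (i : ι) : ‖S.1 i‖ ≤ ‖S‖ := (norm_le_pi_norm _ i).trans (norm_fst_le S)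
theorem Tr.norm_q (S : Tr ι) (i : ι) : ‖S.2.1 i‖ ≤ ‖S‖ :=
  (norm_le_pi_norm _ i).trans ((norm_fst_le S.2).trans (norm_snd_le S))
theorem Tr.norm_F (S : Tr ι) (i : ι) : ‖S.2.2 i‖ ≤ ‖S‖ :=
  (norm_le_pi_norm _ i).trans ((norm_snd_le S.2).trans (norm_snd_le S))

theorem norm_JT (hw : Wts w om o) (S : Tr ι) : ‖JT hw S‖ ≤ KJ o⁻¹ * ‖S‖ := by
  have := hw.bcf.KJ_pos
  refine (pi_norm_le_iff_of_nonneg (by positivity)).2 fun j => ?_
  rw [JT_apply]
  refine (hw.bcf.norm_jetc_apply _ _).trans (mul_le_mul_of_nonneg_left ?_ this.le)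
  exact norm_prod_le_iff.2 ⟨S.norm_p _, norm_prod_le_iff.2 ⟨S.norm_q _, S.norm_F _⟩⟩

instance (priority := low) decJ : DecidableEq (ι × Jx) := Classical.decEq _

/-- the constant of the linear part -/
def cc (C o : ℝ) : ℝ := KJ o⁻¹ * (8 * C + 1)

namespace NL

def ser (N : NL ι) : Ser N.Q := Classical.choice (exists_ser N.an N.q0 N.q1)

/-- the nonlinearity on stored jets -/
def Qh (N : NL ι) (hw : Wts w om o) : (ι × Jx → CL) → ι → CL := (alg hw).Qh N.ser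

def r (N : NL ι) (o : ℝ) : ℝ := Alg.rad N.ser (96 * o⁻¹) / 2
def K0 (N : NL ι) (o : ℝ) : ℝ := 2 * N.ser.K / Alg.rad N.ser (96 * o⁻¹) ^ 2
/-- radius of existence and uniqueness -/
def eta (N : NL ι) (C o : ℝ) : ℝ := L.eta (N.r o) (N.K0 o) (cc C o)
/-- `‖F‖ ≤ K2 ‖v‖²` -/
def K2 (N : NL ι) (o : ℝ) : ℝ := 2 * N.K0 o * KJ o⁻¹ ^ 2

variable (N : NL ι)

theorem qd (hw : Wts w om o) : Qd (N.Qh hw) (N.r o) (N.K0 o) := by
  have h1 := Alg.rad_pos N.ser (alg_bnd hw).one_le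
  have h2 := N.ser.K0
  refine ⟨by unfold r; positivity, by unfold K0; positivity, ?_, fun J hJ => ?_⟩
  · unfold Qh
    exact Alg.diff_Qh (alg_bnd hw) N.ser
  · unfold Qh
    exact Alg.norm_Qh (alg_bnd hw) N.ser hJ

theorem Qh_prp (hw : Wts w om o) {J : ι × Jx → CL} (hJ : ‖J‖ ≤ N.r o) (i : ι) :
    Prp (N.Qh hw J i) := by
  refine hw.mem_prop2.1 ?_
  unfold Qh
  exact Alg.Qh_mem (alg_bnd hw) N.ser hw.bcf.isClosed_prop2 hw.bcf.mul_mem_prop2 hJ i

theorem syn_Qh (hw : Wts w om o) {J : ι × Jx → CL} (hJ : ‖J‖ ≤ N.r o) (i : ι) (x : ℝ) (y : S3) :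
    hw.bcf.syn2 4 x (N.Qh hw J i) y = N.Q (fun j => hw.bcf.syn1 4 x (J j) y) i := by
  have hom : (alg hw).Hom Alg.sc (ContinuousMap.evalCLM ℂ y ∘L hw.bcf.syn1 4 x)
      (ContinuousMap.evalCLM ℂ y ∘L hw.bcf.syn2 4 x) :=
    ⟨fun a b => congrArg (fun u : CS => u y) (hw.bcf.syn_mul x a b),
      fun c => congrArg (fun u : CS => u y) (hw.bcf.syn_incl (by norm_num) x c)⟩
  unfold Qh
  refine hom.chr (alg_bnd hw) (fun a => ?_) N.ser hJ i
  refine ((hw.bcf.syn1 4 x a).norm_coe_le_norm y).trans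
    ((hw.bcf.norm_syn1_le (by norm_num) x a).trans ?_)
  have := hw.one_le
  gcongr
  norm_num

variable {γ : Pth}

theorem fix_iff (hw : Wts γ.w γ.om o) {S : Tr ι} (hS : ‖JT hw S‖ ≤ N.r o) :
    N.Qh hw (JT hw S) = S.2.2 ↔ (∀ i, Prp (S.2.2 i)) ∧ ∀ x y,
      (fun i => val (S.F γ i) x y) = N.Q (jets (S.p γ) (S.q γ) (S.F γ) x y) := by
  have key : ∀ i x y, hw.bcf.syn2 4 x (N.Qh hw (JT hw S) i) y =
      N.Q (jets (S.p γ) (S.q γ) (S.F γ) x y) i := fun i x y => by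
    rw [N.syn_Qh hw hS]
    congr 1
    funext j
    exact (hw.jets_tru S.1 S.2.1 S.2.2 x y j).symm
  constructor
  · intro h
    refine ⟨fun i => h ▸ N.Qh_prp hw hS i, fun x y => funext fun i => ?_⟩
    rw [← key, h, Tr.F, hw.val_tru2 (by norm_num)]
  · rintro ⟨h1, h2⟩
    funext i
    refine hw.bcf.ext_syn2 (m := 4) (by norm_num) (hw.mem_prop2.2 (N.Qh_prp hw hS i))
      (hw.mem_prop2.2 (h1 i)) fun x => ContinuousMap.ext fun y => ?_
    rw [key, ← h2]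
    exact congrArg (fun u : CS => u y) (hw.val_tru2 (by norm_num) _ x)

/-- fixed points -/
def Fx (C o : ℝ) (γ : Pth) (v : (ι → D) × (ι → D)) (f : ι → CL) : Prop :=
  ‖f‖ ≤ N.eta C o ∧ ∀ hw : Wts γ.w γ.om o, N.Qh hw (JT hw (γ.tri v f)) = f

/-- the source of the solution -/
def src (C o : ℝ) (γ : Pth) (v : (ι → D) × (ι → D)) : ι → CL :=
  Classical.epsilon (N.Fx C o γ v)

/-- **the solution with data `v`** -/
def sol (C o : ℝ) (γ : Pth) (v : (ι → D) × (ι → D)) : Tr ι := γ.tri v (N.src C o γ v)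

variable {N} {v : (ι → D) × (ι → D)} {f g : ι → CL}

theorem cc_pos (h : γ.Ok C o) (ho : 0 < o) : 0 < cc C o := by
  have := (h.wts ho).bcf.KJ_pos
  have := h.C0
  unfold cc; positivity

theorem eta_pos (N : NL ι) (h : γ.Ok C o) (ho : 0 < o) : 0 < N.eta C o :=
  (N.qd (h.wts ho)).eta_pos (cc_pos h ho)

theorem u_le (h : γ.Ok C o) (ho : 0 < o) (v : (ι → D) × (ι → D)) :
    ‖JT (h.wts ho) (γ.L0 v)‖ ≤ KJ o⁻¹ * ‖v‖ :=
  (norm_JT _ _).trans (mul_le_mul_of_nonneg_left (h.norm_L0 ho v) (h.wts ho).bcf.KJ_pos.le)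

theorem u_le' (h : γ.Ok C o) (ho : 0 < o) (hv : ‖v‖ ≤ N.eta C o) :
    ‖JT (h.wts ho) (γ.L0 v)‖ ≤ cc C o * N.eta C o := by
  have := (h.wts ho).bcf.KJ_pos
  have := h.C0
  refine (u_le h ho v).trans ?_
  unfold cc
  gcongr
  nlinarith

theorem M_le (h : γ.Ok C o) (ho : 0 < o) : ‖JT (ι := ι) (h.wts ho) ∘L γ.L1‖ ≤ cc C o := by
  refine ContinuousLinearMap.opNorm_le_bound _ (cc_pos h ho).le fun f => (norm_JT _ _).trans ?_
  rw [cc, mul_assoc]
  exact mul_le_mul_of_nonneg_left (h.norm_L1 ho f) (h.wts ho).bcf.KJ_pos.le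

theorem JT_tri (hw : Wts γ.w γ.om o) (v : (ι → D) × (ι → D)) (f : ι → CL) :
    JT hw (γ.tri v f) = JT hw (γ.L0 v) + (JT hw ∘L γ.L1) f := map_add _ _ _

theorem JT_lt (h : γ.Ok C o) (ho : 0 < o) (hv : ‖v‖ ≤ N.eta C o) (hf : ‖f‖ ≤ N.eta C o) :
    ‖JT (h.wts ho) (γ.tri v f)‖ < N.r o := by
  rw [JT_tri]
  refine (N.qd (h.wts ho)).arg_lt (cc_pos h ho) (u_le' h ho hv) (M_le h ho) ?_
  have := N.eta_pos h ho
  change _ ≤ 2 * N.eta C o
  linarith

theorem Fx.uniq (h : γ.Ok C o) (ho : 0 < o) (hv : ‖v‖ ≤ N.eta C o) (hf : N.Fx C o γ v f)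
    (hg : N.Fx C o γ v g) : f = g :=
  (N.qd (h.wts ho)).uniq (cc_pos h ho) (u_le' h ho hv) (M_le h ho) hf.1 hg.1
    (by rw [← JT_tri]; exact hf.2 _) (by rw [← JT_tri]; exact hg.2 _)

theorem src_fx (h : γ.Ok C o) (ho : 0 < o) (hv : ‖v‖ ≤ N.eta C o) :
    N.Fx C o γ v (N.src C o γ v) := by
  refine Classical.epsilon_spec ?_
  obtain ⟨f, h1, h2⟩ := ((N.qd (h.wts ho)).ctr (cc_pos h ho) (u_le' h ho hv) (M_le h ho)).exists_fix
    isClosed_closedBall (by norm_num) (by norm_num) ⟨0, mem_closedBall_self (N.eta_pos h ho).le⟩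
  exact ⟨f, mem_closedBall_zero_iff.1 h1, fun _ => by rw [JT_tri]; exact h2⟩

theorem Fx.eq_src (h : γ.Ok C o) (ho : 0 < o) (hv : ‖v‖ ≤ N.eta C o) (hf : N.Fx C o γ v f) :
    f = N.src C o γ v := hf.uniq h ho hv (src_fx h ho hv)

theorem sol_F (N : NL ι) (C o : ℝ) (γ : Pth) (v : (ι → D) × (ι → D)) :
    (N.sol C o γ v).2.2 = N.src C o γ v := γ.tri_F _ _

theorem K2_pos (N : NL ι) (hw : Wts w om o) : 0 < N.K2 o := by
  have := (N.qd hw).K0
  have := hw.bcf.KJ_pos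
  unfold K2; positivity

theorem norm_src (h : γ.Ok C o) (ho : 0 < o) (hv : ‖v‖ ≤ N.eta C o) :
    ‖N.src C o γ v‖ ≤ N.K2 o * ‖v‖ ^ 2 := by
  have h1 := (N.qd (h.wts ho)).fix_le (cc_pos h ho) (u_le' h ho hv) (M_le h ho) (src_fx h ho hv).1
    (by rw [← JT_tri]; exact (src_fx h ho hv).2 _)
  have := (N.qd (h.wts ho)).K0
  have h2 := u_le h ho v
  refine h1.trans ?_
  rw [K2, mul_assoc (2 * N.K0 o), ← mul_pow]
  gcongr

theorem K2_eta (N : NL ι) (h : γ.Ok C o) (ho : 0 < o) :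
    (8 * C + 1) * (N.K2 o * N.eta C o) ≤ 1 / 18 := by
  have h1 : 36 * N.K0 o * cc C o ^ 2 * N.eta C o ≤ 1 := (N.qd (h.wts ho)).eta_le2 (cc_pos h ho)
  have h2 := (N.K2_pos (h.wts ho)).le
  have h3 := (N.eta_pos h ho).le
  have := h.C0
  have h4 : 36 * N.K0 o * cc C o ^ 2 * N.eta C o =
      18 * ((8 * C + 1) * ((8 * C + 1) * (N.K2 o * N.eta C o))) := by unfold K2 cc; ring
  have h5 : (8 * C + 1) * (N.K2 o * N.eta C o) ≤
      (8 * C + 1) * ((8 * C + 1) * (N.K2 o * N.eta C o)) :=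
    le_mul_of_one_le_left (by positivity) (by linarith)
  linarith

/-- the nonlinear part of the solution is quadratically small -/
theorem norm_sol_sub (h : γ.Ok C o) (ho : 0 < o) (hv : ‖v‖ ≤ N.eta C o) :
    ‖N.sol C o γ v - γ.L0 v‖ ≤ (8 * C + 1) * (N.K2 o * ‖v‖ ^ 2) := by
  have := h.C0
  rw [sol, Pth.tri, add_sub_cancel_left]
  exact (h.norm_L1 ho _).trans (mul_le_mul_of_nonneg_left (norm_src h ho hv) (by positivity))

theorem norm_sol (h : γ.Ok C o) (ho : 0 < o) (hv : ‖v‖ ≤ N.eta C o) :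
    ‖N.sol C o γ v‖ ≤ 2 * ‖v‖ := by
  have h1 := norm_sol_sub h ho hv
  have h2 := h.norm_L0 ho v
  have h3 := N.K2_eta h ho
  have h4 := norm_le_norm_add_norm_sub' (N.sol C o γ v) (γ.L0 v)
  have := h.C0
  have h5 := (N.K2_pos (h.wts ho)).le
  have h6 : (8 * C + 1) * (N.K2 o * ‖v‖ ^ 2) ≤ (8 * C + 1) * (N.K2 o * N.eta C o) * ‖v‖ := by
    rw [sq, ← mul_assoc (N.K2 o), ← mul_assoc]
    gcongr
  have h7 := mul_le_mul_of_nonneg_right h3 (norm_nonneg v)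
  linarith [norm_nonneg v]

theorem sol_dat (N : NL ι) (h : γ.Ok C o) (ho : 0 < o) (v : (ι → D) × (ι → D)) :
    Dat γ ((N.sol C o γ v).p γ) ((N.sol C o γ v).q γ) v.1 v.2 := h.dat_tri ho v _

theorem sol_fix (h : γ.Ok C o) (ho : 0 < o) (hv : ‖v‖ ≤ N.eta C o) :
    N.Qh (h.wts ho) (JT (h.wts ho) (N.sol C o γ v)) = (N.sol C o γ v).2.2 := by
  rw [sol_F]; exact (src_fx h ho hv).2 _


theorem sol_sol (h : γ.Ok C o) (ho : 0 < o) (hv : ‖v‖ ≤ N.eta C o) :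
    Sol N γ.τ γ.w γ.om (2 * ‖v‖) ((N.sol C o γ v).p γ) ((N.sol C o γ v).q γ)
      ((N.sol C o γ v).F γ) where
  bp i := (h.bd6 ho _).mono ((Tr.norm_p _ i).trans (norm_sol h ho hv))
  bq i := (h.bd6 ho _).mono ((Tr.norm_q _ i).trans (norm_sol h ho hv))
  bF i := (h.bd4 ho _).mono ((Tr.norm_F _ i).trans (norm_sol h ho hv))
  dp i k x := by
    rw [Tr.p, Tr.F, sol, Pth.tri_p, Pth.tri_F]
    exact (h.ode_sp ho _ _ k).der x
  dq i k x := by
    rw [Tr.q, Tr.F, sol, Pth.tri_q, Pth.tri_F]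
    have := (h.ode_sq ho (v.1 i) (N.src C o γ v i) k).der x
    rwa [← sub_eq_add_neg] at this
  eq := ((N.fix_iff (S := N.sol C o γ v) (h.wts ho) (JT_lt h ho hv (src_fx h ho hv).1).le).1
    (sol_fix h ho hv)).2

end NL

end Crest.Agent.N207.L
end
end

-- ▼ part N207/L/Pc3

/-! # N207/L/Pc3 (helper59): uniqueness, holomorphy, the piece theorem -/

set_option autoImplicit false
set_option linter.unusedSectionVars false
set_option maxHeartbeats 400000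
open Set Filter Topology MeasureTheory BoundedContinuousFunction Metric

noncomputable section

namespace Crest.Agent.N207.L
open J Crest.Agent.N250.H

variable {ι : Type} [Fintype ι] {N : NL ι} {γ : Pth} {C o η η' : ℝ} {τ : ℝ → ℂ} {w om : ℝ → ℝ}
  {p q F : ι → Md} {v : (ι → D) × (ι → D)}

theorem Sol.mono (h : Sol N τ w om η p q F) (hη : η ≤ η') : Sol N τ w om η' p q F :=
  ⟨fun i => (h.bp i).mono hη, fun i => (h.bq i).mono hη, fun i => (h.bF i).mono hη, h.dp, h.dq,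
    h.eq⟩

theorem exists_pi {σ : ℕ} {g om : ℝ → ℝ} {f : ι → Md} (hη : 0 ≤ η) (h : ∀ i, Bd σ g om (f i) η)
    (hg : Continuous g) (g0 : ∀ x, 0 < g x) (ho : Continuous om) (o0 : ∀ x, 0 < om x) :
    ∃ X : ι → CL, ‖X‖ ≤ η ∧ (∀ i, Prp (X i)) ∧ ∀ i, tru σ g om (X i) = f i := by
  choose X h1 h2 h3 using fun i => (h i).exists hg g0 ho o0
  exact ⟨X, (pi_norm_le_iff_of_nonneg hη).2 h1, h2, h3⟩

/-- **every small solution is the canonical one** -/
theorem Sol.eq_sol (h : γ.Ok C o) (ho : 0 < o) (hs : Sol N γ.τ γ.w γ.om η p q F)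
    (hη : η ≤ N.eta C o) (hd : Dat γ p q v.1 v.2) (hv : ‖v‖ ≤ N.eta C o) :
    p = (N.sol C o γ v).p γ ∧ q = (N.sol C o γ v).q γ ∧ F = (N.sol C o γ v).F γ := by
  obtain ⟨f, h1, h2, h3⟩ := exists_pi (N.eta_pos h ho).le (hs.mono hη).bF (h.wc.pow 2)
    (fun x => pow_pos (h.w0 x) 2) h.oc (h.om0 ho)
  have hd' := h.dat_tri ho v f
  have eF : (γ.tri v f).F γ = F := funext fun i => by rw [Tr.F, Pth.tri_F, h3]
  have ep : (γ.tri v f).p γ = p := funext fun i => funext fun k => by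
    refine h.uniq_p ho (h.bd6 ho _) (hs.bp i) ?_ (hs.ode_p i k) fun hf => ?_
    · rw [Pth.tri_p, ← h3]
      exact h.ode_sp ho _ _ k
    · rw [hd.hp hf]
      exact hd'.hp hf i k
  have eq : (γ.tri v f).q γ = q := funext fun i => funext fun k => funext fun x => by
    refine h.uniq_pt ?_ (hs.ode_q i k) ((hd'.hq i k).trans (hd.hq i k).symm) x
    rw [Tr.q, Pth.tri_q, ← h3]
    exact h.ode_sq ho _ _ k
  have hf : N.Fx C o γ v f := ⟨h1, fun hw => by
    have := (N.fix_iff (S := γ.tri v f) hw (NL.JT_lt h ho hv h1).le).2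
      ⟨by rw [Pth.tri_F]; exact h2, by rw [eF, ep, eq]; exact hs.eq⟩
    rwa [Pth.tri_F] at this⟩
  rw [NL.sol, ← hf.eq_src h ho hv]
  exact ⟨ep.symm, eq.symm, eF.symm⟩

/-- every solution has data, of norm at most its size -/
theorem Sol.exists_dat (h : γ.Ok C o) (ho : 0 < o) (hs : Sol N γ.τ γ.w γ.om η p q F)
    (hη : 0 ≤ η) : ∃ v : (ι → D) × (ι → D), ‖v‖ ≤ η ∧ (∀ i, PrpD (v.1 i)) ∧ (∀ i, PrpD (v.2 i)) ∧
      Dat γ p q v.1 v.2 := by
  obtain ⟨X, h1, h2, h3⟩ := exists_pi hη hs.bp h.wc h.w0 h.oc (h.om0 ho)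
  obtain ⟨Y, g1, g2, g3⟩ := exists_pi hη hs.bq h.wc h.w0 h.oc (h.om0 ho)
  refine ⟨(fun i => tr γ.a (Y i), fun i => trs γ.pt (X i)), norm_prod_le_iff.2 ⟨?_, ?_⟩,
    fun i => (g2 i).trs _, fun i => (h2 i).trs _, fun i k => ?_, fun _ i k => ?_⟩
  · exact (pi_norm_le_iff_of_nonneg hη).2 fun i =>
      (norm_tr_apply_le _ _).trans ((norm_le_pi_norm Y i).trans g1)
  · exact (pi_norm_le_iff_of_nonneg hη).2 fun i =>
      (norm_trs_apply_le _ _).trans ((norm_le_pi_norm X i).trans h1)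
  · rw [← g3, tru_eq_tr]
  · rw [← h3, tru_eq_pt]

theorem NL.uniq (N : NL ι) (C : ℝ) (ho : 0 < o) : Uniq N C o (N.eta C o) := by
  intro γ h p q F p' q' F' A B hs hs' hd hd'
  obtain ⟨v, hv, -, -, hdv⟩ := hs.exists_dat h ho (N.eta_pos h ho).le
  have hdv' : Dat γ p' q' v.1 v.2 :=
    ⟨fun i k => by rw [hd'.hq, ← hd.hq, hdv.hq], fun hf i k => by
      rw [hd'.hp hf, ← hd.hp hf, hdv.hp hf]⟩
  obtain ⟨h1, h2, h3⟩ := hs.eq_sol h ho le_rfl hdv hv
  obtain ⟨g1, g2, g3⟩ := hs'.eq_sol h ho le_rfl hdv' hv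
  exact ⟨h1.trans g1.symm, h2.trans g2.symm, h3.trans g3.symm⟩

section Hol
variable {Z : Type} [NormedAddCommGroup Z] [NormedSpace ℂ Z] {t τ : Z → ℝ → ℂ} {U : Set Z}

theorem diffOn_fst_comp {A B G : Type*} [NormedAddCommGroup A] [NormedSpace ℂ A]
    [NormedAddCommGroup B] [NormedSpace ℂ B] [NormedAddCommGroup G] [NormedSpace ℂ G] {f : A → G}
    {U : Set A} (h : DifferentiableOn ℂ f U) (W : Set B) :
    DifferentiableOn ℂ (fun z : A × B => f z.1) (U ×ˢ W) :=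
  h.comp differentiableOn_fst fun _ hz => hz.1

theorem Pth.Fam.diff_src (h : γ.Fam t τ U C o) (ho : 0 < o) (N : NL ι) :
    DifferentiableOn ℂ (fun z : Z × (ι → D) × (ι → D) => N.src C o (γ.re (t z.1) (τ z.1)) z.2)
      (U ×ˢ ball 0 (N.eta C o)) := by
  have hw := h.base.wts ho
  have d0 : DifferentiableOn ℂ (fun z : Z × (ι → D) × (ι → D) =>
      JT hw ((γ.re (t z.1) (τ z.1)).L0 z.2)) (U ×ˢ ball 0 (N.eta C o)) :=
    (JT hw).differentiable.comp_differentiableOn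
      ((diffOn_fst_comp (h.diff_L0 (ι := ι) ho) (ball 0 (N.eta C o))).clm_apply
        differentiableOn_snd)
  have d1 : DifferentiableOn ℂ (fun z : Z × (ι → D) × (ι → D) =>
      JT hw ∘L (γ.re (t z.1) (τ z.1)).L1) (U ×ˢ ball 0 (N.eta C o)) :=
    diffOn_fst_comp (B := (ι → D) × (ι → D))
      ((differentiableOn_const (JT (ι := ι) hw)).clm_comp (h.diff_L1 (ι := ι) ho)) _
  obtain ⟨f, hf, h1⟩ := (N.qd hw).exists_fix (NL.cc_pos h.base ho) (h.op.prod isOpen_ball) d0 d1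
    (fun z hz => NL.u_le' (h.ok _ hz.1) ho (mem_ball_zero_iff.1 hz.2).le)
    fun z hz => NL.M_le (h.ok _ hz.1) ho
  refine hf.congr fun z hz => (NL.Fx.eq_src (h.ok _ hz.1) ho (mem_ball_zero_iff.1 hz.2).le
    ⟨(h1 z hz).1, fun hw' => ?_⟩).symm
  rw [NL.JT_tri]
  exact (h1 z hz).2.2

/-- **holomorphy in the curve and in the data** -/
theorem Pth.Fam.diff_sol (h : γ.Fam t τ U C o) (ho : 0 < o) (N : NL ι) :
    DifferentiableOn ℂ (fun z : Z × (ι → D) × (ι → D) => N.sol C o (γ.re (t z.1) (τ z.1)) z.2)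
      (U ×ˢ ball 0 (N.eta C o)) :=
  ((diffOn_fst_comp (h.diff_L0 (ι := ι) ho) (ball 0 (N.eta C o))).clm_apply
    differentiableOn_snd).add
    ((diffOn_fst_comp (h.diff_L1 (ι := ι) ho) (ball 0 (N.eta C o))).clm_apply (h.diff_src ho N))

end Hol

theorem Pth.Ok.diff_src (h : γ.Ok C o) (ho : 0 < o) (N : NL ι) :
    DifferentiableOn ℂ (N.src C o γ) (ball 0 (N.eta C o)) := by
  have hw := h.wts ho
  obtain ⟨f, hf, h1⟩ := (N.qd hw).exists_fix (NL.cc_pos h ho) isOpen_ball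
    (u := fun v => JT hw (γ.L0 v)) (M := fun _ => JT hw ∘L γ.L1) (by fun_prop)
    (differentiableOn_const _) (fun z hz => NL.u_le' h ho (mem_ball_zero_iff.1 hz).le)
    fun _ _ => NL.M_le h ho
  refine hf.congr fun z hz => (NL.Fx.eq_src h ho (mem_ball_zero_iff.1 hz).le
    ⟨(h1 z hz).1, fun hw' => ?_⟩).symm
  rw [NL.JT_tri]
  exact (h1 z hz).2.2

/-- holomorphy in the data -/
theorem Pth.Ok.diff_sol (h : γ.Ok C o) (ho : 0 < o) (N : NL ι) :
    DifferentiableOn ℂ (N.sol C o γ) (ball 0 (N.eta C o)) :=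
  γ.L0.differentiable.differentiableOn.add
    (γ.L1.differentiable.comp_differentiableOn (h.diff_src ho N))

theorem wts_triv (ho : 0 < o) (h1 : o ≤ 1) : Wts (fun _ => 1) (fun _ => 1) o :=
  ⟨continuous_const, fun _ => one_pos, fun _ => le_rfl, continuous_const, ho, fun _ => h1,
    fun _ => le_rfl⟩

theorem NL.eta_pos' (N : NL ι) (hC : 0 ≤ C) (ho : 0 < o) (h1 : o ≤ 1) : 0 < N.eta C o := by
  have := (wts_triv ho h1).bcf.KJ_pos
  exact (N.qd (wts_triv ho h1)).eta_pos (by unfold cc; positivity)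

theorem piece (N : NL ι) : PieceStmt N := by
  intro C o ho
  by_cases hC : 0 ≤ C ∧ o ≤ 1
  · have h1 := N.eta_pos' hC.1 ho hC.2
    have h2 := N.K2_pos (wts_triv ho hC.2)
    have h3 : N.eta C o / (2 + N.K2 o) ≤ N.eta C o := div_le_self h1.le (by linarith)
    refine ⟨N.eta C o, N.eta C o / (2 + N.K2 o), 2 + N.K2 o, by positivity, by linarith,
      le_of_eq (by field_simp), N.uniq C ho, fun Z _ _ γ t τ U h => ⟨_,
        (h.diff_sol ho N).mono (prod_mono_right (ball_subset_ball h3)), fun z hz v hv => ?_⟩⟩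
    have hv' : ‖v‖ ≤ N.eta C o := (mem_ball_zero_iff.1 hv).le.trans h3
    have h4 : 2 * ‖v‖ ≤ (2 + N.K2 o) * ‖v‖ := by gcongr; linarith
    refine ⟨(NL.norm_sol (h.ok z hz) ho hv').trans h4, ?_, (NL.sol_sol (h.ok z hz) ho hv').mono h4,
      ?_⟩
    · rw [NL.sol_F]
      refine (NL.norm_src (h.ok z hz) ho hv').trans ?_
      gcongr; linarith
    · have := N.sol_dat (h.ok z hz) ho v
      exact ⟨this.hq, this.hp⟩
  · have hn : ∀ γ : Pth, ¬ γ.Ok C o := fun γ h => hC ⟨h.C0, (h.o0 0).trans (h.o1 0)⟩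
    exact ⟨1, 1, 1, one_pos, le_rfl, by norm_num, fun γ h => absurd h (hn γ),
      fun Z _ _ γ t τ U h => absurd h.base (hn γ)⟩

/-! proper elements -/













end Crest.Agent.N207.L
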