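import Crest.Agent.N207.L.Br2
import Crest.Agent.N207.J.Re6

-- ▼ part N207/L/Br5
section

/-! # N207/L/Br5 (helper72): amplitudes of `fn c p q`; linearity of the jets -/

set_option autoImplicit false
set_option linter.unusedSectionVars false
open Set Filter Topology

noncomputable section

namespace Crest.Agent.N207.J
variable {U U' : E4 → ℂ} {N : ℕ} {x : E4} {M M' : ℝ}

theorem PB.mul (h : PB N U x M) (h' : PB N U' x M') :
    PB N (fun y => U y * U' y) x (2 ^ N * (M * M')) := by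
  refine ⟨h.1.mul h'.1, fun j hj => ?_⟩
  obtain ⟨s, hs, h2⟩ := (h.1.prodMk h'.1).contDiffOn le_rfl (by simp)
  obtain ⟨s', hs', ho, hx⟩ := _root_.mem_nhds_iff.1 hs
  have h3 := norm_iteratedFDerivWithin_mul_le (h2.mono hs').fst (h2.mono hs').snd
    ho.uniqueDiffOn hx (n := j) (by exact_mod_cast hj)
  simp only [iteratedFDerivWithin_of_isOpen _ ho hx] at h3
  refine (mul_le_mul_of_nonneg_left h3 (by positivity)).trans ?_
  rw [Finset.mul_sum]
  have h4 : ∀ i ∈ Finset.range (j + 1), ‖x‖ ^ j * ((j.choose i : ℝ) *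
      ‖iteratedFDeriv ℝ i U x‖ * ‖iteratedFDeriv ℝ (j - i) U' x‖) ≤ j.choose i * (M * M') := by
    intro i hi
    have hi' : i ≤ j := Nat.lt_succ_iff.1 (Finset.mem_range.1 hi)
    have e : ‖x‖ ^ j = ‖x‖ ^ i * ‖x‖ ^ (j - i) := by rw [← pow_add, Nat.add_sub_cancel' hi']
    calc _ = j.choose i * (‖x‖ ^ i * ‖iteratedFDeriv ℝ i U x‖ *
          (‖x‖ ^ (j - i) * ‖iteratedFDeriv ℝ (j - i) U' x‖)) := by rw [e]; ring
      _ ≤ _ := mul_le_mul_of_nonneg_left (mul_le_mul (h.2 i (by omega)) (h'.2 (j - i) (by omega))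
          (by positivity) h.nonneg) (by positivity)
  refine (Finset.sum_le_sum h4).trans ?_
  rw [← Finset.sum_mul, ← Nat.cast_sum, Nat.sum_range_choose]
  push_cast
  exact mul_le_mul_of_nonneg_right (pow_le_pow_right₀ one_le_two hj)
    (mul_nonneg h.nonneg h'.nonneg)

/-- a fixed smooth function is uniformly bounded on a compact annulus -/
theorem exists_PB (N : ℕ) (h : ∀ x : E4, x ≠ 0 → ContDiffAt ℝ (N : ℕ) U x) (a b : ℝ) :
    ∃ K, 0 < K ∧ ∀ x ∈ An (Icc a b), PB N U x K := by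
  have hK : IsCompact (An (Icc a b)) := by
    have : An (Icc a b) = (fun p : ℝ × S3 => Real.exp p.1 • (p.2 : E4)) '' (Icc a b ×ˢ univ) := by
      ext x
      refine ⟨fun hx => ⟨(Real.log ‖x‖, prj x), ⟨hx.2, trivial⟩, exp_log_smul_prj hx.1⟩, ?_⟩
      rintro ⟨p, hp, rfl⟩
      exact polar_mem_An hp.1 p.2
    rw [this]
    exact (isCompact_Icc.prod isCompact_univ).image (by fun_prop)
  have hc : ContinuousOn (fun x : E4 => ∑ j ∈ Finset.range (N + 1),
      ‖x‖ ^ j * ‖iteratedFDeriv ℝ j U x‖) (An (Icc a b)) :=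
    continuousOn_finsetSum _ fun j hj x hx => ((continuous_norm.pow j).continuousAt.mul
      ((h x hx.1).continuousAt_iteratedFDeriv (by
        exact_mod_cast Nat.lt_succ_iff.1 (Finset.mem_range.1 hj))).norm).continuousWithinAt
  obtain ⟨K, hK⟩ := hK.bddAbove_image hc
  refine ⟨max K 1, by positivity, fun x hx => ⟨h x hx.1, fun j hj => le_max_of_le_left ?_⟩⟩
  exact (Finset.single_le_sum (f := fun j => ‖x‖ ^ j * ‖iteratedFDeriv ℝ j U x‖)
    (fun _ _ => by positivity) (Finset.mem_range.2 (Nat.lt_succ_of_le hj))).trans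
    (hK (mem_image_of_mem _ hx))

end Crest.Agent.N207.J

namespace Crest.Agent.N207.L
open J

section
variable {U U' W : E4 → ℂ} {x : E4} {M : ℝ}

theorem cj1_lin (a b : ℂ) (h : ContDiffAt ℝ (2 : ℕ) U x) (h' : ContDiffAt ℝ (2 : ℕ) U' x)
    (e : W =ᶠ[𝓝 x] fun y => a * U y + b * U' y) (j : Jx) :
    cj1 W x j = a * cj1 U x j + b * cj1 U' x j := by
  have e1 : ∀ᶠ y in 𝓝 x, ∀ v, fderiv ℝ W y v = a * fderiv ℝ U y v + b * fderiv ℝ U' y v := by
    filter_upwards [e.eventuallyEq_nhds, h.eventually (by simp), h'.eventually (by simp)]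
      with y hy h1 h2 v
    have d := (((h1.differentiableAt (by simp)).hasFDerivAt.const_mul a).add
      ((h2.differentiableAt (by simp)).hasFDerivAt.const_mul b)).fderiv
    rw [hy.fderiv_eq, show fderiv ℝ (fun y => a * U y + b * U' y) _ = _ from d]
    rfl
  rcases j with _ | i | i
  · exact e.eq_of_nhds
  · simp only [cj1, e1.self_of_nhds]; ring
  · have g : ∀ {V : E4 → ℂ}, ContDiffAt ℝ (2 : ℕ) V x →
        DifferentiableAt ℝ (fun y => fderiv ℝ V y (ee i.2)) x := fun h =>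
      ((h.fderiv_right (m := 1) (by norm_cast)).clm_apply contDiffAt_const).differentiableAt
        one_ne_zero
    have d := (((g h).hasFDerivAt.const_mul a).add ((g h').hasFDerivAt.const_mul b)).fderiv
    simp only [cj1]
    rw [EventuallyEq.fderiv_eq (e1.mono fun y hy => hy (ee i.2)),
      show fderiv ℝ (fun y => a * fderiv ℝ U y (ee i.2) + b * fderiv ℝ U' y (ee i.2)) _ = _ from d]
    simp only [add_apply, smul_apply, smul_eq_mul]; ring

theorem Lp2_eq (U : E4 → ℂ) (x : E4) : Lp2 U x = ∑ i, cj1 U x (some (.inr (i, i))) :=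
  Finset.mul_sum ..

theorem Lp2_lin (a b : ℂ) (h : ContDiffAt ℝ (2 : ℕ) U x) (h' : ContDiffAt ℝ (2 : ℕ) U' x)
    (e : W =ᶠ[𝓝 x] fun y => a * U y + b * U' y) : Lp2 W x = a * Lp2 U x + b * Lp2 U' x := by
  simp only [Lp2_eq, cj1_lin a b h h' e, Finset.sum_add_distrib, Finset.mul_sum]

theorem norm_cj1_le (h : PB 2 U x M) (j : Jx) : ‖cj1 U x j‖ ≤ M := by
  have n1 : ∀ i, ‖ee i‖ = 1 := fun i => by simp
  rcases j with _ | i | i
  · exact h.norm_le
  · refine le_trans ?_ (h.2 1 one_le_two)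
    rw [cj1, norm_mul, Complex.norm_real, norm_norm, pow_one, norm_iteratedFDeriv_one]
    exact mul_le_mul_of_nonneg_left ((ContinuousLinearMap.le_opNorm _ _).trans (by simp))
      (norm_nonneg _)
  · refine le_trans ?_ (h.2 2 le_rfl)
    rw [cj1, norm_mul, norm_pow, Complex.norm_real, norm_norm, fderiv_fderiv_apply h.1,
      ← norm_iteratedFDeriv_fderiv, norm_iteratedFDeriv_one]
    exact mul_le_mul_of_nonneg_left ((ContinuousLinearMap.le_opNorm₂ _ _ _).trans (by simp))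
      (by positivity)

end

variable {I : Set ℝ} {n : ℕ} {M : ℝ}

/-- the amplitudes of `fn c p q` are `p`, `q` -/
theorem Str.pm_fn {p q F : Md} (h : Str I p q F) (hI : IsOpen I) (hp : Mb I (n + 4) M p)
    (hq : Mb I (n + 4) M q) (hF : Mb I (n + 2) M F) (c : ℝ) {x : ℝ} (hx : x ∈ I) (k : ℕ) :
    pm (fn c p q) k (x + c) = p k x ∧ qm (fn c p q) k (x + c) = q k x := by
  have hI' : IsOpen ((· - c) ⁻¹' I) := hI.preimage (by fun_prop)
  have hx' : x + c ∈ (· - c) ⁻¹' I := by simpa using hx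
  have e0 : ∀ t ∈ (· - c) ⁻¹' I, mdU (fn c p q) k t = dt p q F 0 k (t - c) := fun t ht => by
    rw [mdU, fn, rst_ann]; exact (mb_dt0 (F := F) hp hq).P_val (n := n + 2) ht k
  have d1 := hasDerivAt_mdU hI' (n := 1) ((h.ch hI hp hq hF c).contDiffOn hI') k hx'
  have e1 := d1.unique (((h.d0 k hx').comp_sub_const (x + c) c).congr_of_eventuallyEq
    (eventually_of_mem (hI'.mem_nhds hx') e0))
  have := two_k_ne k
  rw [pm, qm, e0 _ hx', show mdU (Eu (fn c p q)) k (x + c) = _ from e1]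
  simp only [dt, add_sub_cancel_right]
  constructor <;> match_scalars <;> field_simp <;> ring

theorem Sol.pm_fn {ι : Type} [Fintype ι] {N : NL ι} {τ : ℝ → ℂ} {w om : ℝ → ℝ} {η G : ℝ}
    {p q F : ι → Md} (h : Sol N τ w om η p q F) (hI : IsOpen I) (hτ : ∀ x ∈ I, τ x = 1)
    (hG : 0 ≤ G) (hG1 : G ≤ 1) (hw : ∀ x ∈ I, |w x| ≤ G) (ho : ∀ x ∈ I, |om x| ≤ 1) (c : ℝ) (i : ι)
    {x : ℝ} (hx : x ∈ I) (k : ℕ) :
    pm (fn c (p i) (q i)) k (x + c) = p i k x ∧ qm (fn c (p i) (q i)) k (x + c) = q i k x :=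
  let ⟨h1, h2, h3⟩ := h.mb hG hG1 hw ho i
  (h.str hI hτ i).pm_fn (n := 1) hI h1 h2 h3 c hx k

end Crest.Agent.N207.L
end
end

-- ▼ part N207/L/Br3
section

/-! # N207/L/Br3 (helper72): the `H²` estimate on an annulus -/

set_option autoImplicit false
set_option maxHeartbeats 400000
set_option linter.unusedSectionVars false
open Set Filter Topology MeasureTheory
open Crest.Agent.R246.Zon797 (Pr)
open scoped InnerProductSpace

noncomputable section

namespace Crest.Agent.N207.L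
open J

theorem hasDerivAt_nsq {v : ℝ → H} {v' : H} {t : ℝ} (h : HasDerivAt v v' t) :
    HasDerivAt (fun t => ‖v t‖ ^ 2) (2 * (⟪v t, v'⟫_ℂ).re) t := by
  have h1 := Complex.reCLM.hasFDerivAt.comp_hasDerivAt t (h.inner ℂ h)
  have e : (Complex.reCLM ∘ fun t => ⟪v t, v t⟫_ℂ) = fun t => ‖v t‖ ^ 2 := by
    funext t
    exact (inner_self_eq_norm_sq (𝕜 := ℂ) (v t))
  rw [e] at h1
  refine h1.congr_deriv ?_
  rw [← inner_conj_symm v' (v t)]
  simp only [Complex.reCLM_apply, Complex.add_re, Complex.conj_re]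
  ring

/-- continuous and bounded on `(a, b)` -/
def BC {V : Type*} [NormedAddCommGroup V] (a b : ℝ) (f : ℝ → V) : Prop :=
  ContinuousOn f (Ioo a b) ∧ ∃ M, ∀ t ∈ Ioo a b, ‖f t‖ ≤ M

section BC
variable {V V' : Type*} [NormedAddCommGroup V] [NormedAddCommGroup V'] {a b : ℝ} {f g : ℝ → V}

theorem BC.ii (h : BC a b f) (hab : a ≤ b) : IntervalIntegrable f volume a b := by
  obtain ⟨hc, M, hM⟩ := h
  rw [intervalIntegrable_iff_integrableOn_Ioo_of_le hab]
  exact Integrable.mono' (g := fun _ => M) (integrableOn_const measure_Ioo_lt_top.ne)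
    (hc.aestronglyMeasurable measurableSet_Ioo)
    ((ae_restrict_iff' measurableSet_Ioo).2 (Eventually.of_forall hM))

theorem BC.add (h : BC a b f) (h' : BC a b g) : BC a b fun t => f t + g t :=
  let ⟨M, hM⟩ := h.2
  let ⟨M', hM'⟩ := h'.2
  ⟨h.1.add h'.1, M + M', fun t ht => norm_add_le_of_le (hM t ht) (hM' t ht)⟩

theorem BC.map (h : BC a b f) {φ : V → V'} (hφ : Continuous φ) {C : ℝ} (hC : 0 ≤ C)
    (hb : ∀ v, ‖φ v‖ ≤ C * ‖v‖) : BC a b fun t => φ (f t) :=
  let ⟨M, hM⟩ := h.2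
  ⟨hφ.comp_continuousOn h.1, C * M, fun t ht =>
    (hb _).trans (mul_le_mul_of_nonneg_left (hM t ht) hC)⟩

theorem BC.norm (h : BC a b f) : BC a b fun t => ‖f t‖ :=
  h.map continuous_norm zero_le_one fun v => by simp

theorem BC.neg (h : BC a b f) : BC a b fun t => -f t :=
  h.map continuous_neg zero_le_one fun v => by simp

theorem BC.smul {𝕜 : Type*} [NormedField 𝕜] [NormedSpace 𝕜 V] (h : BC a b f) (c : 𝕜) :
    BC a b fun t => c • f t :=
  h.map (continuous_const_smul c) (norm_nonneg c) fun v => (norm_smul c v).le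

theorem BC.mul {f : ℝ → ℝ} (h : BC a b f) (c : ℝ) : BC a b fun t => c * f t :=
  h.map (continuous_const_mul c) (norm_nonneg c) fun v => (norm_mul c v).le

theorem BC.sq {f : ℝ → ℝ} (h : BC a b f) : BC a b fun t => f t ^ 2 :=
  let ⟨M, hM⟩ := h.2
  ⟨h.1.pow 2, M ^ 2, fun t ht => by
    rw [norm_pow]; exact pow_le_pow_left₀ (norm_nonneg _) (hM t ht) 2⟩

theorem BC.sum {κ : Type*} (s : Finset κ) {f : κ → ℝ → V} (h : ∀ i, BC a b (f i)) :
    BC a b fun t => ∑ i ∈ s, f i t := by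
  choose M hM using fun i => (h i).2
  exact ⟨continuousOn_finsetSum _ fun i _ => (h i).1, ∑ i ∈ s, M i, fun t ht =>
    norm_sum_le_of_le _ fun i _ => hM i t ht⟩

theorem BC.refl (h : BC a b f) : BC (-b) (-a) fun t => f (-t) :=
  have hm : ∀ t ∈ Ioo (-b) (-a), -t ∈ Ioo a b := fun t ht =>
    ⟨by linarith [ht.2], by linarith [ht.1]⟩
  let ⟨M, hM⟩ := h.2
  ⟨h.1.comp continuousOn_neg hm, M, fun t ht => hM _ (hm t ht)⟩

end BC

theorem ftc_nonneg {f f' φ : ℝ → ℝ} {a b : ℝ} (hab : a < b)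
    (hd : ∀ t ∈ Ioo a b, HasDerivAt f (f' t) t) (hφ : BC a b φ) (hle : ∀ t ∈ Ioo a b, f' t ≤ φ t)
    (ha : Tendsto f (𝓝[>] a) (𝓝 0)) (h0 : ∀ t ∈ Ioo a b, 0 ≤ f t) : 0 ≤ ∫ t in a..b, φ t := by
  have i0 := hφ.ii hab.le
  have c := intervalIntegral.continuousOn_primitive_interval' i0 left_mem_uIcc
  rw [uIcc_of_le hab.le] at c
  have i1 : ∀ t ∈ Ioo a b, IntervalIntegrable φ volume a t := fun t ht =>
    i0.mono_set (uIcc_subset_uIcc_left (mem_uIcc_of_le ht.1.le ht.2.le))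
  have l1 : Tendsto (fun t => ∫ x in a..t, φ x) (𝓝[>] a) (𝓝 0) := by
    have := (c a (left_mem_Icc.2 hab.le)).tendsto
    rw [intervalIntegral.integral_same] at this
    exact this.mono_left (nhdsWithin_le_of_mem (Icc_mem_nhdsGT hab))
  refine ge_of_tendsto ((c b (right_mem_Icc.2 hab.le)).tendsto.mono_left
    (nhdsWithin_le_of_mem (Icc_mem_nhdsLT hab))) ?_
  filter_upwards [Ioo_mem_nhdsLT hab] with t ht
  have l2 := (ha.sub l1).add_const (∫ x in a..t, φ x)
  rw [sub_zero, zero_add] at l2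
  refine ge_of_tendsto l2 ?_
  filter_upwards [Ioo_mem_nhdsGT ht.1] with s hs
  have hsub : Icc s t ⊆ Ioo a b := Icc_subset_Ioo hs.1 ht.2
  have := intervalIntegral.sub_le_integral_of_hasDeriv_right_of_le hs.2.le
    (fun x hx => (hd x (hsub hx)).continuousAt.continuousWithinAt)
    (fun x hx => (hd x (hsub (Ioo_subset_Icc_self hx))).hasDerivWithinAt)
    (hφ.1.mono hsub).integrableOn_Icc fun x hx => hle x (hsub (Ioo_subset_Icc_self hx))
  rw [← intervalIntegral.integral_interval_sub_left (i1 t ht) (i1 s ⟨hs.1, hs.2.trans ht.2⟩)] at this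
  linarith [h0 t ht]

theorem energy_fwd {v G : ℝ → H} {a b m : ℝ} (hab : a < b) (hm : 0 < m)
    (h : ∀ t ∈ Ioo a b, HasDerivAt v (-(m : ℂ) • v t + G t) t) (hv : BC a b v) (hG : BC a b G)
    (h0 : Tendsto v (𝓝[>] a) (𝓝 0)) :
    m ^ 2 * ∫ t in a..b, ‖v t‖ ^ 2 ≤ ∫ t in a..b, ‖G t‖ ^ 2 := by
  have key := ftc_nonneg hab (fun t ht => hasDerivAt_nsq (h t ht))
    (φ := fun t => m⁻¹ * ‖G t‖ ^ 2 + (-m) * ‖v t‖ ^ 2)
    ((hG.norm.sq.mul _).add (hv.norm.sq.mul _)) (fun t _ => by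
      rw [inner_add_right, inner_smul_right, Complex.add_re]
      have e1 : (-(m : ℂ) * ⟪v t, v t⟫_ℂ).re = -m * ‖v t‖ ^ 2 := by
        rw [inner_self_eq_norm_sq_to_K, ← Complex.ofReal_neg, Complex.re_ofReal_mul]
        congr 1
        exact Complex.ofReal_re (‖v t‖ ^ 2) ▸ congrArg Complex.re (Complex.ofReal_pow _ 2).symm
      have e2 : (⟪v t, G t⟫_ℂ).re ≤ ‖v t‖ * ‖G t‖ :=
        (Complex.re_le_norm _).trans (norm_inner_le_norm _ _)
      have e3 : 2 * (‖v t‖ * ‖G t‖) ≤ m * ‖v t‖ ^ 2 + m⁻¹ * ‖G t‖ ^ 2 := by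
        have : 0 ≤ m⁻¹ * (m * ‖v t‖ - ‖G t‖) ^ 2 := by positivity
        have e4 : m⁻¹ * (m * ‖v t‖ - ‖G t‖) ^ 2
            = m * ‖v t‖ ^ 2 + m⁻¹ * ‖G t‖ ^ 2 - 2 * (‖v t‖ * ‖G t‖) := by field_simp; ring
        linarith
      rw [e1]; linarith) (by simpa using h0.norm.pow 2)
    fun _ _ => by positivity
  rw [intervalIntegral.integral_add ((hG.norm.sq.ii hab.le).const_mul _)
    ((hv.norm.sq.ii hab.le).const_mul _), intervalIntegral.integral_const_mul,
    intervalIntegral.integral_const_mul] at key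
  have := mul_nonneg hm.le key
  rw [mul_add, ← mul_assoc, mul_inv_cancel₀ hm.ne', one_mul] at this
  linarith

theorem energy_bwd {v G : ℝ → H} {a b m : ℝ} (hab : a < b) (hm : 0 < m)
    (h : ∀ t ∈ Ioo a b, HasDerivAt v ((m : ℂ) • v t + G t) t) (hv : BC a b v) (hG : BC a b G)
    (h0 : Tendsto v (𝓝[<] b) (𝓝 0)) :
    m ^ 2 * ∫ t in a..b, ‖v t‖ ^ 2 ≤ ∫ t in a..b, ‖G t‖ ^ 2 := by
  have := energy_fwd (v := fun t => v (-t)) (G := fun t => -G (-t)) (neg_lt_neg hab) hm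
    (fun t ht => ((h _ ⟨by linarith [ht.2], by linarith [ht.1]⟩).scomp t
      (hasDerivAt_neg t)).congr_deriv (by rw [neg_one_smul, neg_add, neg_smul]))
    hv.refl hG.refl.neg (h0.comp (by simpa using tendsto_neg_nhdsGT (a := -b)))
  simp only [norm_neg] at this
  rwa [intervalIntegral.integral_comp_neg (fun t => ‖v t‖ ^ 2),
    intervalIntegral.integral_comp_neg (fun t => ‖G t‖ ^ 2), neg_neg, neg_neg] at this

theorem energy_zero {v G : ℝ → H} {a b : ℝ} (hab : a < b)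
    (h : ∀ t ∈ Ioo a b, HasDerivAt v (G t) t) (hv : BC a b v) (hG : BC a b G)
    (h0 : Tendsto v (𝓝[>] a) (𝓝 0) ∨ Tendsto v (𝓝[<] b) (𝓝 0)) :
    ∫ t in a..b, ‖v t‖ ^ 2 ≤ (b - a) ^ 2 * ∫ t in a..b, ‖G t‖ ^ 2 := by
  have i1 := hG.norm.sq.ii hab.le
  have i0 := hG.norm.ii hab.le
  have f1 : ∀ s t, a < s → s ≤ t → t < b → ‖v t - v s‖ ≤ ∫ x in a..b, ‖G x‖ := by
    intro s t hs hst ht
    have hsub : Icc s t ⊆ Ioo a b := Icc_subset_Ioo hs ht
    rw [← intervalIntegral.integral_eq_sub_of_hasDerivAt (f' := G)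
      (fun x hx => h x (hsub (by rwa [uIcc_of_le hst] at hx)))
      ((hG.1.mono hsub).intervalIntegrable_of_Icc hst)]
    exact (intervalIntegral.norm_integral_le_integral_norm hst).trans
      (intervalIntegral.integral_mono_interval hs.le hst ht.le
        (Eventually.of_forall fun _ => norm_nonneg _) i0)
  have f2 : ∀ t ∈ Ioo a b, ‖v t‖ ≤ ∫ x in a..b, ‖G x‖ := by
    intro t ht
    rcases h0 with h0 | h0
    · refine le_of_tendsto (by simpa using (h0.const_sub (v t)).norm) ?_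
      filter_upwards [Ioo_mem_nhdsGT ht.1] with s hs using f1 s t hs.1 hs.2.le ht.2
    · refine le_of_tendsto (by simpa using (h0.sub_const (v t)).norm) ?_
      filter_upwards [Ioo_mem_nhdsLT ht.2] with s hs using f1 t s ht.1 hs.1.le hs.2
  set S := ∫ x in a..b, ‖G x‖
  have hp : 0 < b - a := sub_pos.2 hab
  have f3 : S ^ 2 ≤ (b - a) * ∫ t in a..b, ‖G t‖ ^ 2 := by
    have := intervalIntegral.integral_mono_on hab.le (i0.const_mul (2 * (S / (b - a))))
      (i1.add (intervalIntegrable_const (c := (S / (b - a)) ^ 2))) fun x _ => by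
        nlinarith [sq_nonneg (‖G x‖ - S / (b - a))]
    rw [intervalIntegral.integral_const_mul, intervalIntegral.integral_add i1
      intervalIntegrable_const, intervalIntegral.integral_const, smul_eq_mul] at this
    have e1 : 2 * (S / (b - a)) * S = 2 * (S ^ 2 / (b - a)) := by ring
    have e2 : (b - a) * (S / (b - a)) ^ 2 = S ^ 2 / (b - a) := by field_simp
    rw [e1, e2] at this
    rw [← div_le_iff₀' hp]; linarith
  have := intervalIntegral.integral_mono_on_of_le_Ioo hab.le (hv.norm.sq.ii hab.le)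
    (intervalIntegrable_const (c := S ^ 2)) fun t ht =>
      pow_le_pow_left₀ (norm_nonneg _) (f2 t ht) 2
  rw [intervalIntegral.integral_const, smul_eq_mul] at this
  nlinarith [mul_le_mul_of_nonneg_left f3 hp.le]

variable {U : E4 → ℂ} {a b M : ℝ}

theorem bc_rst (h : ∀ x ∈ An (Ioo a b), PB 0 U x M) : BC a b fun t => toH (rst U t) :=
  BC.map (f := rst U) ⟨continuousOn_rst fun x hx => (h x hx).1.continuousAt.continuousWithinAt,
    M, fun _ ht => norm_rst_le (h _ (polar_mem_An ht (prj 0))).nonneg fun ω =>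
      (h _ (polar_mem_An ht ω)).norm_le⟩ toH.continuous (by norm_num) norm_toH_le

theorem bc_mdU (h : ∀ x ∈ An (Ioo a b), PB 0 U x M) (k : ℕ) : BC a b (mdU U k) :=
  (bc_rst h).map (P k).continuous zero_le_one fun v => by simpa using norm_P_le k v

theorem bc_pm (h : ∀ x ∈ An (Ioo a b), PB 2 U x M) (k : ℕ) :
    BC a b (pm U k) ∧ BC a b (qm U k) := by
  have h0 := bc_mdU (fun x hx => (h x hx).mono (Nat.zero_le _) le_rfl) k
  have h1 := bc_mdU (fun x hx => (h x hx).eu.mono (Nat.zero_le _) le_rfl) k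
  refine ⟨((h0.smul _).add h1).smul _, ?_⟩
  have := ((h0.smul (k : ℂ)).add h1.neg).smul (2 * (k : ℂ) + 2)⁻¹
  simp only [← sub_eq_add_neg] at this
  exact this

theorem bessel_int (hab : a ≤ b) (h : ∀ x ∈ An (Ioo a b), PB 0 U x M) (s : Finset ℕ) :
    ∑ k ∈ s, ∫ t in a..b, ‖mdU U k t‖ ^ 2 ≤ ∫ t in a..b, ‖toH (rst U t)‖ ^ 2 := by
  rw [← intervalIntegral.integral_finsetSum fun k _ => (bc_mdU h k).norm.sq.ii hab]
  exact intervalIntegral.integral_mono_on hab
    ((BC.sum s fun k => (bc_mdU h k).norm.sq).ii hab) ((bc_rst h).norm.sq.ii hab) fun t _ =>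
    sum_le_hasSum s (fun _ _ => by positivity) (parseval _)

theorem parseval_int (hab : a ≤ b) (h : ∀ x ∈ An (Ioo a b), PB 0 U x M) {c : ℝ}
    (hc : ∀ s : Finset ℕ, ∑ k ∈ s, ∫ t in a..b, ‖mdU U k t‖ ^ 2 ≤ c) :
    ∫ t in a..b, ‖toH (rst U t)‖ ^ 2 ≤ c := by
  simp only [intervalIntegral.integral_of_le hab] at hc ⊢
  have hs : Summable fun k => ∫ t in Ioc a b, ‖mdU U k t‖ ^ 2 :=
    summable_of_sum_le (fun k => integral_nonneg fun _ => by positivity) hc
  have h1 := integral_tsum_of_summable_integral_norm (μ := volume.restrict (Ioc a b))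
    (F := fun k t => ‖mdU U k t‖ ^ 2) (fun k => ((bc_mdU h k).norm.sq.ii hab).1)
    (by simpa using hs)
  have e : ∀ t, ∑' k, ‖mdU U k t‖ ^ 2 = ‖toH (rst U t)‖ ^ 2 := fun t => (parseval _).tsum_eq
  simp only [e] at h1
  rw [← h1]
  exact hs.tsum_le_of_sum_le hc

/-- boundary conditions -/
def Bc (a b : ℝ) (U : E4 → ℂ) (k : ℕ) : Prop :=
  Tendsto (qm U k) (𝓝[>] a) (𝓝 0) ∧
    (Tendsto (pm U k) (𝓝[<] b) (𝓝 0) ∨ (k = 0 ∧ Tendsto (pm U k) (𝓝[>] a) (𝓝 0)))

/-- mode-wise `L²` estimate -/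
theorem mode_L2 (hab : a < b) (h : ∀ x ∈ An (Ioo a b), PB 2 U x M) (k : ℕ) (hb : Bc a b U k) :
    ∫ t in a..b, (((k : ℝ) + 1) ^ 2 * (‖pm U k t‖ + ‖qm U k t‖) + ‖mdU (Lp2 U) k t‖) ^ 2
      ≤ 3 * ((b - a) ^ 2 + 3) * ∫ t in a..b, ‖mdU (Lp2 U) k t‖ ^ 2 := by
  obtain ⟨hq, hp⟩ := hb
  have cF := bc_mdU (fun x hx => (h x hx).lp2) k
  have hU : ContDiffOn ℝ (2 : ℕ) U (An (Ioo a b)) := fun x hx => (h x hx).1.contDiffWithinAt
  have dp := fun t (ht : t ∈ Ioo a b) => hasDerivAt_pm isOpen_Ioo hU k ht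
  have dq := fun t (ht : t ∈ Ioo a b) => hasDerivAt_qm isOpen_Ioo hU k ht
  obtain ⟨cp, cq⟩ := bc_pm h k
  have hk : (0 : ℝ) ≤ k := Nat.cast_nonneg k
  set S := ∫ t in a..b, ‖mdU (Lp2 U) k t‖ ^ 2 with hS
  have S0 : 0 ≤ S := intervalIntegral.integral_nonneg hab.le fun _ _ => by positivity
  have eG : ∀ c : ℂ, ∫ t in a..b, ‖c • mdU (Lp2 U) k t‖ ^ 2 = ‖c‖ ^ 2 * S := fun c => by
    simp only [norm_smul, mul_pow, intervalIntegral.integral_const_mul, hS]
  have q1 : ((k : ℝ) + 1) ^ 4 * ∫ t in a..b, ‖qm U k t‖ ^ 2 ≤ S := by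
    have := energy_fwd (m := k + 2) (G := fun t => (-(2 * (k : ℂ) + 2)⁻¹) • mdU (Lp2 U) k t) hab
      (by positivity) (fun t ht => (dq t ht).congr_deriv (by
        push_cast; rw [neg_smul (2 * (k : ℂ) + 2)⁻¹, sub_eq_add_neg])) cq (cF.smul _) hq
    rw [eG, norm_neg, norm_inv_two_k, inv_pow, le_inv_mul_iff₀ (by positivity), ← mul_assoc] at this
    refine le_trans (mul_le_mul_of_nonneg_right ?_
      (intervalIntegral.integral_nonneg hab.le fun _ _ => by positivity)) this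
    rw [← mul_pow, show ((k : ℝ) + 1) ^ 4 = ((k + 1) * (k + 1)) ^ 2 by ring]
    exact pow_le_pow_left₀ (by positivity) (by nlinarith) 2
  have p1 : ((k : ℝ) + 1) ^ 4 * ∫ t in a..b, ‖pm U k t‖ ^ 2 ≤ ((b - a) ^ 2 + 1) * S := by
    rcases Nat.eq_zero_or_pos k with rfl | hk0
    · have := energy_zero (G := fun t => (2 * ((0 : ℕ) : ℂ) + 2)⁻¹ • mdU (Lp2 U) 0 t) hab
        (fun t ht => (dp t ht).congr_deriv (by simp)) cp (cF.smul _)
        (hp.elim Or.inr fun h => Or.inl h.2)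
      rw [eG, norm_inv_two_k] at this
      norm_num at this ⊢
      nlinarith [mul_nonneg (sq_nonneg (b - a)) S0]
    · have hk1 : (1 : ℝ) ≤ k := by exact_mod_cast hk0
      have := energy_bwd (m := k) (G := fun t => (2 * (k : ℂ) + 2)⁻¹ • mdU (Lp2 U) k t) hab
        (by positivity) (fun t ht => dp t ht) cp (cF.smul _)
        (hp.resolve_right fun h => hk0.ne' h.1)
      rw [eG, norm_inv_two_k, inv_pow, le_inv_mul_iff₀ (by positivity), ← mul_assoc] at this
      refine le_trans (le_trans (mul_le_mul_of_nonneg_right ?_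
        (intervalIntegral.integral_nonneg hab.le fun _ _ => by positivity)) this) ?_
      · rw [← mul_pow, show ((k : ℝ) + 1) ^ 4 = ((k + 1) * (k + 1)) ^ 2 by ring]
        exact pow_le_pow_left₀ (by positivity) (by nlinarith) 2
      · nlinarith [mul_nonneg (sq_nonneg (b - a)) S0]
  have ip := cp.norm.sq.ii hab.le
  have iq := cq.norm.sq.ii hab.le
  have iF := cF.norm.sq.ii hab.le
  have := intervalIntegral.integral_mono_on hab.le
    ((((cp.norm.add cq.norm).mul (((k : ℝ) + 1) ^ 2)).add cF.norm).sq.ii hab.le)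
    ((((ip.const_mul (((k : ℝ) + 1) ^ 4)).add (iq.const_mul (((k : ℝ) + 1) ^ 4))).add
      iF).const_mul 3) fun t _ => by
      nlinarith [sq_nonneg (((k : ℝ) + 1) ^ 2 * ‖pm U k t‖ - ((k : ℝ) + 1) ^ 2 * ‖qm U k t‖),
        sq_nonneg (((k : ℝ) + 1) ^ 2 * ‖pm U k t‖ - ‖mdU (Lp2 U) k t‖),
        sq_nonneg (((k : ℝ) + 1) ^ 2 * ‖qm U k t‖ - ‖mdU (Lp2 U) k t‖)]
  rw [intervalIntegral.integral_const_mul, intervalIntegral.integral_add
    ((ip.const_mul _).add (iq.const_mul _)) iF, intervalIntegral.integral_add (ip.const_mul _)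
    (iq.const_mul _), intervalIntegral.integral_const_mul,
    intervalIntegral.integral_const_mul] at this
  refine le_trans this ?_
  nlinarith

end Crest.Agent.N207.L
end
end

-- ▼ part N207/L/Br4

/-! # N207/L/Br4 (helper72): `H²` uniqueness on an annulus -/

set_option autoImplicit false
set_option maxHeartbeats 400000
set_option linter.unusedSectionVars false
open Set Filter Topology MeasureTheory
open Crest.Agent.R246.Zon797 (Pr)
open scoped InnerProductSpace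

noncomputable section

namespace Crest.Agent.N207.L
open J

/-- the radial field and the rotation fields -/
def Yv : Option (Pr 4) → (E4 →L[ℝ] E4)
  | none => ContinuousLinearMap.id ℝ E4
  | some a => Xv a

theorem norm_Yv_le (o : Option (Pr 4)) : ‖Yv o‖ ≤ 1 := by
  cases o with
  | none => exact ContinuousLinearMap.norm_id_le
  | some a => exact norm_Xv_le a

theorem card_O : Fintype.card (Option (Pr 4)) = 7 := by decide

theorem coord_le (v : E4) (i : Fin 4) : |v i| ≤ ‖v‖ := by simpa using PiLp.norm_apply_le v i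

theorem frame_le {G : Type*} [NormedAddCommGroup G] [NormedSpace ℝ G] (L : E4 →L[ℝ] G) {r : ℝ}
    (hr : 0 ≤ r) (ω : S3) (i : Fin 4) : r * ‖L (ee i)‖ ≤ ∑ o, ‖L (Yv o (r • (ω : E4)))‖ := by
  have e : r • ee i = ∑ o, Yv o (ω : E4) i • Yv o (r • (ω : E4)) := by
    rw [Fintype.sum_option, frame_ee ω i, smul_add, Finset.smul_sum]
    simp only [Yv, ContinuousLinearMap.id_apply, map_smul, smul_comm r]
  rw [← Real.norm_of_nonneg hr, ← norm_smul, ← map_smul, Real.norm_of_nonneg hr, e, map_sum]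
  refine norm_sum_le_of_le _ fun o _ => ?_
  rw [map_smul, norm_smul]
  refine mul_le_of_le_one_left (norm_nonneg _) ((coord_le _ i).trans ?_)
  simpa using ((Yv o).le_opNorm (ω : E4)).trans (mul_le_mul_of_nonneg_right (norm_Yv_le o)
    (norm_nonneg _))

theorem apply_le (L : E4 →L[ℝ] ℂ) {r g : ℝ} {v : E4} (hv : ‖v‖ ≤ r)
    (h : ∀ i, r * ‖L (ee i)‖ ≤ g) : ‖L v‖ ≤ 4 * g := by
  rw [eq_cov L, cov_apply]
  refine (norm_sum_le_of_le _ (n := fun _ => g) fun i _ => ?_).trans (by simp)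
  rw [norm_mul, Complex.norm_real, mul_comm]
  exact (mul_le_mul_of_nonneg_right ((coord_le v i).trans hv) (norm_nonneg _)).trans (h i)

/-- polar derivatives up to order two -/
abbrev Wx := Option (Option (Pr 4) ⊕ Option (Pr 4) × Option (Pr 4))

def pw (U : E4 → ℂ) : Wx → E4 → ℂ
  | none => U
  | some (.inl o) => Du (Yv o) U
  | some (.inr e) => Du (Yv e.1) (Du (Yv e.2) U)

variable {U : E4 → ℂ} {a b : ℝ}

theorem cj1_le {r g : ℝ} (hr : 0 < r) (ω : S3) (h : ContDiffAt ℝ (2 : ℕ) U (r • (ω : E4)))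
    (hg : ∀ w, ‖pw U w (r • (ω : E4))‖ ≤ g) (j : Jx) : ‖cj1 U (r • (ω : E4)) j‖ ≤ 1421 * g := by
  have g0 : 0 ≤ g := (norm_nonneg _).trans (hg none)
  have h1 : ∀ i, r * ‖fderiv ℝ U (r • (ω : E4)) (ee i)‖ ≤ 7 * g := fun i =>
    (frame_le _ hr.le ω i).trans ((Finset.sum_le_sum (g := fun _ => g)
      fun o _ => hg (some (.inl o))).trans (by
        rw [Finset.sum_const, Finset.card_univ, card_O]; simp))
  rcases j with _ | i | e
  · exact (hg none).trans (by linarith)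
  · rw [cj1, norm_smul_S3 hr, norm_mul, Complex.norm_real, Real.norm_of_nonneg hr.le]
    exact (h1 i).trans (by linarith)
  · rw [cj1, norm_smul_S3 hr, norm_mul, norm_pow, Complex.norm_real, Real.norm_of_nonneg hr.le,
      fderiv_fderiv_apply h]
    set B := fderiv ℝ (fderiv ℝ U) (r • (ω : E4))
    have h2 : ∀ o o', ‖B (Yv o (r • (ω : E4))) (Yv o' (r • (ω : E4)))‖ ≤ 29 * g := by
      intro o o'
      have e1 := Du_Du h (Yv o) (Yv o')
      have e2 : ‖fderiv ℝ U (r • (ω : E4)) (Yv o' (Yv o (r • (ω : E4))))‖ ≤ 4 * (7 * g) := by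
        refine apply_le _ ?_ h1
        refine ((Yv o').le_opNorm _).trans ((mul_le_of_le_one_left (norm_nonneg _)
          (norm_Yv_le o')).trans (((Yv o).le_opNorm _).trans ?_))
        rw [norm_smul_S3 hr]
        exact mul_le_of_le_one_left hr.le (norm_Yv_le o)
      rw [← sub_eq_iff_eq_add.2 e1]
      refine (norm_sub_le _ _).trans ((add_le_add (hg (some (.inr (o, o')))) e2).trans ?_)
      linarith
    have h3 : ∀ o, r * ‖B (Yv o (r • (ω : E4))) (ee e.2)‖ ≤ 7 * (29 * g) := fun o =>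
      (frame_le _ hr.le ω _).trans ((Finset.sum_le_sum (g := fun _ => 29 * g)
        fun o' _ => h2 o o').trans (by
        rw [Finset.sum_const, Finset.card_univ, card_O]; simp))
    have h4 := mul_le_mul_of_nonneg_left (frame_le (B.flip (ee e.2)) hr.le ω e.1) hr.le
    rw [Finset.mul_sum, ← mul_assoc, ← sq] at h4
    refine h4.trans ((Finset.sum_le_sum (g := fun _ => 7 * (29 * g)) fun o _ => h3 o).trans ?_)
    simp only [Finset.sum_const, Finset.card_univ, card_O, nsmul_eq_mul]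
    push_cast; linarith

theorem pb_pw {x : E4} {M : ℝ} (h : PB 2 U x M) (w : Wx) : PB 0 (pw U w) x (2 * M) := by
  have := h.nonneg
  rcases w with _ | o | e
  · exact h.mono (Nat.zero_le _) (by linarith)
  · exact (h.du _ (norm_Yv_le o)).mono (Nat.zero_le _) (by linarith)
  · exact ((h.du _ (norm_Yv_le e.2)).du _ (norm_Yv_le e.1)).mono le_rfl (by linarith)

theorem mdU_pw_le {t : ℝ} (h : ∀ ω : S3, ContDiffAt ℝ (2 : ℕ) U (Real.exp t • (ω : E4))) (w : Wx)
    (k : ℕ) : ‖mdU (pw U w) k t‖ ≤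
      4 * (((k : ℝ) + 1) ^ 2 * (‖pm U k t‖ + ‖qm U k t‖) + ‖mdU (Lp2 U) k t‖) := by
  have hk : (0 : ℝ) ≤ k := Nat.cast_nonneg k
  set s := ‖pm U k t‖ + ‖qm U k t‖ with hs
  have s0 : 0 ≤ s := by positivity
  have n2 : ‖((k : ℂ) + 2)‖ ≤ 2 * ((k : ℝ) + 1) := by simpa using norm_k2_le k
  have a0 : ‖mdU U k t‖ ≤ s := by rw [← pm_add_qm]; exact norm_add_le _ _
  have a1 : ∀ o, ‖mdU (Du (Yv o) U) k t‖ ≤ 2 * ((k : ℝ) + 1) * s := by
    rintro (_ | a)
    · refine (congrArg norm (pm_sub_qm k t).symm).trans_le ((norm_sub_le _ _).trans ?_)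
      rw [norm_smul, norm_smul, hs, mul_add, Complex.norm_natCast]
      exact add_le_add (mul_le_mul_of_nonneg_right (by linarith) (norm_nonneg _))
        (mul_le_mul_of_nonneg_right n2 (norm_nonneg _))
    · refine ((HR_rst (n := 1) h a).norm_P_le k).trans ?_
      refine (mul_le_mul_of_nonneg_left a0 (by positivity : (0 : ℝ) ≤ k + 1)).trans ?_
      nlinarith [mul_nonneg (by positivity : (0 : ℝ) ≤ k + 1) s0]
  have a2 : ∀ a o, ‖mdU (Du (Xv a) (Du (Yv o) U)) k t‖ ≤ 2 * ((k : ℝ) + 1) ^ 2 * s := fun a o =>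
    ((HR_rst (n := 0) (fun ω => contDiffAt_Du _ (h ω)) a).norm_P_le k).trans
      ((mul_le_mul_of_nonneg_left (a1 o) (by positivity)).trans (le_of_eq (by ring)))
  have p1 : 0 ≤ ((k : ℝ) + 1) ^ 2 * s := by positivity
  have p2 : s ≤ ((k : ℝ) + 1) ^ 2 * s := le_mul_of_one_le_left s0 (by nlinarith)
  have p3 : ((k : ℝ) + 1) * s ≤ ((k : ℝ) + 1) ^ 2 * s :=
    mul_le_mul_of_nonneg_right (by nlinarith) s0
  have p4 := norm_nonneg (mdU (Lp2 U) k t)
  rcases w with _ | o | ⟨_ | a, _ | a'⟩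
  · exact a0.trans (by linarith)
  · exact (a1 o).trans (by linarith)
  · refine (congrArg norm (pm_qm_two h k).symm).trans_le (norm_add₃_le.trans ?_)
    rw [norm_smul, norm_smul, norm_pow, norm_pow, Complex.norm_natCast]
    have b1 : (k : ℝ) ^ 2 ≤ 4 * ((k : ℝ) + 1) ^ 2 := by nlinarith
    have b2 : ‖((k : ℂ) + 2)‖ ^ 2 ≤ 4 * ((k : ℝ) + 1) ^ 2 :=
      (pow_le_pow_left₀ (norm_nonneg _) n2 2).trans (le_of_eq (by ring))
    nlinarith [mul_le_mul_of_nonneg_right b1 (norm_nonneg (pm U k t)),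
      mul_le_mul_of_nonneg_right b2 (norm_nonneg (qm U k t))]
  · have e : rst (Du (Yv none) (Du (Yv (some a')) U)) t = rst (Du (Xv a') (Du (Yv none) U)) t :=
      rst_congr fun ω => by
        rw [Du_Du (h ω), Du_Du (h ω)]
        congr 1
        exact ((h ω).isSymmSndFDerivAt (by simp)).eq _ _
    have := a2 a' none
    rw [mdU, ← e] at this
    exact le_trans this (by linarith)
  · exact (a2 a none).trans (by linarith)
  · exact (a2 a (some a')).trans (by linarith)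

/-- the `H²` estimate -/
theorem pw_L2 {M : ℝ} (hab : a < b) (h : ∀ x ∈ An (Ioo a b), PB 2 U x M) (hb : ∀ k, Bc a b U k)
    (w : Wx) : ∫ t in a..b, ‖toH (rst (pw U w) t)‖ ^ 2
      ≤ 48 * ((b - a) ^ 2 + 3) * ∫ t in a..b, ‖toH (rst (Lp2 U) t)‖ ^ 2 := by
  have cL := fun x hx => (h x hx).lp2
  have cw := fun x hx => pb_pw (h x hx) w
  refine parseval_int hab.le cw fun s => ?_
  refine le_trans (Finset.sum_le_sum fun k _ => ?_) (le_trans (le_of_eq (Finset.mul_sum ..).symm)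
    (mul_le_mul_of_nonneg_left (bessel_int hab.le cL s) (by positivity)))
  obtain ⟨cp, cq⟩ := bc_pm h k
  have i1 := (((cp.norm.add cq.norm).mul (((k : ℝ) + 1) ^ 2)).add (bc_mdU cL k).norm).sq.ii hab.le
  have := intervalIntegral.integral_mono_on_of_le_Ioo hab.le ((bc_mdU cw k).norm.sq.ii hab.le)
    (i1.const_mul 16) fun t ht => (pow_le_pow_left₀ (norm_nonneg _)
      (mdU_pw_le (fun ω => (h _ (polar_mem_An ht ω)).1) w k) 2).trans (le_of_eq (by ring))
  rw [intervalIntegral.integral_const_mul] at this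
  have h3 := mode_L2 hab h k (hb k)
  linarith

variable {ι : Type} [Fintype ι]

/-- **`H²` uniqueness** -/
theorem h2_unique (ι : Type) [Fintype ι] (ℓ : ℝ) : ∃ ε : ℝ, 0 < ε ∧
    ∀ (a b M : ℝ) (d : ι → E4 → ℂ), a < b → b - a ≤ ℓ →
      (∀ i, ∀ x ∈ An (Ioo a b), PB 2 (d i) x M) → (∀ i k, Bc a b (d i) k) →
      (∀ x ∈ An (Ioo a b), ∀ i, ‖Lp2 (d i) x‖ ≤ ε * ‖cjet d x‖) →
      ∀ i, ∀ x ∈ An (Ioo a b), d i x = 0 := by
  set K : ℝ := 48 * (ℓ ^ 2 + 3) with hK
  set C : ℝ := Fintype.card ι * (1421 ^ 2 * (Fintype.card Wx * K)) with hC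
  have C0 : 0 ≤ C := by positivity
  refine ⟨(C + 2)⁻¹, by positivity, fun a b M d hab hl h hb he => ?_⟩
  set ε := (C + 2)⁻¹ with hε
  have cL := fun i x hx => (h i x hx).lp2
  have cw := fun i w x hx => pb_pw (h i x hx) w
  have ra := fun {U : E4 → ℂ} {M : ℝ} (h : ∀ x ∈ An (Ioo a b), PB 0 U x M) {t : ℝ}
    (ht : t ∈ Ioo a b) => rst_apply' fun ω => (h _ (polar_mem_An ht ω)).1.continuousAt
  set Ei : ι → ℝ := fun i => ∫ t in a..b, ‖toH (rst (Lp2 (d i)) t)‖ ^ 2 with hEi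
  have E0 : ∀ i, 0 ≤ Ei i := fun i => intervalIntegral.integral_nonneg hab.le fun _ _ => by
    positivity
  have k1 : ∀ i w, ∫ t in a..b, ‖toH (rst (pw (d i) w) t)‖ ^ 2 ≤ K * Ei i := fun i w =>
    (pw_L2 hab (h i) (hb i) w).trans (mul_le_mul_of_nonneg_right (by
      have := pow_le_pow_left₀ (sub_nonneg.2 hab.le) hl 2
      linarith) (E0 i))
  have k2 : ∀ i, ∀ t ∈ Ioo a b, ‖toH (rst (Lp2 (d i)) t)‖ ^ 2 ≤
      ε ^ 2 * 1421 ^ 2 * ∑ z : ι × Wx, ‖toH (rst (pw (d z.1) z.2) t)‖ ^ 2 := by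
    intro i t ht
    simp only [norm_toH_sq]
    rw [← integral_finsetSum _ fun z _ => integrable_CSR _ (by fun_prop), ← integral_const_mul]
    refine integral_mono (integrable_CSR _ (by fun_prop)) (integrable_CSR _ (by fun_prop))
      fun ω => ?_
    simp only [ra (cL i) ht, ra (cw _ _) ht]
    have hx := polar_mem_An ht ω
    set G := ∑ z : ι × Wx, ‖pw (d z.1) z.2 (Real.exp t • (ω : E4))‖ ^ 2 with hG
    have G0 : 0 ≤ G := Finset.sum_nonneg fun _ _ => by positivity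
    have j1 : ‖cjet d (Real.exp t • (ω : E4))‖ ≤ 1421 * √G :=
      (pi_norm_le_iff_of_nonneg (by positivity)).2 fun j =>
        cj1_le (Real.exp_pos t) ω (h _ _ hx).1 (fun w => Real.le_sqrt_of_sq_le
          (Finset.single_le_sum (f := fun z : ι × Wx =>
            ‖pw (d z.1) z.2 (Real.exp t • (ω : E4))‖ ^ 2) (fun _ _ => by positivity)
            (Finset.mem_univ (j.1, w)))) j.2
    refine (pow_le_pow_left₀ (norm_nonneg _) ((he _ hx i).trans
      (mul_le_mul_of_nonneg_left j1 (by positivity))) 2).trans (le_of_eq ?_)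
    rw [mul_pow, mul_pow, Real.sq_sqrt G0, mul_assoc]
  have k3 : ∀ i, Ei i ≤ ε ^ 2 * 1421 ^ 2 * (Fintype.card Wx * K * ∑ i, Ei i) := by
    intro i
    have ii := fun z : ι × Wx => (bc_rst (cw z.1 z.2)).norm.sq
    have := intervalIntegral.integral_mono_on_of_le_Ioo hab.le
      ((bc_rst (cL i)).norm.sq.ii hab.le)
      (((BC.sum Finset.univ ii).ii hab.le).const_mul _) (k2 i)
    rw [intervalIntegral.integral_const_mul,
      intervalIntegral.integral_finsetSum fun z _ => (ii z).ii hab.le] at this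
    refine this.trans (mul_le_mul_of_nonneg_left ((Finset.sum_le_sum fun z _ =>
      k1 z.1 z.2).trans (le_of_eq ?_)) (by positivity))
    rw [Fintype.sum_prod_type, Finset.mul_sum]
    refine Finset.sum_congr rfl fun i _ => ?_
    simp only [Finset.sum_const, Finset.card_univ, nsmul_eq_mul, mul_assoc]
  have S0 : 0 ≤ ∑ i, Ei i := Finset.sum_nonneg fun i _ => E0 i
  have k4 : ∑ i, Ei i ≤ ε ^ 2 * C * ∑ i, Ei i := by
    refine (Finset.sum_le_sum fun i _ => k3 i).trans (le_of_eq ?_)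
    simp only [Finset.sum_const, Finset.card_univ, nsmul_eq_mul, hC]
    ring
  have k5 : ε ^ 2 * C ≤ 1 / 2 := by
    rw [hε, inv_pow, inv_mul_le_iff₀ (by positivity)]
    nlinarith
  have k6 : ∑ i, Ei i = 0 := by nlinarith [mul_le_mul_of_nonneg_right k5 S0]
  intro i x hx
  have k7 := k1 i none
  rw [(Finset.sum_eq_zero_iff_of_nonneg fun i _ => E0 i).1 k6 i (Finset.mem_univ i),
    mul_zero] at k7
  have c0 := (bc_rst (cw i none)).norm.sq
  have k8 := (intervalIntegral.integral_eq_zero_iff_of_le_of_nonneg_ae hab.le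
    (Eventually.of_forall fun _ => by positivity) (c0.ii hab.le)).1
    (le_antisymm k7 (intervalIntegral.integral_nonneg hab.le fun _ _ => by positivity))
  rw [← Measure.restrict_congr_set Ioo_ae_eq_Ioc] at k8
  have k9 := Measure.eqOn_Ioo_of_ae_eq volume k8 c0.1 continuousOn_const hx.2
  have k10 : rst (d i) (Real.log ‖x‖) = 0 :=
    toH_inj (by rw [map_zero]; simpa [pw] using k9)
  rw [← exp_log_smul_prj hx.1, ← ra (fun x hx => (h i x hx).mono (Nat.zero_le _) le_rfl) hx.2, k10]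
  rfl

end Crest.Agent.N207.L
end
private theorem rz_b06409aa12 : type_of% @_root_.Crest.Agent.N207.L.Yv.eq_1 := @_root_.Crest.Agent.N207.L.Yv.eq_1 -- L18
private theorem rz_2e4165b5c8 : type_of% @_root_.Crest.Agent.N207.L.pw.eq_1 := @_root_.Crest.Agent.N207.L.pw.eq_1 -- L53
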