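import Crest.Agent.N207.L.Defs

/-! # N207/L/Inst (helper82): the `cl` / `ind` kit; admissibility of the straight, half line,
middle and collar paths -/

set_option autoImplicit false
open Set Filter Topology MeasureTheory

noncomputable section

namespace Crest.Agent.N207.L

section kit
variable {a b : ℝ}

lemma cl_cont (a b : ℝ) : Continuous (cl a b) := by unfold cl; fun_prop

lemma cl_mono (a b : ℝ) : Monotone (cl a b) := fun _ _ h => max_le_max le_rfl (min_le_min h le_rfl)

lemma le_cl (a b x : ℝ) : a ≤ cl a b x := le_max_left _ _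

lemma cl_le (h : a ≤ b) (x : ℝ) : cl a b x ≤ b := max_le h (min_le_right _ _)

lemma cl_of_mem {x : ℝ} (h1 : a ≤ x) (h2 : x ≤ b) : cl a b x = x := by
  unfold cl; rw [min_eq_left h2, max_eq_right h1]

lemma cl_of_le {x : ℝ} (h1 : x ≤ a) : cl a b x = a :=
  max_eq_left ((min_le_left _ _).trans h1)

lemma cl_of_ge (h : a ≤ b) {x : ℝ} (h1 : b ≤ x) : cl a b x = b := by
  unfold cl; rw [min_eq_right h1, max_eq_right h]

lemma cl_sub_le (a b : ℝ) {r s : ℝ} (h : r ≤ s) : cl a b s - cl a b r ≤ s - r := by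
  unfold cl
  simp only [max_def, min_def]; split_ifs <;> linarith

/-- a clamp to a smaller interval factors -/
lemma cl_cl {a' b' : ℝ} (h1 : a ≤ a') (h : a' ≤ b') (h2 : b' ≤ b) (x : ℝ) :
    cl a' b' (cl a b x) = cl a' b' x := by
  unfold cl
  simp only [max_def, min_def]; split_ifs <;> linarith

lemma cl_sub_le_cl {a' b' : ℝ} (h1 : a ≤ a') (h : a' ≤ b') (h2 : b' ≤ b) {r s : ℝ} (hrs : r ≤ s) :
    cl a' b' s - cl a' b' r ≤ cl a b s - cl a b r := by
  rw [← cl_cl h1 h h2 s, ← cl_cl h1 h h2 r]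
  exact cl_sub_le _ _ (cl_mono a b hrs)

lemma ind_of_mem {x : ℝ} (h1 : a ≤ x) (h2 : x < b) : ind a b x = 1 := if_pos ⟨h1, h2⟩
lemma ind_of_lt {x : ℝ} (h1 : x < a) : ind a b x = 0 := if_neg fun h => absurd h.1 (not_le.2 h1)
lemma ind_of_ge {x : ℝ} (h1 : b ≤ x) : ind a b x = 0 := if_neg fun h => absurd h.2 (not_lt.2 h1)
lemma ind_nonneg (a b x : ℝ) : 0 ≤ ind a b x := by unfold ind; split_ifs <;> norm_num
lemma ind_cases (a b x : ℝ) : (a ≤ x ∧ x < b ∧ ind a b x = 1) ∨ ((x < a ∨ b ≤ x) ∧ ind a b x = 0) := by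
  rcases lt_or_ge x a with h | h
  · exact Or.inr ⟨Or.inl h, ind_of_lt h⟩
  rcases lt_or_ge x b with h' | h'
  · exact Or.inl ⟨h, h', ind_of_mem h h'⟩
  · exact Or.inr ⟨Or.inr h', ind_of_ge h'⟩

lemma ind_eq (a b : ℝ) : ind a b = (Ico a b).indicator fun _ => (1 : ℝ) := by
  funext x; simp [ind, indicator]

lemma ind_ev (a b x : ℝ) : ∀ᶠ y in 𝓝[Ici x] x, ind a b y = ind a b x := by
  rcases ind_cases a b x with ⟨h1, h2, h3⟩ | ⟨h1 | h1, h3⟩
  · filter_upwards [Ico_mem_nhdsGE h2] with y hy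
    rw [h3, ind_of_mem (h1.trans hy.1) hy.2]
  · filter_upwards [Ico_mem_nhdsGE h1] with y hy
    rw [h3, ind_of_lt hy.2]
  · filter_upwards [self_mem_nhdsWithin] with y hy
    rw [h3, ind_of_ge (h1.trans hy)]

lemma ind_rc (a b x : ℝ) : ContinuousWithinAt (fun y => (ind a b y : ℂ)) (Ici x) x :=
  (continuousWithinAt_const (b := (ind a b x : ℂ))).congr_of_eventuallyEq
    ((ind_ev a b x).mono fun _ h => by simp only [h]) rfl

lemma ind_int (a b : ℝ) : Integrable (ind a b) := by
  rw [ind_eq]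
  exact (integrable_indicator_iff measurableSet_Ico).2 (integrableOn_const (by simp))

lemma ind_li (a b x y : ℝ) : IntervalIntegrable (fun r => (ind a b r : ℂ)) volume x y :=
  (ind_int a b).ofReal.intervalIntegrable

lemma cl_der' (h : a ≤ b) (x : ℝ) : HasDerivWithinAt (cl a b) (ind a b x) (Ici x) x := by
  rcases ind_cases a b x with ⟨h1, h2, h3⟩ | ⟨h1 | h1, h3⟩
  · rw [h3]
    refine (hasDerivWithinAt_id x _).congr_of_eventuallyEq ?_ (cl_of_mem h1 h2.le)
    filter_upwards [Ico_mem_nhdsGE h2] with y hy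
    exact cl_of_mem (h1.trans hy.1) hy.2.le
  · rw [h3]
    refine (hasDerivWithinAt_const x _ a).congr_of_eventuallyEq ?_ (cl_of_le h1.le)
    filter_upwards [Ico_mem_nhdsGE h1] with y hy
    exact cl_of_le hy.2.le
  · rw [h3]
    refine (hasDerivWithinAt_const x _ b).congr_of_eventuallyEq ?_ (cl_of_ge h h1)
    filter_upwards [self_mem_nhdsWithin] with y hy
    exact cl_of_ge h (h1.trans hy)

lemma cl_der (h : a ≤ b) (x : ℝ) :
    HasDerivWithinAt (fun y => (cl a b y : ℂ)) (ind a b x : ℂ) (Ici x) x :=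
  (cl_der' h x).ofReal_comp

lemma cl_contC (a b : ℝ) : Continuous fun y => (cl a b y : ℂ) :=
  Complex.continuous_ofReal.comp (cl_cont a b)

/-- integrals of functions supported in `[a, b)` -/
lemma int_le_of {f g : ℝ → ℝ} (h : a ≤ b) (hm : AEStronglyMeasurable f volume)
    (h0 : ∀ x, 0 ≤ f x) (hg : Continuous g) (hfg : ∀ x, f x ≤ ind a b x * g x) :
    Integrable f ∧ ∫ x, f x ≤ ∫ x in a..b, g x := by
  have e : (fun x => ind a b x * g x) = (Ico a b).indicator g := by
    funext x; simp only [ind, indicator, mem_Ico]; split_ifs <;> simp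
  have hi : Integrable fun x => ind a b x * g x := by
    rw [e]
    exact (integrable_indicator_iff measurableSet_Ico).2
      ((hg.continuousOn.integrableOn_Icc).mono_set Ico_subset_Icc_self)
  have hf : Integrable f := hi.mono' hm (Eventually.of_forall fun x => by
    rw [Real.norm_of_nonneg (h0 x)]; exact hfg x)
  refine ⟨hf, (integral_mono hf hi hfg).trans (le_of_eq ?_)⟩
  rw [e, integral_indicator measurableSet_Ico, intervalIntegral.integral_of_le h,
    integral_Ico_eq_integral_Ioc]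

lemma int_exp_up {δ : ℝ} (hδ : 0 < δ) (a b : ℝ) :
    ∫ x in a..b, Real.exp (δ * (x - b)) ≤ 1 / δ := by
  have h : ∀ s : ℝ, HasDerivAt (fun s => Real.exp (δ * (s - b)) / δ) (Real.exp (δ * (s - b))) s :=
    fun s => by
    refine ((((hasDerivAt_id s).sub_const b).const_mul δ).exp.div_const δ).congr_deriv ?_
    simp only [id]; field_simp
  rw [intervalIntegral.integral_eq_sub_of_hasDerivAt (fun s _ => h s)
    (Continuous.intervalIntegrable (by fun_prop) _ _)]
  have : 0 < Real.exp (δ * (a - b)) / δ := by positivity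
  simp only [sub_self, mul_zero, Real.exp_zero]; linarith

lemma int_exp_down {δ : ℝ} (hδ : 0 < δ) (a b : ℝ) :
    ∫ x in a..b, Real.exp (δ * (a - x)) ≤ 1 / δ := by
  have h : ∀ s : ℝ, HasDerivAt (fun s => -Real.exp (δ * (a - s)) / δ) (Real.exp (δ * (a - s))) s :=
    fun s => by
    refine ((((hasDerivAt_id s).const_sub a).const_mul δ).exp.neg.div_const δ).congr_deriv ?_
    simp only [id]; field_simp
  rw [intervalIntegral.integral_eq_sub_of_hasDerivAt (fun s _ => h s)
    (Continuous.intervalIntegrable (by fun_prop) _ _)]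
  have : 0 < Real.exp (δ * (a - b)) / δ := by positivity
  simp only [sub_self, mul_zero, Real.exp_zero, neg_div]; linarith

end kit

namespace Pth

/-- replace the analytic weight by a constant -/
def omc (γ : Pth) (o : ℝ) : Pth := { γ with om := fun _ => o }

lemma Ok.re_mono' {γ : Pth} {C o : ℝ} (h : γ.Ok C o) {r s : ℝ} (hrs : r ≤ s) :
    0 ≤ (γ.t s - γ.t r).re := by
  have hd : ∀ x, HasDerivWithinAt (fun y => (γ.t y).re) (γ.τ x).re (Ici x) x := fun x =>
    Complex.reCLM.hasFDerivAt.comp_hasDerivWithinAt x (h.der x)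
  have := image_le_of_deriv_right_le_deriv_boundary (f := fun _ => (γ.t r).re) (a := r) (b := s)
    (B := fun y => (γ.t y).re) continuousOn_const (fun x _ => hasDerivWithinAt_const x _ _) le_rfl
    (Complex.continuous_re.comp h.cont).continuousOn (fun x _ => hd x) (fun x _ => h.re0 x)
    (right_mem_Icc.2 hrs)
  rw [Complex.sub_re]; linarith

lemma Ok.omc {γ : Pth} {C o' o : ℝ} (h : γ.Ok C o') (h0 : 0 ≤ o) (h1 : o ≤ 1) :
    (γ.omc o).Ok C o :=
  { h with
    oc := continuous_const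
    o0 := fun _ => le_rfl
    o1 := fun _ => h1
    ob := fun _ _ hrs => le_mul_of_one_le_left h0
      (Real.one_le_exp (mul_nonneg (by norm_num) (h.re_mono' hrs)))
    of := fun _ _ hrs => le_mul_of_one_le_left h0
      (Real.one_le_exp (mul_nonneg (by norm_num) (h.re_mono' hrs))) }

lemma Fam.omc {Z : Type} [NormedAddCommGroup Z] [NormedSpace ℂ Z] {γ : Pth} {t τ : Z → ℝ → ℂ}
    {U : Set Z} {C o' o : ℝ} (h : γ.Fam t τ U C o') (h0 : 0 ≤ o) (h1 : o ≤ 1) :
    (γ.omc o).Fam t τ U C o :=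
  ⟨h.op, fun z hz => (h.ok z hz).omc h0 h1, h.ht, h.hτ, h.dom, h.base.omc h0 h1⟩


/-- the constant family -/
lemma Ok.fam {γ : Pth} {C o M : ℝ} (h : γ.Ok C o) (hM : ∀ x, ‖γ.τ x‖ ≤ M * (γ.τ x).re)
    (Z : Type) [NormedAddCommGroup Z] [NormedSpace ℂ Z] :
    γ.Fam (fun _ : Z => γ.t) (fun _ => γ.τ) univ C o :=
  ⟨isOpen_univ, fun _ _ => h, fun _ => differentiableOn_const _, fun _ => differentiableOn_const _,
    ⟨max M 0, fun _ _ x => ⟨by simp, (hM x).trans
      (mul_le_mul_of_nonneg_right (le_max_left _ _) (h.re0 x))⟩⟩, h⟩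

end Pth

/-- finite paths over `[a, b]` with the weights of `str`, speed at least `m` -/
theorem ok_str_re {a b xs c δ m Λ C o : ℝ} {om : ℝ → ℝ} {t τ : ℝ → ℂ} (h1 : a ≤ xs) (h2 : xs ≤ b)
    (hc : 0 < c) (hδ : 0 ≤ δ) (hm : 0 ≤ m) (hδ' : δ ≤ 5 * m / 8 ∨ (δ ≤ 3 * m / 2 ∧ xs = b))
    (wa : c * Real.exp (δ * (xs - a)) ≤ 1) (wb : c * Real.exp (δ * (b - xs)) ≤ 1)
    (hΛ0 : 0 ≤ Λ) (hΛ : Λ ≤ C) (hC : (0 < δ ∧ Λ * (2 / δ) ≤ C) ∨ Λ * (b - a) ≤ C)
    (oc : Continuous om) (o0 : ∀ x, o ≤ om x) (o1 : ∀ x, om x ≤ 1) (ho : 0 ≤ o)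
    (ob : ∀ r s, r ≤ s → om r ≤ Real.exp (m / 4 * (cl a b s - cl a b r)) * om s)
    (of : ∀ r s, r ≤ s → om s ≤ Real.exp (m / 4 * (cl a b s - cl a b r)) * om r)
    (tc : Continuous t) (td : ∀ x, HasDerivWithinAt t (τ x) (Ici x) x)
    (rc : ∀ x, ContinuousWithinAt τ (Ici x) x) (li : ∀ x y, IntervalIntegrable τ volume x y)
    (n1 : ∀ x, ‖τ x‖ ≤ Λ * ind a b x) (n2 : ∀ x, ‖τ x‖ ≤ Λ * (τ x).re) (re0 : ∀ x, 0 ≤ (τ x).re)
    (inc : ∀ r s, r ≤ s → m * (cl a b s - cl a b r) ≤ (t s - t r).re) :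
    ((str a b xs c δ om).re t τ).Ok C o := by
  have hab : a ≤ b := h1.trans h2
  have w1 : ∀ x, c * Real.exp (δ * |cl a b x - xs|) ≤ 1 := fun x => by
    have := le_cl a b x
    have := cl_le hab x
    rcases abs_cases (cl a b x - xs) with ⟨e, _⟩ | ⟨e, _⟩ <;> rw [e]
    · exact le_trans (by gcongr) wb
    · exact le_trans (by gcongr; linarith) wa
  have lip : ∀ r s, r ≤ s → |cl a b r - xs| ≤ cl a b s - cl a b r + |cl a b s - xs| ∧
      |cl a b s - xs| ≤ cl a b s - cl a b r + |cl a b r - xs| := fun r s hrs => by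
    have := cl_mono a b hrs
    constructor <;> rw [abs_le] <;> constructor <;>
      linarith [le_abs_self (cl a b s - xs), neg_abs_le (cl a b s - xs),
        le_abs_self (cl a b r - xs), neg_abs_le (cl a b r - xs)]
  have hxs : cl a b xs = xs := cl_of_mem h1 h2
  have hm' : AEStronglyMeasurable (fun r => c * Real.exp (δ * |cl a b r - xs|) * ‖τ r‖) volume := by
    refine AEStronglyMeasurable.mul (Continuous.aestronglyMeasurable ?_) ?_
    · have := cl_cont a b; fun_prop
    · have e : τ = (Ioc (a - 1) (b + 1)).indicator τ := by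
        funext x
        by_cases hx : x ∈ Ioc (a - 1) (b + 1)
        · rw [indicator_of_mem hx]
        · rw [indicator_of_notMem hx]
          refine norm_le_zero_iff.1 ((n1 x).trans (le_of_eq ?_))
          rcases ind_cases a b x with ⟨p1, p2, _⟩ | ⟨_, p⟩
          · exact absurd ⟨by linarith, by linarith⟩ hx
          · rw [p, mul_zero]
      rw [e]
      exact ((aestronglyMeasurable_indicator_iff measurableSet_Ioc).2
        (li (a - 1) (b + 1)).1.aestronglyMeasurable).norm
  have hI : Integrable (fun r => c * Real.exp (δ * |cl a b r - xs|) * ‖τ r‖) ∧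
      ∫ r, c * Real.exp (δ * |cl a b r - xs|) * ‖τ r‖ ≤ C := by
    rcases hC with ⟨hδ0, hC⟩ | hC
    · · obtain ⟨i1, i2⟩ := int_le_of (g := fun x => Λ * (Real.exp (δ * (x - b)) +
          Real.exp (δ * (a - x)))) hab hm' (fun x => by positivity) (by fun_prop) fun x => by
            rcases ind_cases a b x with ⟨p1, p2, p⟩ | ⟨_, p⟩
            · have q := n1 x
              rw [p, mul_one] at q
              rw [p, one_mul, cl_of_mem p1 p2.le, mul_comm Λ]
              refine mul_le_mul ?_ q (norm_nonneg _) (by positivity)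
              have e1 := Real.exp_pos (δ * (x - b))
              have e2 := Real.exp_pos (δ * (a - x))
              rcases abs_cases (x - xs) with ⟨e, _⟩ | ⟨e, _⟩ <;> rw [e]
              · rw [show δ * (x - xs) = δ * (b - xs) + δ * (x - b) by ring, Real.exp_add]
                nlinarith
              · rw [show δ * -(x - xs) = δ * (xs - a) + δ * (a - x) by ring, Real.exp_add]
                nlinarith
            · have q := n1 x
              rw [p, mul_zero] at q
              rw [norm_le_zero_iff.1 q, p]; simp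
        refine ⟨i1, i2.trans (le_trans ?_ hC)⟩
        rw [intervalIntegral.integral_const_mul, intervalIntegral.integral_add
          (Continuous.intervalIntegrable (by fun_prop) _ _)
          (Continuous.intervalIntegrable (by fun_prop) _ _)]
        have := add_le_add (int_exp_up hδ0 a b) (int_exp_down hδ0 a b)
        exact mul_le_mul_of_nonneg_left (this.trans (le_of_eq (by ring))) hΛ0
    · obtain ⟨i1, i2⟩ := int_le_of (g := fun _ => Λ) hab hm' (fun x => by positivity)
        continuous_const fun x => by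
          have := mul_le_mul (w1 x) (n1 x) (norm_nonneg _) zero_le_one
          linarith
      refine ⟨i1, i2.trans ?_⟩
      simpa [mul_comm] using hC
  have ex : ∀ {p q : ℝ}, p ≤ q → Real.exp p ≤ Real.exp q := fun h => Real.exp_le_exp.2 h
  refine
    { cont := tc, der := td, rc := rc, li := li
      left := fun x hx => norm_le_zero_iff.1 ((n1 x).trans
        (by rw [ind_of_lt (show x < a from hx), mul_zero]))
      right := fun _ x hx => norm_le_zero_iff.1 ((n1 x).trans
        (by rw [ind_of_ge (show b ≤ x from hx), mul_zero]))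
      dec := fun h => absurd h (by simp [Pth.re, str])
      wc := by
        have := cl_cont a b
        show Continuous fun x => c * Real.exp (δ * |cl a b x - xs|)
        fun_prop
      w0 := fun x => mul_pos hc (Real.exp_pos _)
      w1 := w1, oc := oc, o0 := o0, o1 := o1
      slope := fun x => ?_, re0 := re0
      wb := fun r s hrs => ?_, wf := fun r s hrs => ?_
      ob := fun r s hrs => (ob r s hrs).trans (mul_le_mul_of_nonneg_right
        (ex (by have := inc r s hrs; show _ ≤ 1 / 4 * (t s - t r).re; linarith))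
        (ho.trans (o0 s)))
      of := fun r s hrs => (of r s hrs).trans (mul_le_mul_of_nonneg_right
        (ex (by have := inc r s hrs; show _ ≤ 1 / 4 * (t s - t r).re; linarith))
        (ho.trans (o0 r)))
      mono := fun s r h => ?_, wmin := fun _ x => ?_, int := hI.1, int_le := hI.2 }
  · have := mul_le_mul (n2 x) (w1 x) (by positivity) (mul_nonneg hΛ0 (re0 x))
    exact this.trans (by rw [mul_one]; exact mul_le_mul_of_nonneg_right hΛ (re0 x))
  · show c * Real.exp (δ * |cl a b r - xs|) ≤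
      Real.exp (3 / 2 * (t s - t r).re) * (c * Real.exp (δ * |cl a b s - xs|))
    rw [mul_left_comm, ← Real.exp_add]
    have p1 := inc r s hrs
    have p2 := (lip r s hrs).1
    have p3 := sub_nonneg.2 (cl_mono a b hrs)
    have p4 : δ ≤ 3 * m / 2 := by rcases hδ' with h | h <;> linarith [h]
    gcongr
    nlinarith [mul_le_mul_of_nonneg_left p2 hδ, mul_le_mul_of_nonneg_right p4 p3]
  · show c * Real.exp (δ * |cl a b s - xs|) ≤
      Real.exp (5 / 8 * (t s - t r).re) * (c * Real.exp (δ * |cl a b r - xs|))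
    rw [mul_left_comm, ← Real.exp_add]
    have p1 := inc r s hrs
    have p2 := (lip r s hrs).2
    have p3 := sub_nonneg.2 (cl_mono a b hrs)
    gcongr
    rcases hδ' with h | ⟨_, rfl⟩
    · nlinarith [mul_le_mul_of_nonneg_left p2 hδ, mul_le_mul_of_nonneg_right h p3]
    · rw [abs_of_nonpos (sub_nonpos.2 (cl_le hab s)), abs_of_nonpos (sub_nonpos.2 (cl_le hab r))]
      nlinarith [mul_nonneg hδ p3, mul_nonneg hm p3]
  · show c * Real.exp (δ * |cl a b r - xs|) ≤ c * Real.exp (δ * |cl a b s - xs|)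
    have h' : s < r ↔ ¬ xs < r := by simpa [Pth.up, Pth.re, str] using h
    refine mul_le_mul_of_nonneg_left (ex (mul_le_mul_of_nonneg_left ?_ hδ)) hc.le
    rcases lt_or_ge xs r with p | p
    · have q : r ≤ s := not_lt.1 fun q => h'.1 q p
      have q1 := cl_mono a b q
      have q2 := cl_mono a b p.le
      rw [hxs] at q2
      rw [abs_of_nonneg (sub_nonneg.2 q2), abs_of_nonneg (sub_nonneg.2 (q2.trans q1))]; linarith
    · have q : s < r := h'.2 (not_lt.2 p)
      have q1 := cl_mono a b q.le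
      have q2 := cl_mono a b p
      rw [hxs] at q2
      rw [abs_of_nonpos (sub_nonpos.2 q2), abs_of_nonpos (sub_nonpos.2 (q1.trans q2))]; linarith
  · show c * Real.exp (δ * |cl a b xs - xs|) ≤ c * Real.exp (δ * |cl a b x - xs|)
    rw [hxs, sub_self, abs_zero]
    gcongr
    exact abs_nonneg _

/-- straight pieces -/
theorem ok_str {a b xs c δ C o : ℝ} {om : ℝ → ℝ} (h1 : a ≤ xs) (h2 : xs ≤ b)
    (hc : 0 < c) (hδ : 0 ≤ δ) (hδ' : δ ≤ 5 / 8 ∨ (δ ≤ 3 / 2 ∧ xs = b))
    (wa : c * Real.exp (δ * (xs - a)) ≤ 1) (wb : c * Real.exp (δ * (b - xs)) ≤ 1)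
    (hΛ : 1 ≤ C) (hC : (0 < δ ∧ 2 / δ ≤ C) ∨ b - a ≤ C)
    (oc : Continuous om) (o0 : ∀ x, o ≤ om x) (o1 : ∀ x, om x ≤ 1) (ho : 0 ≤ o)
    (ob : ∀ r s, r ≤ s → om r ≤ Real.exp (1 / 4 * (cl a b s - cl a b r)) * om s)
    (of : ∀ r s, r ≤ s → om s ≤ Real.exp (1 / 4 * (cl a b s - cl a b r)) * om r) :
    (str a b xs c δ om).Ok C o :=
  ok_str_re (m := 1) (Λ := 1) h1 h2 hc hδ zero_le_one (by simpa using hδ') wa wb zero_le_one hΛ
    (by simpa using hC) oc o0 o1 ho ob of (cl_contC a b) (cl_der (h1.trans h2)) (ind_rc a b)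
    (ind_li a b) (fun x => by simp [abs_of_nonneg (ind_nonneg a b x)])
    (fun x => by simp [abs_of_nonneg (ind_nonneg a b x)]) (fun x => by simpa using ind_nonneg a b x)
    fun r s _ => by simp

/-- straight pieces with a constant analytic weight -/
theorem ok_str_const {a b xs c δ C o : ℝ} (h1 : a ≤ xs) (h2 : xs ≤ b)
    (hc : 0 < c) (hδ : 0 ≤ δ) (hδ' : δ ≤ 5 / 8 ∨ (δ ≤ 3 / 2 ∧ xs = b))
    (wa : c * Real.exp (δ * (xs - a)) ≤ 1) (wb : c * Real.exp (δ * (b - xs)) ≤ 1)
    (hΛ : 1 ≤ C) (hC : (0 < δ ∧ 2 / δ ≤ C) ∨ b - a ≤ C) (ho : 0 ≤ o) (ho1 : o ≤ 1) :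
    (str a b xs c δ fun _ => o).Ok C o :=
  ok_str h1 h2 hc hδ hδ' wa wb hΛ hC continuous_const (fun _ => le_rfl) (fun _ => ho1) ho
    (fun _ _ h => le_mul_of_one_le_left ho (Real.one_le_exp
      (mul_nonneg (by norm_num) (sub_nonneg.2 (cl_mono a b h)))))
    (fun _ _ h => le_mul_of_one_le_left ho (Real.one_le_exp
      (mul_nonneg (by norm_num) (sub_nonneg.2 (cl_mono a b h)))))

lemma str_tau (a b xs c δ : ℝ) (om : ℝ → ℝ) (x : ℝ) :
    ‖(str a b xs c δ om).τ x‖ ≤ 1 * ((str a b xs c δ om).τ x).re := by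
  simp [str, abs_of_nonneg (ind_nonneg a b x)]

end Crest.Agent.N207.L
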