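import Crest.Agent.N207.L.Xd
import Crest.Agent.N207.J.Dul2
import Crest.Agent.N207.J.Gauge
import Crest.Agent.N250.H.Fix
import Crest.Agent.N207.L.Nk0
import Crest.Agent.N207.L.Pc3

-- ▼ part N207/L/Xe
section

/-!
Row 207, block L (helper82): lemma X in the form of the class `J.Dul` (variable `L = 2 l`).
-/

set_option autoImplicit false

open Complex Set Filter Topology
open scoped Real

noncomputable section

namespace Crest.Agent.N207.L

variable {E : Type*} [NormedAddCommGroup E] [NormedSpace ℂ E]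

lemma half_mem_Om {C : ℝ} (hC : 0 < C) {L : ℂ} (hL : L ∈ J.Om (2 * C)) : L / 2 ∈ J.Om C := by
  have h : 2 * C * (1 + Real.log (1 + ‖L‖)) < L.re := hL
  have h1 : Real.log (1 + ‖L / 2‖) ≤ Real.log (1 + ‖L‖) := by
    refine Real.log_le_log (by positivity) ?_
    rw [norm_div, Complex.norm_two]; linarith [norm_nonneg L]
  show C * (1 + Real.log (1 + ‖L / 2‖)) < (L / 2).re
  rw [div_ofNat_re]
  nlinarith

/-- **Lemma X**, data size `e^{-Re l / 2}`: the function of the full length is in the class. -/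
theorem lemX_dul [CompleteSpace E] {R0 c δ : ℝ} (hc : 0 < c) (hδ : 0 < δ)
    {N : ℂ → E} (hd : DifferentiableOn ℂ N (Wd R0 c δ)) {B : ℝ}
    (hB : ∀ l ∈ Wd R0 c δ, ‖N l‖ ≤ B)
    (hM : ∀ M : ℕ, ∃ C R : ℝ, ∀ l : ℂ, R ≤ l.re →
      (∀ n ≤ M, l + n * (2 * π * I) ∈ Wd R0 c δ) →
      ‖(fwdDiff (2 * π * I))^[M] N l‖ ≤ C * Real.exp (-(M * l.re) / 2)) :
    ∃ (C : ℝ) (co : ℕ → ℕ → E), 0 < C ∧ (∀ L ∈ J.Om C, L / 2 ∈ Wd R0 c δ) ∧
      J.Dul C (fun L => N (L / 2)) co := by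
  obtain ⟨C0, co, hC0, hs, h⟩ := lemX (D := 2) two_pos hc hδ hd hB (by simpa using hM)
  refine ⟨2 * C0, fun q j => ((2 : ℂ) ^ j)⁻¹ • co q j, by linarith,
    fun L hL => hs (half_mem_Om hC0 hL),
    hd.comp (by fun_prop) fun L hL => hs (half_mem_Om hC0 hL), fun K => ?_⟩
  obtain ⟨B', hB'⟩ := h K
  refine ⟨B', fun L hL => ?_⟩
  have := hB' _ (half_mem_Om hC0 hL)
  rw [div_ofNat_re, show -((K : ℝ) * (L.re / 2)) / 2 = -(K : ℝ) * L.re / 4 by ring] at this
  convert this using 3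
  unfold J.psum J.mon
  refine Finset.sum_congr rfl fun q _ => Finset.sum_congr rfl fun j _ => ?_
  rw [smul_smul, div_pow, mul_div_assoc]
  congr 1; ring

end Crest.Agent.N207.L
end
end

-- ▼ part N207/L/Hinf
section

/-!
Row 207, block L (helper82): the Banach space `Hinf U hU F` of bounded holomorphic maps
`U → F` (stored as functions vanishing off `U`), joint holomorphy of the evaluation, currying and
lemma X for families of maps.
-/

set_option autoImplicit false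

open Set Filter Topology Metric
open scoped Real

noncomputable section

namespace Crest.Agent.N207.L
open J Crest.Agent.N250.H

variable {X F Z : Type*} [NormedAddCommGroup X] [NormedSpace ℂ X] [NormedAddCommGroup F]
  [NormedSpace ℂ F] [CompleteSpace F] [NormedAddCommGroup Z] [NormedSpace ℂ Z]

/-- the gauge of bounded holomorphic maps on `U` -/
def hG (U : Set X) (hU : IsOpen U) (F : Type*) [NormedAddCommGroup F] [NormedSpace ℂ F]
    [CompleteSpace F] : Gauge (X → F) where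
  R M f := DifferentiableOn ℂ f U ∧ (∀ x, ‖f x‖ ≤ M) ∧ ∀ x ∉ U, f x = 0
  nonneg h := (norm_nonneg _).trans (h.2.1 0)
  mono h h' := ⟨h.1, fun x => (h.2.1 x).trans h', h.2.2⟩
  zero := ⟨differentiableOn_const 0, fun _ => by simp, fun _ _ => rfl⟩
  add h h' := ⟨h.1.add h'.1, fun x => (norm_add_le _ _).trans (add_le_add (h.2.1 x) (h'.2.1 x)),
    fun x hx => by simp [h.2.2 x hx, h'.2.2 x hx]⟩
  smul c _ _ h := ⟨h.1.const_smul c, fun x => by
    rw [Pi.smul_apply, norm_smul]; exact mul_le_mul_of_nonneg_left (h.2.1 x) (norm_nonneg c),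
    fun x hx => by simp [h.2.2 x hx]⟩
  sep h := funext fun x => norm_le_zero_iff.1
    (le_of_forall_pos_le_add fun ε hε => by simpa using (h ε hε).2.1 x)
  compl v M hM h := by
    have hs : ∀ x, Summable fun n => v n x := fun x =>
      Summable.of_norm_bounded hM fun n => (h n).2.1 x
    have hb : ∀ (N : ℕ) x, ‖∑' n, v (n + N) x‖ ≤ ∑' n, M (n + N) := fun N x =>
      tsum_of_norm_bounded ((summable_nat_add_iff N).2 hM).hasSum fun n => (h _).2.1 x
    have hp : ∀ N : ℕ, DifferentiableOn ℂ (fun x => ∑ n ∈ Finset.range N, v n x) U := fun N =>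
      DifferentiableOn.fun_sum fun n _ => (h n).1
    have hd : DifferentiableOn ℂ (fun x => ∑' n, v n x) U := by
      refine diffOn_of_lim (l := atTop) hU (M := ∑' n, M n)
        (F := fun (N : ℕ) x => ∑ n ∈ Finset.range N, v n x)
        (Eventually.of_forall fun N => ⟨hp N, fun x _ => ?_⟩)
        (tendstoUniformlyOn_tsum_nat hM fun n x _ => (h n).2.1 x)
      refine (norm_sum_le _ _).trans ((Finset.sum_le_sum fun n _ => (h n).2.1 x).trans ?_)
      exact hM.sum_le_tsum _ fun n _ => (norm_nonneg _).trans ((h n).2.1 0)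
    refine ⟨fun x => ∑' n, v n x, fun N => ⟨?_, fun x => ?_, fun x hx => ?_⟩⟩
    · refine (hd.sub (hp N)).congr fun x _ => ?_
      simp [Finset.sum_apply]
    · rw [Pi.sub_apply, Finset.sum_apply, ← (hs x).sum_add_tsum_nat_add N, add_sub_cancel_left]
      exact hb N x
    · simp [Finset.sum_apply, fun n => (h n).2.2 x hx]

/-- bounded holomorphic maps `U → F` -/
abbrev Hinf (U : Set X) (hU : IsOpen U) (F : Type*) [NormedAddCommGroup F] [NormedSpace ℂ F]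
    [CompleteSpace F] := (hG U hU F).Sp

namespace Hinf

variable {U : Set X} {hU : IsOpen U}

lemma diff (n : Hinf U hU F) : DifferentiableOn ℂ n.val U := (Gauge.exists_R n).choose_spec.1

lemma off (n : Hinf U hU F) {x : X} (hx : x ∉ U) : n.val x = 0 :=
  (Gauge.exists_R n).choose_spec.2.2 x hx

lemma le (n : Hinf U hU F) (x : X) : ‖n.val x‖ ≤ ‖n‖ := by
  simpa using Gauge.le_mul_norm (x := n) (C := 1) zero_le_one fun M h => by simpa using h.2.1 x

lemma norm_le (n : Hinf U hU F) {M : ℝ} (hM : 0 ≤ M) (h : ∀ x ∈ U, ‖n.val x‖ ≤ M) : ‖n‖ ≤ M := by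
  refine Gauge.norm_le ⟨n.diff, fun x => ?_, fun x hx => n.off hx⟩
  by_cases hx : x ∈ U
  · exact h x hx
  · simpa [n.off hx] using hM

lemma ext' {n m : Hinf U hU F} (h : ∀ x ∈ U, n.val x = m.val x) : n = m := by
  refine Gauge.ext (funext fun x => ?_)
  by_cases hx : x ∈ U
  · exact h x hx
  · rw [n.off hx, m.off hx]

/-- evaluation at a point -/
def ev (U : Set X) (hU : IsOpen U) (F : Type*) [NormedAddCommGroup F] [NormedSpace ℂ F]
    [CompleteSpace F] (x : X) : Hinf U hU F →L[ℂ] F :=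
  (hG U hU F).out (fun f => f x) 1 zero_le_one (fun M v h => by simpa using h.2.1 x)
    (fun _ _ => rfl) (fun _ _ => rfl)

@[simp] lemma ev_apply (x : X) (n : Hinf U hU F) : ev U hU F x n = n.val x := rfl

lemma norm_ev_le (x : X) : ‖ev U hU F x‖ ≤ 1 := Gauge.norm_out_le _ _ _ _ _ _

open Classical in
/-- a map as an element of the space (junk value `0` if it is not bounded and holomorphic) -/
def mk (U : Set X) (hU : IsOpen U) (f : X → F) : Hinf U hU F :=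
  if h : ∃ M, (hG U hU F).R M (U.indicator f) then (hG U hU F).mk' _ h else 0

lemma val_mk {f : X → F} (hd : DifferentiableOn ℂ f U) {M : ℝ} (hM : ∀ x ∈ U, ‖f x‖ ≤ M)
    {x : X} (hx : x ∈ U) : (mk U hU f).val x = f x := by
  have h : ∃ M, (hG U hU F).R M (U.indicator f) := by
    refine ⟨max M 0, hd.congr fun y hy => indicator_of_mem hy f, fun y => ?_,
      fun y hy => indicator_of_notMem hy f⟩
    by_cases hy : y ∈ U
    · rw [indicator_of_mem hy]; exact (hM y hy).trans (le_max_left _ _)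
    · rw [indicator_of_notMem hy]; simp
  rw [mk, dif_pos h, Gauge.val_mk', indicator_of_mem hx]

lemma norm_mk_le {f : X → F} (hd : DifferentiableOn ℂ f U) {M : ℝ} (h0 : 0 ≤ M)
    (hM : ∀ x ∈ U, ‖f x‖ ≤ M) : ‖mk U hU f‖ ≤ M :=
  norm_le _ h0 fun x hx => by rw [val_mk hd hM hx]; exact hM x hx


theorem diffOn_ev : DifferentiableOn ℂ (ev U hU F) U :=
  diffOn_clm hU (M := 1) (fun x _ => norm_ev_le x) fun n => n.diff

/-- **joint holomorphy of the evaluation** -/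
theorem diffOn_val {N : Z → Hinf U hU F} {ξ : Z → X} {W : Set Z} (hN : DifferentiableOn ℂ N W)
    (hξ : DifferentiableOn ℂ ξ W) (hm : MapsTo ξ W U) :
    DifferentiableOn ℂ (fun z => (N z).val (ξ z)) W :=
  ((diffOn_ev (hU := hU) (F := F)).comp hξ hm).clm_apply hN


/-- **currying**: holomorphy is tested pointwise -/
theorem diffOn {N : Z → Hinf U hU F} {W : Set Z} (hW : IsOpen W) {M : ℝ}
    (hM : ∀ z ∈ W, ‖N z‖ ≤ M) (hd : ∀ x ∈ U, DifferentiableOn ℂ (fun z => (N z).val x) W) :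
    DifferentiableOn ℂ N W :=
  diffOn_of_norming (ι := U) (Y := fun _ => F) (fun x => ev U hU F x.1) (fun x n => n.le x.1)
    (fun n _ hc h => n.norm_le hc fun x hx => h ⟨x, hx⟩) hW hM fun x => hd x.1 x.2

theorem diffOn_mk {f : Z → X → F} {W : Set Z} (hW : IsOpen W) {M : ℝ}
    (hM : ∀ z ∈ W, ∀ x ∈ U, ‖f z x‖ ≤ M) (h1 : ∀ z ∈ W, DifferentiableOn ℂ (f z) U)
    (h2 : ∀ x ∈ U, DifferentiableOn ℂ (fun z => f z x) W) :
    DifferentiableOn ℂ (fun z => mk U hU (f z)) W :=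
  diffOn hW (M := max M 0)
    (fun z hz => norm_mk_le (h1 z hz) (le_max_right _ _) fun x hx =>
      (hM z hz x hx).trans (le_max_left _ _))
    fun x hx => (h2 x hx).congr fun z hz => val_mk (h1 z hz) (hM z hz) hx




lemma val_fwd (h : ℂ) (M : ℕ) (N : ℂ → Hinf U hU F) (l : ℂ) (x : X) :
    ((fwdDiff h)^[M] N l).val x = (fwdDiff h)^[M] (fun l => (N l).val x) l := by
  induction M generalizing N with
  | zero => rfl
  | succ M ih => rw [Function.iterate_succ_apply, ih]; rfl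

end Hinf

/-- iterated differences only see the values at `l + n h`, `n ≤ M` -/
lemma fwd_congr {E : Type*} [AddCommGroup E] (h : ℂ) (M : ℕ) {f g : ℂ → E} {l : ℂ}
    (H : ∀ n ≤ M, f (l + n * h) = g (l + n * h)) :
    (fwdDiff h)^[M] f l = (fwdDiff h)^[M] g l := by
  rw [fwdDiff_iter_eq_sum_shift, fwdDiff_iter_eq_sum_shift]
  refine Finset.sum_congr rfl fun n hn => ?_
  rw [nsmul_eq_mul, H n (Nat.lt_succ_iff.1 (Finset.mem_range.1 hn))]

/-- **Lemma X for a family of maps** `f l : U → F` (`l` = half length). -/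
theorem lemX_hinf {U : Set X} (hU : IsOpen U) {R0 c δ : ℝ} (hc : 0 < c) (hδ : 0 < δ)
    {f : ℂ → X → F} {B : ℝ} (hB : ∀ l ∈ Wd R0 c δ, ∀ x ∈ U, ‖f l x‖ ≤ B)
    (h1 : ∀ l ∈ Wd R0 c δ, DifferentiableOn ℂ (f l) U)
    (h2 : ∀ x ∈ U, DifferentiableOn ℂ (fun l => f l x) (Wd R0 c δ))
    (hM : ∀ M : ℕ, ∃ C R : ℝ, ∀ l : ℂ, R ≤ l.re →
      (∀ n ≤ M, l + n * (2 * π * Complex.I) ∈ Wd R0 c δ) → ∀ x ∈ U,
      ‖(fwdDiff (2 * π * Complex.I))^[M] (fun l => f l x) l‖ ≤ C * Real.exp (-(M * l.re) / 2)) :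
    ∃ (C : ℝ) (co : ℕ → ℕ → Hinf U hU F), 0 < C ∧ (∀ L ∈ J.Om C, L / 2 ∈ Wd R0 c δ) ∧
      J.Dul C (fun L => Hinf.mk U hU (f (L / 2))) co ∧
      ∀ x ∈ U, Tendsto (fun L : ℝ => f ((L : ℂ) / 2) x) atTop (𝓝 ((co 0 0).val x)) := by
  have hW : IsOpen (Wd R0 c δ) :=
    (isOpen_lt continuous_const Complex.continuous_re).inter
      (isOpen_lt (f := fun l : ℂ => |l.im|) (g := fun l : ℂ => c * Real.exp (δ * l.re))
        (by fun_prop) (by fun_prop))
  obtain ⟨C, co, hC, hs, hD⟩ := lemX_dul (N := fun l => Hinf.mk U hU (f l)) hc hδ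
    (Hinf.diffOn_mk hW hB h1 h2) (B := max B 0)
    (fun l hl => Hinf.norm_mk_le (h1 l hl) (le_max_right _ _) fun x hx =>
      (hB l hl x hx).trans (le_max_left _ _)) (fun M => by
      obtain ⟨C, R, h⟩ := hM M
      refine ⟨max C 0, R, fun l hl hn => Hinf.norm_le _ (by positivity) fun x hx => ?_⟩
      rw [Hinf.val_fwd, fwd_congr _ M (g := fun l => f l x) fun n hn' =>
        Hinf.val_mk (h1 _ (hn n hn')) (hB _ (hn n hn')) hx]
      exact (h l hl hn x hx).trans (by gcongr; exact le_max_left _ _))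
  refine ⟨C, co, hC, hs, hD, fun x hx => ?_⟩
  refine (((Hinf.ev U hU F x).continuous.tendsto _).comp hD.tendsto).congr' ?_
  filter_upwards [J.eventually_mem_Om C] with L hL
  exact Hinf.val_mk (h1 _ (hs _ hL)) (hB _ (hs _ hL)) hx

end Crest.Agent.N207.L
end
end

-- ▼ part N207/L/NkH
section

/-!
Row 207, block L (helper82): the one-neck map as a curve of class `J.Dul` in `Hinf`.
-/

set_option autoImplicit false

open Set Filter Topology Metric

noncomputable section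

namespace Crest.Agent.N207.L
open J

/-- bounded holomorphic scattering maps -/
abbrev HN (ι : Type) [Fintype ι] (ε : ℝ) : Type := Hinf (ball (0 : DD ι) ε) isOpen_ball (D3 ι)

variable {ι : Type} [Fintype ι]

/-- the neck map of full length `L` as a point of `HN` -/
def nH (ε : ℝ) (Nm : ℂ → DD ι → D3 ι) (L : ℂ) : HN ι ε := Hinf.mk _ isOpen_ball (Nm (L / 2))

namespace Neck
variable {N : NL ι} {o ε K R0 : ℝ} {Nm : ℂ → DD ι → D3 ι}

lemma diff1 (h : Neck N o ε K R0 Nm) {l : ℂ} (hl : l ∈ Wd R0 1 (1 / 8)) :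
    DifferentiableOn ℂ (Nm l) (ball 0 ε) :=
  h.diff.comp (f := fun v => (l, v)) (by fun_prop) fun _ hv => ⟨hl, hv⟩

lemma diff2 (h : Neck N o ε K R0 Nm) {v : DD ι} (hv : v ∈ ball (0 : DD ι) ε) :
    DifferentiableOn ℂ (fun l => Nm l v) (Wd R0 1 (1 / 8)) :=
  h.diff.comp (f := fun l => (l, v)) (by fun_prop) fun _ hl => ⟨hl, hv⟩

lemma bd (h : Neck N o ε K R0 Nm) (hK : 0 ≤ K) {l : ℂ} (hl : l ∈ Wd R0 1 (1 / 8)) :
    ∀ v ∈ ball (0 : DD ι) ε, ‖Nm l v‖ ≤ K * ε := fun v hv =>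
  (h.le l hl v hv).trans (mul_le_mul_of_nonneg_left (mem_ball_zero_iff.1 hv).le hK)

lemma val_nH (h : Neck N o ε K R0 Nm) (hK : 0 ≤ K) {L : ℂ} (hL : L / 2 ∈ Wd R0 1 (1 / 8))
    {v : DD ι} (hv : v ∈ ball (0 : DD ι) ε) : (nH ε Nm L).val v = Nm (L / 2) v :=
  Hinf.val_mk (h.diff1 hL) (h.bd hK hL) hv

/-- **the neck map is in the class**; `co 0 0` is the pointwise limit for real lengths -/
theorem dul (h : Neck N o ε K R0 Nm) (hK : 0 ≤ K) :
    ∃ (C : ℝ) (co : ℕ → ℕ → HN ι ε), 0 < C ∧ (∀ L ∈ Om C, L / 2 ∈ Wd R0 1 (1 / 8)) ∧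
      Dul C (nH ε Nm) co ∧
      (∀ v ∈ ball (0 : DD ι) ε,
        Tendsto (fun L : ℝ => Nm ((L : ℂ) / 2) v) atTop (𝓝 ((co 0 0).val v))) ∧
      ∀ v ∈ ball (0 : DD ι) ε, ‖(co 0 0).val v‖ ≤ K * ‖v‖ := by
  obtain ⟨C, co, hC, hs, hD, ht⟩ := lemX_hinf (U := ball (0 : DD ι) ε) isOpen_ball one_pos
    (by norm_num : (0 : ℝ) < 1 / 8) (fun _ hl => h.bd hK hl) (fun _ hl => h.diff1 hl)
    (fun _ hv => h.diff2 hv) h.dif
  refine ⟨C, co, hC, hs, hD, ht, fun v hv => le_of_tendsto (ht v hv).norm ?_⟩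
  filter_upwards [eventually_mem_Om C] with L hL
  exact h.le _ (hs _ hL) v hv

end Neck

end Crest.Agent.N207.L
end
end

-- ▼ part N207/L/Lp1
section

/-!
Row 207, block L (helper82): the incoming outputs of the limit neck map are quadratic; the paths
of the collars and of the extended neck.
-/

set_option autoImplicit false
set_option linter.unusedSectionVars false

open Set Filter Topology Metric

noncomputable section

namespace Crest.Agent.N207.L
open J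

variable {ι : Type} [Fintype ι]

/-- the outputs of the neck which enter the collars -/
def inL : D3 ι →L[ℂ] D3 ι :=
  (ContinuousLinearMap.fst ℂ _ _).prod
    (((ContinuousLinearMap.fst ℂ _ _).comp (ContinuousLinearMap.snd ℂ _ _)).prod
      ((piL keep).comp ((ContinuousLinearMap.snd ℂ _ _).comp (ContinuousLinearMap.snd ℂ _ _))))


theorem norm_inL_le (u : D3 ι) : ‖inL u‖ ≤ ‖u‖ :=
  max_le (norm_fst_le u) (max_le ((norm_fst_le u.2).trans (norm_snd_le u))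
    ((norm_piL_le norm_keep_le _).trans ((norm_snd_le u.2).trans (norm_snd_le u))))

theorem duh_bd' {γ : Pth} {C o : ℝ} (h : γ.Ok C o) (ho : 0 < o) {X Xf : CL} {A : H} {k : ℕ}
    {x : ℝ} {c : ℂ} {G : BH →L[ℂ] BH} (hG : ‖G‖ ≤ 16 * C / (k + 1))
    (hX : tru 6 γ.w γ.om X k x = γ.tw 1 k x • (c • (((wt (6 : ℕ) k)⁻¹ : ℝ) : ℂ) • A -
      (2 * (k : ℂ) + 2)⁻¹ • G (srcM Xf k) x)) :
    ‖trc x X k‖ ≤ ‖c‖ * ‖A‖ + 8 * C * ‖Xf k‖ := by
  have h1 : ∀ y : ℝ, ‖(fun _ : ℝ => (1 : ℂ)) y‖ ≤ 1 := fun _ => by simp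
  rw [← norm_smul]
  refine duh_bd h ho (e := mop H fun _ => 1) (norm_mop_le continuous_const h1) hG ?_
  rw [hX, mop_apply continuous_const h1, one_smul, smul_comm c]

section
variable {N : NL ι} {γ : Pth} {C o η : ℝ} {S : Tr ι} {A B : ι → D}

theorem trc_q_le' (h : γ.Ok C o) (ho : 0 < o)
    (hs : Sol N γ.τ γ.w γ.om η (S.p γ) (S.q γ) (S.F γ)) (hd : Dat γ (S.p γ) (S.q γ) A B) (i : ι)
    (x : ℝ) (k : ℕ) : ‖trc x (S.2.1 i) k‖ ≤
      ‖γ.Aw (-(k + 2)) k x / γ.Aw (-(k + 2)) k γ.a‖ * ‖A i k‖ + 8 * C * ‖S.2.2 i k‖ := by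
  refine le_trans (duh_bd' h ho (A := P k (A i k)) (h.norm_gm ho k) ?_)
    (add_le_add_left (mul_le_mul_of_nonneg_left (norm_P_le k _) (norm_nonneg _)) _)
  rw [← h.em_apply ho]
  refine h.duh_q ho k _ ((hs.ode_q i k).congr (fun x => ?_) fun _ => rfl) ?_ x
  · rw [← tru_src]; rfl
  · rw [← smul_trD]; exact hd.hq i k

theorem trc_p_le' (h : γ.Ok C o) (ho : 0 < o) (hf : γ.fin = true)
    (hs : Sol N γ.τ γ.w γ.om η (S.p γ) (S.q γ) (S.F γ)) (hd : Dat γ (S.p γ) (S.q γ) A B) (i : ι)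
    (x : ℝ) (k : ℕ) : ‖trc x (S.1 i) k‖ ≤
      ‖γ.Aw k k x / γ.Aw k k (γ.pt k)‖ * ‖B i k‖ + 8 * C * ‖S.2.2 i k‖ := by
  refine le_trans (duh_bd' h ho (A := P k (B i k)) (h.norm_gp ho k) ?_)
    (add_le_add_left (mul_le_mul_of_nonneg_left (norm_P_le k _) (norm_nonneg _)) _)
  rw [← h.ep_apply ho hf]
  refine h.duh_p ho k _ ((hs.ode_p i k).congr (fun x => ?_) fun _ => rfl) (fun _ => ?_)
    (M := 0) (fun h' => by simp [hf] at h') x
  · rw [← tru_src]; rfl
  · rw [← smul_trD]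
    have := hd.hp hf i k
    by_cases h0 : k = 0
    · subst h0
      simpa [trD] using this
    · simpa [Pth.pt, h0] using this

end

theorem norm_le_two' {z a : D} {b : CL} {e c : ℝ} (he : 0 ≤ e) (hc : 0 ≤ c)
    (h : ∀ k, ‖z k‖ ≤ e * ‖a k‖ + c * ‖b k‖) : ‖z‖ ≤ 2 * (e * ‖a‖ + c * ‖b‖) := by
  have := norm_le_two (z := z) (a := (e : ℂ) • a) (b := b) hc fun k => by
    rw [lp.coeFn_smul, Pi.smul_apply, norm_smul, Complex.norm_real, Real.norm_of_nonneg he]
    exact h k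
  rwa [norm_smul, Complex.norm_real, Real.norm_of_nonneg he] at this

theorem ok_nk {l o : ℝ} (hl : 1 ≤ l) (ho : 0 ≤ o) (ho1 : o ≤ 1) : ((neck l 0).omc o).Ok 10 o :=
  (ok_neck (c := 0) hl le_rfl (by norm_num) (by simp) (by norm_num)).omc ho ho1

theorem nk_re {l o : ℝ} (x : ℝ) : (((neck l 0).omc o).t x).re = cl (-l) l x := by
  simp [Pth.omc, neck]

/-- the incoming outputs of a real neck -/
theorem IsSol.inc {N : NL ι} {l o K : ℝ} (hl : 1 ≤ l) (ho : 0 < o) (ho1 : o ≤ 1) (hK : 0 ≤ K)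
    {v : DD ι} {S : Tr ι} (h : IsSol N ((neck l 0).omc o) K (killB v) S) :
    ‖inL (outL (-l) l S)‖ ≤ 2 * (Real.exp (-(l / 4)) * ‖v‖ + 80 * (K * ‖v‖ ^ 2)) := by
  have ok := ok_nk hl ho.le ho1
  have e0 := Real.exp_pos (-(l / 4))
  have hF : ∀ i, ‖S.2.2 i‖ ≤ K * ‖v‖ ^ 2 := fun i => (norm_le_pi_norm _ i).trans (h.le2.trans
    (mul_le_mul_of_nonneg_left (pow_le_pow_left₀ (norm_nonneg _) (norm_killB_le v) 2) hK))
  have r1 : (((neck l 0).omc o).t (-l)).re = -l := by rw [nk_re, cl_of_le le_rfl]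
  have r2 : (((neck l 0).omc o).t l).re = l := by rw [nk_re, cl_of_ge (by linarith) le_rfl]
  have key : ∀ {z a : D} (i : ι), ‖a‖ ≤ ‖v‖ →
      (∀ k, ‖z k‖ ≤ Real.exp (-(l / 4)) * ‖a k‖ + 8 * 10 * ‖S.2.2 i k‖) →
      ‖z‖ ≤ 2 * (Real.exp (-(l / 4)) * ‖v‖ + 80 * (K * ‖v‖ ^ 2)) := fun i ha hz => by
    refine (norm_le_two' e0.le (by norm_num) hz).trans ?_
    have := hF i
    have := mul_le_mul_of_nonneg_left ha e0.le
    linarith
  have h0 : 0 ≤ 2 * (Real.exp (-(l / 4)) * ‖v‖ + 80 * (K * ‖v‖ ^ 2)) := by positivity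
  have hA : ∀ i, ‖(killB v).1 i‖ ≤ ‖v‖ := fun i =>
    (norm_le_pi_norm _ i).trans ((norm_fst_le _).trans (norm_killB_le v))
  have hB : ∀ i, ‖(killB v).2 i‖ ≤ ‖v‖ := fun i =>
    (norm_le_pi_norm _ i).trans ((norm_snd_le _).trans (norm_killB_le v))
  have B0 : ∀ i, (killB v).2 i 0 = 0 := fun i => by
    change kill (v.2 i) 0 = 0
    rw [kill_apply, if_pos rfl]
  refine max_le ((pi_norm_le_iff_of_nonneg h0).2 fun i => key i (hB i) fun k => ?_)
    (max_le ((pi_norm_le_iff_of_nonneg h0).2 fun i => key i (hA i) fun k => ?_)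
      ((pi_norm_le_iff_of_nonneg h0).2 fun i => key i (hB i) fun k => ?_))
  · refine (trc_p_le' ok ho rfl h.sol h.dat i (-l) k).trans (add_le_add_left ?_ _)
    by_cases hk : k = 0
    · subst hk; simp [B0]
    refine mul_le_mul_of_nonneg_right ?_ (norm_nonneg _)
    rw [Pth.pt, if_neg hk]
    refine (ok.AA_p ho hk (x := -l) (y := l) (by linarith)).trans (Real.exp_le_exp.2 ?_)
    have : (1 : ℝ) ≤ k := Nat.one_le_cast.2 (Nat.pos_of_ne_zero hk)
    rw [r1, r2]; nlinarith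
  · refine (trc_q_le' ok ho h.sol h.dat i l k).trans (add_le_add_left ?_ _)
    refine mul_le_mul_of_nonneg_right ?_ (norm_nonneg _)
    refine (ok.AA_m ho k (x := l) (y := -l) (by linarith)).trans (Real.exp_le_exp.2 ?_)
    have : (0 : ℝ) ≤ k := Nat.cast_nonneg k
    rw [r1, r2]; nlinarith
  · change ‖keep (trc l (S.1 i)) k‖ ≤ _
    rw [keep_apply]
    split_ifs with hk
    · subst hk
      refine (trc_p_le' ok ho rfl h.sol h.dat i l 0).trans (add_le_add_left ?_ _)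
      simp [B0]
    · rw [norm_zero]; positivity

/-- **the limit map is quadratic on the incoming outputs** -/
theorem Neck.quad {N : NL ι} {o ε K R0 : ℝ} {Nm : ℂ → DD ι → D3 ι} (h : Neck N o ε K R0 Nm)
    (ho : 0 < o) (ho1 : o ≤ 1) (hK : 0 ≤ K) {v : DD ι} (hv : v ∈ ball (0 : DD ι) ε) {u : D3 ι}
    (ht : Tendsto (fun L : ℝ => Nm ((L : ℂ) / 2) v) atTop (𝓝 u)) :
    ‖inL u‖ ≤ 160 * K * ‖v‖ ^ 2 := by
  have h1 : Tendsto (fun L : ℝ => 2 * (Real.exp (-(L / 2 / 4)) * ‖v‖ + 80 * (K * ‖v‖ ^ 2))) atTop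
      (𝓝 (2 * (0 * ‖v‖ + 80 * (K * ‖v‖ ^ 2)))) := by
    refine (((Real.tendsto_exp_neg_atTop_nhds_zero.comp ?_).mul_const _).add_const _).const_mul _
    exact (tendsto_id.atTop_div_const two_pos).atTop_div_const four_pos
  refine (le_of_tendsto_of_tendsto ((inL.continuous.tendsto u).comp ht).norm h1 ?_).trans_eq
    (by ring)
  filter_upwards [eventually_gt_atTop (2 * R0), eventually_ge_atTop 2] with L hL h2
  obtain ⟨S, hS, e⟩ := h.real (L / 2) (by linarith) v hv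
  have e2 : ((L / 2 : ℝ) : ℂ) = (L : ℂ) / 2 := by push_cast; rfl
  simp only [Function.comp]
  rw [← e2, e]
  exact hS.inc (by linarith) ho ho1 hK

/-! ### paths -/

/-- the collar of an outer end -/
def colL (κ : ℝ) : Pth := str 1 (1 + 3) (1 + 3) 1 0 (omL 1 κ)

/-- the collar of a puncture -/
def colR (κ : ℝ) : Pth := str (-4) (-4 + 3) (-4) 1 0 (omR (-4 + 3) κ)

/-- the extended neck `[-R, R]` (both collars included) -/
def xnk (R κ : ℝ) : Pth := { neck R 0 with om := fun x => max (omL (-R) κ x) (omR R κ x) }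

variable {κ : ℝ}

theorem fam_colL (h0 : 0 ≤ κ) (h1 : κ ≤ 1 / 8) :
    (colL κ).Fam (colt 1) (colτ 1) (ball 0 (1 / 2)) 10 (Real.exp (-κ)) := by
  obtain ⟨a, b, c, d, e⟩ := omL_props (a := 1) (b := 1 + 3) (by norm_num) h0 h1
  exact fam_col (by norm_num) le_rfl one_pos le_rfl (Or.inl (by norm_num)) (by simp) (by simp)
    (by norm_num) a b c (Real.exp_pos _).le d e

theorem fam_colR (h0 : 0 ≤ κ) (h1 : κ ≤ 1 / 8) :
    (colR κ).Fam (colt (-4)) (colτ (-4)) (ball 0 (1 / 2)) 10 (Real.exp (-κ)) := by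
  obtain ⟨a, b, c, d, e⟩ := omR_props (a := -4) (b := -4 + 3) (by norm_num) h0 h1
  exact fam_col le_rfl (by norm_num) one_pos le_rfl (Or.inl (by norm_num)) (by simp) (by simp)
    (by norm_num) a b c (Real.exp_pos _).le d e

theorem ok_xnk {R : ℝ} (hR : 1 ≤ R) (h0 : 0 ≤ κ) (h1 : κ ≤ 1 / 8) :
    (xnk R κ).Ok 10 (Real.exp (-κ)) := by
  obtain ⟨a, b, c, d, e⟩ := omL_props (a := -R) (b := R) (u := 1 / 4) (by linarith) h0 (by linarith)
  obtain ⟨a', _, c', d', e'⟩ :=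
    omR_props (a := -R) (b := R) (u := 1 / 4) (by linarith) h0 (by linarith)
  have r : ∀ r s, ((neck R 0).t s - (neck R 0).t r).re = cl (-R) R s - cl (-R) R r := fun r s => by
    simp [neck]
  have mx : ∀ {E x y x' y' : ℝ}, 0 ≤ E → x ≤ E * x' → y ≤ E * y' → max x y ≤ E * max x' y' :=
    fun hE p q => max_le (p.trans (mul_le_mul_of_nonneg_left (le_max_left _ _) hE))
      (q.trans (mul_le_mul_of_nonneg_left (le_max_right _ _) hE))
  exact { ok_neck (R := R) (ζ := 0) (c := 0) (C := 10) hR le_rfl (by norm_num) (by simp)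
      (by norm_num) with
    oc := a.max a'
    o0 := fun x => (b x).trans (le_max_left _ _)
    o1 := fun x => max_le (c x) (c' x)
    ob := fun r' s h => by
      change _ ≤ Real.exp (1 / 4 * ((neck R 0).t s - (neck R 0).t r').re) * _
      rw [r]; exact mx (Real.exp_pos _).le (d r' s h) (d' r' s h)
    of := fun r' s h => by
      change _ ≤ Real.exp (1 / 4 * ((neck R 0).t s - (neck R 0).t r').re) * _
      rw [r]; exact mx (Real.exp_pos _).le (e r' s h) (e' r' s h) }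

end Crest.Agent.N207.L
end
end

-- ▼ part N207/L/Lp2
section

/-!
Row 207, block L (helper82): the solution on the extended neck, restricted to the collars and to
the neck, solves the collar-neck loop.
-/

set_option autoImplicit false
set_option linter.unusedSectionVars false

open Set Filter Topology Metric

noncomputable section

namespace Crest.Agent.N207.L
open J

variable {ι : Type} [Fintype ι]

/-- data of the outer collar: `q` from the core, `p` from the neck -/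
def dL (y : DD ι) (u : D3 ι) : DD ι := (y.1, u.1)

/-- data of the puncture collar: `q`, `p_0` from the neck, `p_k` from the core -/
def dR (y : DD ι) (u : D3 ι) : DD ι := (u.2.1, u.2.2 + piL kill y.2)

theorem norm_dL_le (y : DD ι) (u : D3 ι) : ‖dL y u‖ ≤ ‖y‖ + ‖u‖ :=
  max_le ((norm_fst_le y).trans (le_add_of_nonneg_right (norm_nonneg _)))
    ((norm_fst_le u).trans (le_add_of_nonneg_left (norm_nonneg _)))

theorem norm_dR_le (y : DD ι) (u : D3 ι) : ‖dR y u‖ ≤ ‖y‖ + ‖u‖ :=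
  max_le (((norm_fst_le u.2).trans (norm_snd_le u)).trans (le_add_of_nonneg_left (norm_nonneg _)))
    ((norm_add_le _ _).trans ((add_le_add ((norm_snd_le u.2).trans (norm_snd_le u))
      ((norm_piL_le norm_kill_le _).trans (norm_snd_le y))).trans_eq (add_comm _ _)))

/-- the collar solutions -/
def SL (N : NL ι) (κ : ℝ) (d : DD ι) : Tr ι := N.sol 10 (Real.exp (-κ)) (colL κ) d
def SR (N : NL ι) (κ : ℝ) (d : DD ι) : Tr ι := N.sol 10 (Real.exp (-κ)) (colR κ) d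

/-- the solution on the extended neck (neck of half length `l`, path `[-(l+3), l+3]`) -/
def XS (N : NL ι) (κ l : ℝ) (y : DD ι) : Tr ι :=
  N.sol 10 (Real.exp (-κ)) (xnk (l + 3) κ) (killB y)

/-- the data sent by the collars to the neck -/
def lpT (N : NL ι) (κ : ℝ) (y : DD ι) (u : D3 ι) : DD ι :=
  (trQ (1 + 3) (SL N κ (dL y u)), piL kill (trP (-4) (SR N κ (dR y u))))

/-- collar coordinate to path coordinate -/
def phL (l x : ℝ) : ℝ := cl 1 (1 + 3) x + -(l + 4)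
def phR (l x : ℝ) : ℝ := cl (-4) (-4 + 3) x + (l + 4)

/-- the collar solutions are the restrictions of the solution on the extended neck -/
structure Idn (N : NL ι) (κ l : ℝ) (y : DD ι) (u : D3 ι) : Prop where
  pL : cmpV ((XS N κ l y).p (xnk (l + 3) κ)) (phL l) = (SL N κ (dL y u)).p (colL κ)
  qL : cmpV ((XS N κ l y).q (xnk (l + 3) κ)) (phL l) = (SL N κ (dL y u)).q (colL κ)
  FL : cmpV ((XS N κ l y).F (xnk (l + 3) κ)) (phL l) = (SL N κ (dL y u)).F (colL κ)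
  pR : cmpV ((XS N κ l y).p (xnk (l + 3) κ)) (phR l) = (SR N κ (dR y u)).p (colR κ)
  qR : cmpV ((XS N κ l y).q (xnk (l + 3) κ)) (phR l) = (SR N κ (dR y u)).q (colR κ)
  FR : cmpV ((XS N κ l y).F (xnk (l + 3) κ)) (phR l) = (SR N κ (dR y u)).F (colR κ)

lemma cl_add (a b c x : ℝ) : cl (a + c) (b + c) (x + c) = cl a b x + c := by
  unfold cl; rw [min_add_add_right, max_add_add_right]

variable {κ R l : ℝ}

lemma omL_mid {a x : ℝ} (h : a + 1 ≤ x) : omL a κ x = Real.exp (-κ) := by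
  rw [omL, cl_of_ge (by linarith) h]; congr 1; ring

lemma omR_mid {b x : ℝ} (h : x ≤ b - 1) : omR b κ x = Real.exp (-κ) := by
  rw [omR, cl_of_le h]; congr 1; ring

lemma omL_left (a : ℝ) : omL a κ a = 1 := by rw [omL, cl_of_le le_rfl]; simp

lemma omR_right (b : ℝ) : omR b κ b = 1 := by rw [omR, cl_of_ge (by linarith) le_rfl]; simp

lemma xnk_w_end (hR : 1 ≤ R) {x : ℝ} (hx : |x| = R) : (xnk R κ).w x = 1 := by
  change Real.exp (5 / 8 * (cl 1 R |x| - R)) = 1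
  rw [hx, cl_of_mem hR le_rfl, sub_self, mul_zero, Real.exp_zero]

lemma xnk_om_left (h0 : 0 ≤ κ) : (xnk R κ).om (-R) = 1 := by
  change max (omL (-R) κ (-R)) (omR R κ (-R)) = 1
  rw [omL_left]
  exact max_eq_left ((omR_props (a := R - 1) (by linarith) h0 le_rfl).2.2.1 _)

lemma xnk_om_right (h0 : 0 ≤ κ) : (xnk R κ).om R = 1 := by
  change max (omL (-R) κ R) (omR R κ R) = 1
  rw [omR_right]
  exact max_eq_right ((omL_props (b := -R + 1) le_rfl h0 le_rfl).2.2.1 _)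

lemma colL_w (x : ℝ) : (colL κ).w x = 1 := by simp [colL, str]
lemma colR_w (x : ℝ) : (colR κ).w x = 1 := by simp [colR, str]

section Res
variable {N : NL ι} {η : ℝ} {p q F : ι → Md}

theorem res_xnk {a b c : ℝ} (hab : a ≤ b) (h1 : -R ≤ a + c) (h2 : b + c ≤ R) {τ : ℝ → ℂ}
    {w om : ℝ → ℝ} (hτ : ∀ x, τ x = ind a b x) (hw : ∀ x, (xnk R κ).w (cl a b x + c) ≤ w x)
    (hom : ∀ x, (xnk R κ).om (cl a b x + c) ≤ om x)
    (h : Sol N (xnk R κ).τ (xnk R κ).w (xnk R κ).om η p q F) :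
    Sol N τ w om η (cmpV p fun x => cl a b x + c) (cmpV q fun x => cl a b x + c)
      (cmpV F fun x => cl a b x + c) := by
  refine h.cmp (κ := 1) ((cl_cont a b).add continuous_const)
    (fun x y hxy => add_le_add_left (cl_mono a b hxy) c) (fun x => (cl_der' hab x).add_const c)
    (fun x => ?_) le_rfl (by simp) (fun x => (Real.exp_pos _).le)
    (fun x => (Real.exp_pos _).le.trans (le_max_left _ _)) (fun x => by simpa using hw x) hom
  rw [hτ]
  change _ = _ * ((ind (-R) R _ : ℂ) + 0 * _)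
  rcases ind_cases a b x with ⟨p1, p2, p3⟩ | ⟨_, p3⟩
  · rw [cl_of_mem p1 p2.le, ind_of_mem (a := -R) (by linarith) (by linarith)]; simp
  · simp [p3]

theorem res_L (hl : 1 ≤ l) (h0 : 0 ≤ κ)
    (h : Sol N (xnk (l + 3) κ).τ (xnk (l + 3) κ).w (xnk (l + 3) κ).om η p q F) :
    Sol N (colL κ).τ (colL κ).w (colL κ).om η (cmpV p (phL l)) (cmpV q (phL l))
      (cmpV F (phL l)) := by
  refine res_xnk (by norm_num) (by linarith) (by linarith) (fun _ => rfl)
    (fun x => (neck_w_le (by linarith) 0 _).trans_eq (colL_w x).symm) (fun x => max_le ?_ ?_) h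
  · change _ ≤ omL 1 κ x
    rw [omL, omL, show -(l + 3) = 1 + -(l + 4) by ring,
      show 1 + -(l + 4) + 1 = 1 + 1 + -(l + 4) by ring, cl_add,
      cl_cl le_rfl (by norm_num) (by norm_num)]
    exact le_of_eq (by congr 1; ring)
  · rw [omR_mid (by linarith [cl_le (show (1 : ℝ) ≤ 1 + 3 by norm_num) x])]
    exact (omL_props (b := 1 + 1) le_rfl h0 le_rfl).2.1 x

theorem res_R (hl : 1 ≤ l) (h0 : 0 ≤ κ)
    (h : Sol N (xnk (l + 3) κ).τ (xnk (l + 3) κ).w (xnk (l + 3) κ).om η p q F) :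
    Sol N (colR κ).τ (colR κ).w (colR κ).om η (cmpV p (phR l)) (cmpV q (phR l))
      (cmpV F (phR l)) := by
  refine res_xnk (by norm_num) (by linarith) (by linarith) (fun _ => rfl)
    (fun x => (neck_w_le (by linarith) 0 _).trans_eq (colR_w x).symm) (fun x => max_le ?_ ?_) h
  · rw [omL_mid (by linarith [le_cl (-4) (-4 + 3) x])]
    exact (omR_props (a := -4) (by norm_num) h0 le_rfl).2.1 x
  · change _ ≤ omR (-4 + 3) κ x
    rw [omR, omR, show l + 3 = -4 + 3 + (l + 4) by ring,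
      show -4 + 3 + (l + 4) - 1 = -4 + 3 - 1 + (l + 4) by ring, cl_add,
      cl_cl (by norm_num) (by norm_num) le_rfl]
    exact le_of_eq (by congr 1; ring)

theorem res_N (hl : 1 ≤ l)
    (h : Sol N (xnk (l + 3) κ).τ (xnk (l + 3) κ).w (xnk (l + 3) κ).om η p q F) :
    Sol N ((neck l 0).omc (Real.exp (-κ))).τ ((neck l 0).omc (Real.exp (-κ))).w
      ((neck l 0).omc (Real.exp (-κ))).om η (cmpV p fun x => cl (-l) l x + 0)
      (cmpV q fun x => cl (-l) l x + 0) (cmpV F fun x => cl (-l) l x + 0) := by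
  have a1 := le_cl (-l) l
  have a2 := cl_le (show -l ≤ l by linarith)
  refine res_xnk (by linarith) (by linarith) (by linarith) (fun x => by simp [Pth.omc, neck])
    (fun x => Real.exp_le_exp.2 ?_) (fun x => max_le ?_ ?_) h
  · have : cl 1 (l + 3) |cl (-l) l x + 0| ≤ cl 1 l |x| := by
      unfold cl
      rw [add_zero]
      refine max_le_max le_rfl ((min_le_left _ _).trans (le_min ?_ ?_))
      · rcases abs_cases x with ⟨e, h⟩ | ⟨e, h⟩ <;> rw [e, abs_le] <;>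
          simp only [max_def, min_def] <;> split_ifs <;> constructor <;> linarith
      · exact abs_le.2 ⟨a1 x, a2 x⟩
    linarith
  · exact (omL_mid (by linarith [a1 x])).le
  · exact (omR_mid (by linarith [a2 x])).le

end Res

theorem trc_of {g om : ℝ → ℝ} {x o : ℝ} (hg : g x = 1) (ho : om x = o) (X : CL) (k : ℕ) :
    trD o (trc x X) k = tru 6 g om X k x := by
  rw [tru_eq, hg, ho]; simp

section Match
variable {N : NL ι} {η : ℝ} {p q F : ι → Md} {y : DD ι}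

lemma nk_w1 {o : ℝ} (hl : 1 ≤ l) {x : ℝ} (hx : |x| = l) : ((neck l 0).omc o).w x = 1 := by
  change Real.exp (5 / 8 * (cl 1 l |x| - l)) = 1
  rw [hx, cl_of_mem hl le_rfl, sub_self, mul_zero, Real.exp_zero]

/-- the data of the restriction to the neck -/
theorem dat_N {o : ℝ} (ho : 0 < o) (l1 : 1 ≤ l) (hd : Dat (xnk (l + 3) κ) p q y.1 (piL kill y.2))
    {v : DD ι} (pv2 : ∀ i, PrpD (v.2 i))
    (dv : Dat ((neck l 0).omc o) (cmpV p fun x => cl (-l) l x + 0)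
      (cmpV q fun x => cl (-l) l x + 0) v.1 v.2) :
    (∀ i k, trD o (v.1 i) k = q i k (-l)) ∧ (∀ i k, k ≠ 0 → trD o (v.2 i) k = p i k l) ∧
      (∀ i, trD o (v.2 i) 0 = 0) ∧ killB v = v := by
  have w1 := nk_w1 (o := o) l1 (x := -l) (by rw [abs_neg, abs_of_nonneg (by linarith)])
  have w2 := nk_w1 (o := o) l1 (x := l) (abs_of_nonneg (by linarith))
  have c1 : cl (-l) l (-l) + 0 = -l := by rw [add_zero, cl_of_le le_rfl]
  have c2 : cl (-l) l l + 0 = l := by rw [add_zero, cl_of_ge (by linarith) le_rfl]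
  have c3 : cl (-l) l 0 + 0 = 0 := by rw [add_zero, cl_of_mem (by linarith) (by linarith)]
  have v3 : ∀ i, trD o (v.2 i) 0 = 0 := fun i => by
    have a : p i 0 (cl (-l) l 0 + 0) = (((neck l 0).omc o).w 0 : ℂ) • trD o (v.2 i) 0 :=
      dv.hp rfl i 0
    have b : p i 0 0 = _ • trD _ (kill (y.2 i)) 0 := hd.hp rfl i 0
    rw [c3, b, trD_kill, if_pos rfl, smul_zero] at a
    exact (smul_eq_zero.1 a.symm).resolve_left (Complex.ofReal_ne_zero.2 (Real.exp_pos _).ne')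
  refine ⟨fun i k => ?_, fun i k hk => ?_, v3, Prod.ext rfl (funext fun i =>
    PrpD.ext ho (pv2 i).kill (pv2 i) fun k => ?_)⟩
  · have : q i k (cl (-l) l (-l) + 0) = (((neck l 0).omc o).w (-l) : ℂ) • trD o (v.1 i) k :=
      dv.hq i k
    rw [c1, w1] at this; simpa using this.symm
  · have := dv.hp rfl i k
    rw [Pth.pt, if_neg hk] at this
    change p i k (cl (-l) l l + 0) = (((neck l 0).omc o).w l : ℂ) • trD o (v.2 i) k at this
    rw [c2, w2] at this; simpa using this.symm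
  · change trD o (kill (v.2 i)) k = _
    rw [trD_kill]; split_ifs with hk
    · rw [hk, v3]
    · rfl

lemma phL_a (l : ℝ) : phL l 1 = -(l + 3) := by rw [phL, cl_of_le le_rfl]; ring
lemma phL_b (l : ℝ) : phL l (1 + 3) = -l := by rw [phL, cl_of_ge (by norm_num) le_rfl]; ring
lemma phR_a (l : ℝ) : phR l (-4) = l := by rw [phR, cl_of_le le_rfl]; ring
lemma phR_b (l : ℝ) : phR l (-4 + 3) = l + 3 := by rw [phR, cl_of_ge (by norm_num) le_rfl]; ring
lemma colL_om : (colL κ).om (1 + 3) = Real.exp (-κ) := omL_mid (by norm_num)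
lemma colR_om : (colR κ).om (-4) = Real.exp (-κ) := omR_mid (by norm_num)

theorem dat_L (h0 : 0 ≤ κ) (l1 : 1 ≤ l) (hd : Dat (xnk (l + 3) κ) p q y.1 (piL kill y.2))
    {B : ι → D} (hB : ∀ i k, trD (Real.exp (-κ)) (B i) k = p i k (-l)) :
    Dat (colL κ) (cmpV p (phL l)) (cmpV q (phL l)) y.1 B := by
  refine ⟨fun i k => ?_, fun _ i k => ?_⟩
  · have : q i k (-(l + 3)) = ((xnk (l + 3) κ).w (-(l + 3)) : ℂ) •
        trD ((xnk (l + 3) κ).om (-(l + 3))) (y.1 i) k := hd.hq i k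
    change q i k (phL l 1) = ((colL κ).w 1 : ℂ) • trD (omL 1 κ 1) (y.1 i) k
    rw [phL_a, this, xnk_om_left h0, omL_left, colL_w,
      xnk_w_end (by linarith) (by rw [abs_neg, abs_of_nonneg (by linarith)])]
  · have e : (colL κ).pt k = 1 + 3 := by unfold Pth.pt; split_ifs <;> rfl
    rw [e]
    change p i k (phL l (1 + 3)) = _ • trD ((colL κ).om (1 + 3)) (B i) k
    rw [phL_b, colL_om, hB, colL_w]; simp

theorem dat_R (h0 : 0 ≤ κ) (l1 : 1 ≤ l) (hd : Dat (xnk (l + 3) κ) p q y.1 (piL kill y.2))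
    {A B : ι → D} (hA : ∀ i k, trD (Real.exp (-κ)) (A i) k = q i k l)
    (hB : ∀ i, trD (Real.exp (-κ)) (B i) 0 = p i 0 l) :
    Dat (colR κ) (cmpV p (phR l)) (cmpV q (phR l)) A (piL keep B + piL kill y.2) := by
  refine ⟨fun i k => ?_, fun _ i k => ?_⟩
  · change q i k (phR l (-4)) = ((colR κ).w (-4) : ℂ) • trD ((colR κ).om (-4)) (A i) k
    rw [phR_a, colR_om, hA, colR_w]; simp
  · change p i k (phR l ((colR κ).pt k)) =
      _ • trD (omR (-4 + 3) κ (-4 + 3)) (keep (B i) + kill (y.2 i)) k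
    rw [colR_w, omR_right, trD_add, trD_keep, trD_kill, Pth.pt]
    split_ifs with hk
    · subst hk
      change p i 0 (phR l (-4)) = _
      rw [phR_a, trD_mode0 1 (Real.exp (-κ)), hB]; simp
    · have := hd.hp rfl i k
      rw [Pth.pt, if_neg hk] at this
      change p i k (l + 3) = ((xnk (l + 3) κ).w (l + 3) : ℂ) •
        trD ((xnk (l + 3) κ).om (l + 3)) (kill (y.2 i)) k at this
      change p i k (phR l (-4 + 3)) = _
      rw [phR_b, this, xnk_om_right h0, trD_kill, if_neg hk,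
        xnk_w_end (by linarith) (abs_of_nonneg (by linarith))]; simp

/-- the neck map at the data of the restriction -/
theorem neck_out {ε K R0 : ℝ} {Nm : ℂ → DD ι → D3 ι} (h : Neck N (Real.exp (-κ)) ε K R0 Nm)
    (h0 : 0 ≤ κ) (hK : 1 ≤ K) (hR : 1 ≤ R0) (hl : R0 < l) (hη0 : 0 ≤ η) (hε : η < ε)
    (hη : K * η ≤ N.eta 10 (Real.exp (-κ)))
    (hs : Sol N (xnk (l + 3) κ).τ (xnk (l + 3) κ).w (xnk (l + 3) κ).om η p q F)
    (hd : Dat (xnk (l + 3) κ) p q y.1 (piL kill y.2)) :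
    ∃ (v : DD ι) (u : D3 ι), Nm l v = u ∧ ‖v‖ ≤ η ∧ ‖u‖ ≤ K * η ∧ (∀ i, PrpD (v.1 i)) ∧
      (∀ i, PrpD (v.2 i)) ∧ (∀ i k, trD (Real.exp (-κ)) (v.1 i) k = q i k (-l)) ∧
      (∀ i k, k ≠ 0 → trD (Real.exp (-κ)) (v.2 i) k = p i k l) ∧
      (∀ i, trD (Real.exp (-κ)) (v.2 i) 0 = 0) ∧
      (∀ i k, trD (Real.exp (-κ)) (u.1 i) k = p i k (-l)) ∧
      (∀ i k, trD (Real.exp (-κ)) (u.2.1 i) k = q i k l) ∧
      ∀ i k, trD (Real.exp (-κ)) (u.2.2 i) k = p i k l := by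
  have ho : 0 < Real.exp (-κ) := Real.exp_pos _
  have l1 : 1 ≤ l := by linarith
  have okN := ok_nk l1 ho.le (Real.exp_le_one_iff.2 (by linarith))
  have hN := res_N l1 hs
  obtain ⟨v, hv, pv1, pv2, dv⟩ := hN.exists_dat okN ho hη0
  obtain ⟨v1, v2, v3, kv⟩ := dat_N ho l1 hd pv2 dv
  obtain ⟨S, hS, eS⟩ := h.real l hl v (mem_ball_zero_iff.2 (hv.trans_lt hε))
  rw [kv] at hS
  have Kv : K * ‖v‖ ≤ K * η := mul_le_mul_of_nonneg_left hv (by linarith)
  obtain ⟨ep, eq, -⟩ := N.uniq 10 ho _ okN _ _ _ _ _ _ v.1 v.2 (hS.sol.mono (Kv.trans hη))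
    (hN.mono ((le_mul_of_one_le_left hη0 hK).trans hη)) hS.dat dv
  have w1 := nk_w1 (o := Real.exp (-κ)) l1 (x := -l) (by rw [abs_neg, abs_of_nonneg (by linarith)])
  have w2 := nk_w1 (o := Real.exp (-κ)) l1 (x := l) (abs_of_nonneg (by linarith))
  have c1 : cl (-l) l (-l) + 0 = -l := by rw [add_zero, cl_of_le le_rfl]
  have c2 : cl (-l) l l + 0 = l := by rw [add_zero, cl_of_ge (by linarith) le_rfl]
  refine ⟨v, _, eS, hv, (norm_outL_le _ _ _).trans (hS.le.trans Kv), pv1, pv2, v1, v2, v3,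
    fun i k => ?_, fun i k => ?_, fun i k => ?_⟩
  · exact ((trc_of w1 rfl _ k).trans (congrFun (congrFun (congrFun ep i) k) _)).trans
      (congrArg (p i k) c1)
  · exact ((trc_of w2 rfl _ k).trans (congrFun (congrFun (congrFun eq i) k) _)).trans
      (congrArg (q i k) c2)
  · exact ((trc_of w2 rfl _ k).trans (congrFun (congrFun (congrFun ep i) k) _)).trans
      (congrArg (p i k) c2)

theorem lp_fix {S S' : Tr ι} {v : DD ι} (a2 : cmpV q (phL l) = S.q (colL κ))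
    (b1 : cmpV p (phR l) = S'.p (colR κ)) (pv1 : ∀ i, PrpD (v.1 i)) (pv2 : ∀ i, PrpD (v.2 i))
    (v1 : ∀ i k, trD (Real.exp (-κ)) (v.1 i) k = q i k (-l))
    (v2 : ∀ i k, k ≠ 0 → trD (Real.exp (-κ)) (v.2 i) k = p i k l)
    (v3 : ∀ i, trD (Real.exp (-κ)) (v.2 i) 0 = 0) :
    (trQ (1 + 3) S, piL kill (trP (-4) S')) = v := by
  have ho : 0 < Real.exp (-κ) := Real.exp_pos _
  refine Prod.ext (funext fun i => ?_) (funext fun i => ?_)
  · refine PrpD.ext ho (prp_trc _ _) (pv1 i) fun k => ?_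
    rw [v1]
    exact ((trc_of (colL_w _) colL_om _ k).trans
      (congrFun (congrFun (congrFun a2 i) k) _).symm).trans (congrArg (q i k) (phL_b l))
  · refine PrpD.ext ho (prp_trc _ _).kill (pv2 i) fun k => ?_
    change trD _ (kill _) k = _
    rw [trD_kill]; split_ifs with hk
    · rw [hk, v3]
    · rw [v2 i k hk]
      exact ((trc_of (colR_w _) colR_om _ k).trans
        (congrFun (congrFun (congrFun b1 i) k) _).symm).trans (congrArg (p i k) (phR_a l))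

end Match

theorem XS_sol {N : NL ι} (h0 : 0 ≤ κ) (h1 : κ ≤ 1 / 8) (hl : 1 ≤ l) {y : DD ι}
    (hy : ‖y‖ ≤ N.eta 10 (Real.exp (-κ))) :
    Sol N (xnk (l + 3) κ).τ (xnk (l + 3) κ).w (xnk (l + 3) κ).om (2 * ‖y‖)
      ((XS N κ l y).p (xnk (l + 3) κ)) ((XS N κ l y).q (xnk (l + 3) κ))
      ((XS N κ l y).F (xnk (l + 3) κ)) :=
  (NL.sol_sol (ok_xnk (by linarith) h0 h1) (Real.exp_pos _) ((norm_killB_le y).trans hy)).mono
    (by linarith [norm_killB_le y])

theorem XS_dat (N : NL ι) (h0 : 0 ≤ κ) (h1 : κ ≤ 1 / 8) (hl : 1 ≤ l) (y : DD ι) :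
    Dat (xnk (l + 3) κ) ((XS N κ l y).p (xnk (l + 3) κ)) ((XS N κ l y).q (xnk (l + 3) κ)) y.1
      (piL kill y.2) :=
  N.sol_dat (ok_xnk (by linarith) h0 h1) (Real.exp_pos _) (killB y)

/-- **the loop is solved by the traces of the solution on the extended neck** -/
theorem xnk_match {N : NL ι} {ε K R0 : ℝ} {Nm : ℂ → DD ι → D3 ι}
    (h : Neck N (Real.exp (-κ)) ε K R0 Nm) (h0 : 0 ≤ κ) (h1 : κ ≤ 1 / 8) (hK : 1 ≤ K)
    (hR : 1 ≤ R0) (hl : R0 < l) {y : DD ι} (hε : 2 * ‖y‖ < ε)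
    (hη : 3 * K * ‖y‖ ≤ N.eta 10 (Real.exp (-κ))) :
    ∃ v : DD ι, ‖v‖ ≤ 2 * ‖y‖ ∧ lpT N κ y (inL (Nm l v)) = v ∧ Idn N κ l y (inL (Nm l v)) := by
  have ho : 0 < Real.exp (-κ) := Real.exp_pos _
  have l1 : 1 ≤ l := by linarith
  have y0 := norm_nonneg y
  have yK : ‖y‖ ≤ K * ‖y‖ := le_mul_of_one_le_left y0 hK
  have hs := XS_sol (N := N) h0 h1 l1 (y := y) (by linarith)
  have hd := XS_dat N h0 h1 l1 y
  obtain ⟨v, u, e, hv, hu, pv1, pv2, v1, v2, v3, u1, u2, u3⟩ :=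
    neck_out h h0 hK hR hl (by positivity) hε (by linarith) hs hd
  have nu := (norm_inL_le u).trans hu
  obtain ⟨a1, a2, a3⟩ := (res_L l1 h0 hs).eq_sol (v := dL y (inL u)) (fam_colL h0 h1).base ho
    (by linarith) (dat_L h0 l1 hd u1) ((norm_dL_le _ _).trans (by linarith))
  obtain ⟨b1, b2, b3⟩ := (res_R l1 h0 hs).eq_sol (v := dR y (inL u)) (fam_colR h0 h1).base ho
    (by linarith) (dat_R h0 l1 hd u2 fun i => u3 i 0) ((norm_dR_le _ _).trans (by linarith))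
  refine ⟨v, hv, ?_⟩
  rw [e]
  exact ⟨lp_fix a2 b1 pv1 pv2 v1 v2 v3, a1, a2, a3, b1, b2, b3⟩

end Crest.Agent.N207.L
end
end

-- ▼ part N207/L/Lp3

/-!
Row 207, block L (helper82): the collar-neck loop, holomorphic in the neck map and the core data.
-/

set_option autoImplicit false
set_option linter.unusedSectionVars false

open Set Filter Topology Metric

noncomputable section

namespace Crest.Agent.N207.L
open J Crest.Agent.N250.H

variable {ι : Type} [Fintype ι] {N : NL ι} {κ ε K R0 : ℝ} {Nm : ℂ → DD ι → D3 ι}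

/-- `u (n, y)` = what the neck `n` sends into the collars when the cores send `y` -/
structure Loop (N : NL ι) (κ ε R0 : ℝ) (Nm : ℂ → DD ι → D3 ι) (n0 : HN ι ε) (ε' C : ℝ)
    (u : HN ι ε × DD ι → D3 ι) : Prop where
  diff : DifferentiableOn ℂ u (ball (n0, 0) ε')
  le : ∀ z ∈ ball ((n0, 0) : HN ι ε × DD ι) ε', ‖u z‖ ≤ C * (‖z.2‖ ^ 2 + ‖z.1 - n0‖)
  eta : ∀ z ∈ ball ((n0, 0) : HN ι ε × DD ι) ε', ‖z.2‖ + ‖u z‖ < N.eta 10 (Real.exp (-κ))
  keep : ∀ z, piL keep (u z).2.2 = (u z).2.2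
  real : ∀ l : ℝ, R0 < l → ∀ z ∈ ball ((n0, 0) : HN ι ε × DD ι) ε',
    (∀ v ∈ ball (0 : DD ι) ε, z.1.val v = Nm l v) → Idn N κ l z.2 (u z)

theorem Loop.mono {n0 : HN ι ε} {ε' ε'' C : ℝ} {u : HN ι ε × DD ι → D3 ι}
    (h : Loop N κ ε R0 Nm n0 ε' C u) (he : ε'' ≤ ε') : Loop N κ ε R0 Nm n0 ε'' C u :=
  ⟨h.diff.mono (ball_subset_ball he), fun z hz => h.le z (ball_subset_ball he hz),
    fun z hz => h.eta z (ball_subset_ball he hz), h.keep,
    fun l hl z hz => h.real l hl z (ball_subset_ball he hz)⟩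

theorem keep_keep (A : D) : keep (keep A) = keep A := CL.ext fun k => by
  rw [keep_apply, keep_apply]; split_ifs <;> rfl

theorem norm_lpT_le (h0 : 0 ≤ κ) (h1 : κ ≤ 1 / 8) {y : DD ι} {u : D3 ι}
    (h : ‖y‖ + ‖u‖ ≤ N.eta 10 (Real.exp (-κ))) : ‖lpT N κ y u‖ ≤ 2 * (‖y‖ + ‖u‖) := by
  have a := norm_dL_le y u
  have b := norm_dR_le y u
  refine max_le ((norm_trQ_le _ _).trans ?_)
    ((norm_piL_le norm_kill_le _).trans ((norm_trP_le _ _).trans ?_))
  · exact (NL.norm_sol (fam_colL h0 h1).base (Real.exp_pos _) (a.trans h)).trans (by linarith)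
  · exact (NL.norm_sol (fam_colR h0 h1).base (Real.exp_pos _) (b.trans h)).trans (by linarith)

section
variable {Z : Type*} [NormedAddCommGroup Z] [NormedSpace ℂ Z] {y : Z → DD ι} {u : Z → D3 ι}
  {W : Set Z}

theorem diffOn_dL (hy : DifferentiableOn ℂ y W) (hu : DifferentiableOn ℂ u W) :
    DifferentiableOn ℂ (fun z => dL (y z) (u z)) W := hy.fst.prodMk hu.fst

theorem diffOn_dR (hy : DifferentiableOn ℂ y W) (hu : DifferentiableOn ℂ u W) :
    DifferentiableOn ℂ (fun z => dR (y z) (u z)) W :=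
  hu.snd.fst.prodMk (hu.snd.snd.add ((piL kill).differentiable.comp_differentiableOn hy.snd))

theorem diffOn_SL (h0 : 0 ≤ κ) (h1 : κ ≤ 1 / 8) (hy : DifferentiableOn ℂ y W)
    (hu : DifferentiableOn ℂ u W) (h : ∀ z ∈ W, ‖y z‖ + ‖u z‖ < N.eta 10 (Real.exp (-κ))) :
    DifferentiableOn ℂ (fun z => SL N κ (dL (y z) (u z))) W :=
  ((fam_colL h0 h1).base.diff_sol (Real.exp_pos _) N).comp (diffOn_dL hy hu) fun z hz =>
    mem_ball_zero_iff.2 ((norm_dL_le _ _).trans_lt (h z hz))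

theorem diffOn_SR (h0 : 0 ≤ κ) (h1 : κ ≤ 1 / 8) (hy : DifferentiableOn ℂ y W)
    (hu : DifferentiableOn ℂ u W) (h : ∀ z ∈ W, ‖y z‖ + ‖u z‖ < N.eta 10 (Real.exp (-κ))) :
    DifferentiableOn ℂ (fun z => SR N κ (dR (y z) (u z))) W :=
  ((fam_colR h0 h1).base.diff_sol (Real.exp_pos _) N).comp (diffOn_dR hy hu) fun z hz =>
    mem_ball_zero_iff.2 ((norm_dR_le _ _).trans_lt (h z hz))

theorem diffOn_lpT (h0 : 0 ≤ κ) (h1 : κ ≤ 1 / 8) (hy : DifferentiableOn ℂ y W)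
    (hu : DifferentiableOn ℂ u W) (h : ∀ z ∈ W, ‖y z‖ + ‖u z‖ < N.eta 10 (Real.exp (-κ))) :
    DifferentiableOn ℂ (fun z => lpT N κ (y z) (u z)) W :=
  ((trQ (1 + 3)).differentiable.comp_differentiableOn (diffOn_SL h0 h1 hy hu h)).prodMk
    ((piL kill).differentiable.comp_differentiableOn
      ((trP (-4)).differentiable.comp_differentiableOn (diffOn_SR h0 h1 hy hu h)))

end

theorem mem_ball_pr {E E' : Type*} [NormedAddCommGroup E] [NormedAddCommGroup E'] {n0 : E}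
    {r : ℝ} {z : E × E'} (hz : z ∈ ball ((n0, 0) : E × E') r) : ‖z.1 - n0‖ < r ∧ ‖z.2‖ < r := by
  rw [← ball_prod_same] at hz
  exact ⟨mem_ball_iff_norm.1 hz.1, mem_ball_zero_iff.1 hz.2⟩

theorem lp_num {K' a d x u : ℝ} (hK' : 0 ≤ K') (b0 : 0 ≤ a) (b1 : 0 ≤ d) (b2 : 0 ≤ x) (b3 : d ≤ 1)
    (a1 : u ≤ K' * x ^ 2 + d) (a2 : K' * x ^ 2 ≤ x / 32) (a3 : x ≤ 2 * (a + u)) :
    u ≤ (18 * K' + 1) * (a ^ 2 + d) := by
  have a5 : x ≤ 3 * (a + d) := by linarith
  have a6 : x ^ 2 ≤ 18 * (a ^ 2 + d) := by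
    refine (pow_le_pow_left₀ b2 a5 2).trans ?_
    nlinarith [sq_nonneg (a - d)]
  have := mul_le_mul_of_nonneg_left a6 hK'
  nlinarith [sq_nonneg a]

theorem lp_num2 {K' s x : ℝ} (hK' : 0 ≤ K') (s3 : (K' + 1) * s ≤ 1 / 32) (b : 0 ≤ x) (a : x < s) :
    K' * x ^ 2 ≤ x / 32 := by
  have : K' * x ≤ 1 / 32 := by nlinarith
  nlinarith

/-- **the loop** -/
theorem loop (h : Neck N (Real.exp (-κ)) ε K R0 Nm) (h0 : 0 ≤ κ) (h1 : κ ≤ 1 / 8) (hK : 1 ≤ K)
    (hR : 1 ≤ R0) (hε : 0 < ε) (n0 : HN ι ε) {K' : ℝ} (hK' : 0 ≤ K')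
    (hq : ∀ v ∈ ball (0 : DD ι) ε, ‖inL (n0.val v)‖ ≤ K' * ‖v‖ ^ 2) :
    ∃ (ε' C : ℝ) (u : HN ι ε × DD ι → D3 ι), 0 < ε' ∧ 0 < C ∧ Loop N κ ε R0 Nm n0 ε' C u := by
  have hη : 0 < N.eta 10 (Real.exp (-κ)) := N.eta_pos (fam_colL h0 h1).base (Real.exp_pos _)
  obtain ⟨s, s0, s1, s2, s3⟩ : ∃ s : ℝ, 0 < s ∧ s ≤ ε ∧ s ≤ N.eta 10 (Real.exp (-κ)) ∧
      (K' + 1) * s ≤ 1 / 32 := by
    refine ⟨min (min ε (N.eta 10 (Real.exp (-κ)))) (1 / 32 / (K' + 1)), by positivity,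
      (min_le_left _ _).trans (min_le_left _ _), (min_le_left _ _).trans (min_le_right _ _), ?_⟩
    rw [← le_div_iff₀' (by positivity)]
    exact min_le_right _ _
  obtain ⟨e, e0, e1⟩ : ∃ e : ℝ, 0 < e ∧ K * e = s / 64 :=
    ⟨s / 64 / K, by positivity, by field_simp⟩
  have e2 : e ≤ s / 64 := e1 ▸ le_mul_of_one_le_left e0.le hK
  have e3 : s / 64 ≤ 1 := by nlinarith
  have hU : ∀ (n : HN ι ε), ∀ v ∈ ball (0 : DD ι) s,
      ‖inL (n.val v)‖ ≤ K' * ‖v‖ ^ 2 + ‖n - n0‖ := fun n v hv => by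
    have e : n.val v = n0.val v + (n - n0).val v := by simp
    rw [e, map_add]
    exact (norm_add_le _ _).trans (add_le_add (hq v (ball_subset_ball s1 hv))
      ((norm_inL_le _).trans (Hinf.le _ v)))
  have hv2 : ∀ v ∈ ball (0 : DD ι) s, K' * ‖v‖ ^ 2 ≤ ‖v‖ / 32 := fun v hv =>
    lp_num2 hK' s3 (norm_nonneg v) (mem_ball_zero_iff.1 hv)
  have hS : ∀ z ∈ ball ((n0, 0) : HN ι ε × DD ι) e, ∀ v ∈ ball (0 : DD ι) s,
      ‖z.2‖ + ‖inL (z.1.val v)‖ ≤ s / 16 := fun z hz v hv => by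
    linarith [hU z.1 v hv, hv2 v hv, (mem_ball_pr hz).2, mem_ball_zero_iff.1 hv,
      (mem_ball_pr hz).1]
  have dU : DifferentiableOn ℂ (fun p : (HN ι ε × DD ι) × DD ι => inL (p.1.1.val p.2))
      (ball (n0, 0) e ×ˢ ball 0 s) :=
    inL.differentiable.comp_differentiableOn (Hinf.diffOn_val differentiableOn_fst.fst
      differentiableOn_snd fun _ hp => ball_subset_ball s1 hp.2)
  have dT := diffOn_lpT (N := N) h0 h1 differentiableOn_fst.snd dU fun p hp =>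
    (hS _ hp.1 _ hp.2).trans_lt (by linarith)
  have cb : closedBall (0 : DD ι) (s / 2) ⊆ ball 0 s := closedBall_subset_ball (by linarith)
  have hC : ∀ z ∈ ball ((n0, 0) : HN ι ε × DD ι) e,
      Ctr (fun v => lpT N κ z.2 (inL (z.1.val v))) (closedBall 0 (s / 2))
        (2 * (s / 8) / (s / 2)) := fun z hz => by
    refine ctr_of_small (by linarith) ?_ (fun v hv => ?_) (by linarith)
    · rw [add_halves]
      exact dT.comp (f := fun v => (z, v)) (by fun_prop) fun v hv => ⟨hz, hv⟩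
    · rw [add_halves] at hv
      rw [sub_zero]
      have := hS z hz v hv
      exact (norm_lpT_le h0 h1 (by linarith)).trans (by linarith)
  have k1 : 2 * (s / 8) / (s / 2) = 1 / 2 := by field_simp; norm_num
  rw [k1] at hC
  obtain ⟨x, dx, hx⟩ := exists_fix_hol (T := fun (z : HN ι ε × DD ι) v =>
    lpT N κ z.2 (inL (z.1.val v))) isOpen_ball (by norm_num) (by norm_num) (by linarith) hC
    (fun z hz v hv => (⟨hz, cb hv⟩ : (z, v) ∈ ball (n0, 0) e ×ˢ ball 0 s)) dT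
  refine ⟨e, 18 * K' + 1, fun z => inL (z.1.val (x z)), e0, by positivity,
    dU.comp (f := fun z => (z, x z)) (differentiableOn_id.prodMk dx)
      fun z hz => ⟨hz, cb (hx z hz).1⟩, fun z hz => ?_,
    fun z hz => (hS z hz _ (cb (hx z hz).1)).trans_lt (by linarith),
    fun z => funext fun i => keep_keep _, fun l hl z hz hn => ?_⟩
  · have xb := cb (hx z hz).1
    have a1 := hU z.1 _ xb
    have a2 := hv2 _ xb
    have a3 := norm_lpT_le (N := N) h0 h1 ((hS z hz _ xb).trans (by linarith))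
    have a4 : lpT N κ z.2 (inL (z.1.val (x z))) = x z := (hx z hz).2
    rw [a4] at a3
    exact lp_num hK' (norm_nonneg _) (norm_nonneg _) (norm_nonneg _)
      ((mem_ball_pr hz).1.le.trans (e2.trans e3)) a1 a2 a3
  · have b0 := norm_nonneg z.2
    have b2 := (mem_ball_pr hz).2
    have b3 : K * ‖z.2‖ ≤ s / 64 := e1 ▸ mul_le_mul_of_nonneg_left b2.le (by linarith)
    obtain ⟨v, hv, fx, id⟩ := xnk_match h h0 h1 hK hR hl (y := z.2) (by linarith) (by linarith)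
    have vb : v ∈ closedBall (0 : DD ι) (s / 2) := mem_closedBall_zero_iff.2 (by linarith)
    rw [← hn v (ball_subset_ball s1 (cb vb))] at fx id
    have : x z = v := (hC z hz).uniq (by norm_num) (hx z hz).1 vb (hx z hz).2 fx
    subst this
    exact id

/-- **class of the neck map and the loop**, all in one -/
theorem neck_loop (hN : NeckStmt N) (h0 : 0 ≤ κ) (h1 : κ ≤ 1 / 8) :
    ∃ (ε R0 Cd ε' C : ℝ) (Nm : ℂ → DD ι → D3 ι) (co : ℕ → ℕ → HN ι ε)
      (u : HN ι ε × DD ι → D3 ι), 1 ≤ R0 ∧ 0 < ε' ∧ 0 < C ∧ Dul Cd (nH ε Nm) co ∧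
      Loop N κ ε R0 Nm (co 0 0) ε' C u ∧ ∃ L0 : ℝ, ∀ l : ℝ, L0 ≤ l → ∀ y : DD ι,
        (nH ε Nm ((2 * l : ℝ) : ℂ), y) ∈ ball ((co 0 0, 0) : HN ι ε × DD ι) ε' →
        1 ≤ l ∧ Idn N κ l y (u (nH ε Nm ((2 * l : ℝ) : ℂ), y)) := by
  have ho := Real.exp_pos (-κ)
  have ho1 : Real.exp (-κ) ≤ 1 := Real.exp_le_one_iff.2 (by linarith)
  obtain ⟨ε, K, R0, Nm, hε, hK, hR, h⟩ := hN _ ho ho1
  have K0 : 0 ≤ K := by linarith
  obtain ⟨Cd, co, -, -, hD, ht, -⟩ := h.dul K0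
  obtain ⟨ε', C, u, e0, C0, hL⟩ := loop h h0 h1 hK hR hε (co 0 0) (K' := 160 * K) (by positivity)
    fun v hv => h.quad ho ho1 K0 hv (ht v hv)
  refine ⟨ε, R0, Cd, ε', C, Nm, co, u, hR, e0, C0, hD, hL, R0 + 1, fun l hl y hy =>
    ⟨by linarith, hL.real l (by linarith) _ hy fun v hv => ?_⟩⟩
  have e : ((2 * l : ℝ) : ℂ) / 2 = l := by push_cast; ring
  have hW : ((2 * l : ℝ) : ℂ) / 2 ∈ Wd R0 1 (1 / 8) := by
    rw [e]
    exact ⟨by simpa using (by linarith : R0 < l), by simpa using Real.exp_pos _⟩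
  rw [h.val_nH K0 hW hv, e]

end Crest.Agent.N207.L
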