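import Crest.Agent.N207.L.Defs
import Crest.Agent.N207.J.As2

/-! # N207/L/Tru (helper59): stored elements and true mode families -/

set_option autoImplicit false
set_option linter.unusedSectionVars false
set_option maxHeartbeats 400000
open Set Filter Topology MeasureTheory BoundedContinuousFunction

noncomputable section

namespace Crest.Agent.N207.L
open J

variable {σ : ℕ} {g g' om om' : ℝ → ℝ} {f : Md} {η η' : ℝ}

/-- proper stored elements -/
def Prp (X : CL) : Prop := ∀ k x, P k (X k x) = X k x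

/-- proper amplitudes -/
def PrpD (A : D) : Prop := ∀ k, P k (A k) = A k

theorem P_tru (X : CL) (k : ℕ) (x : ℝ) : P k (tru σ g om X k x) = tru σ g om X k x := by
  simp only [tru, map_smul, P_P]


theorem cont_tru (hg : Continuous g) (ho : Continuous om) (X : CL) (k : ℕ) :
    Continuous (tru σ g om X k) := by
  have := (X k).continuous
  unfold tru
  fun_prop

theorem tru_add (X Y : CL) (k : ℕ) (x : ℝ) :
    tru σ g om (X + Y) k x = tru σ g om X k x + tru σ g om Y k x := by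
  simp [tru]

theorem tru_sub (X Y : CL) (k : ℕ) (x : ℝ) :
    tru σ g om (X - Y) k x = tru σ g om X k x - tru σ g om Y k x := by
  simp [tru, smul_sub]

theorem tru_smul (c : ℂ) (X : CL) (k : ℕ) (x : ℝ) :
    tru σ g om (c • X) k x = c • tru σ g om X k x := by
  simp only [tru, lp.coeFn_smul, Pi.smul_apply, coe_smul, map_smul, smul_comm c]

theorem trD_add (o : ℝ) (A B : D) (k : ℕ) : trD o (A + B) k = trD o A k + trD o B k := by
  simp [trD]


theorem trD_smul (o : ℝ) (c : ℂ) (A : D) (k : ℕ) : trD o (c • A) k = c • trD o A k := by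
  simp only [trD, lp.coeFn_smul, Pi.smul_apply, map_smul, smul_comm c]


theorem trD_mode0 (o o' : ℝ) (A : D) : trD o A 0 = trD o' A 0 := by simp [trD]

theorem trD_eq_iff {o : ℝ} (ho : 0 < o) {A B : D} {k : ℕ} :
    trD o A k = trD o B k ↔ P k (A k) = P k (B k) := by
  have := wt_pos (6 : ℕ) k
  refine smul_right_inj ?_
  exact Complex.ofReal_ne_zero.2 (by positivity)

theorem PrpD.ext {o : ℝ} (ho : 0 < o) {A B : D} (hA : PrpD A) (hB : PrpD B)
    (h : ∀ k, trD o A k = trD o B k) : A = B :=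
  CL.ext fun k => by rw [← hA k, ← hB k]; exact (trD_eq_iff ho).1 (h k)

theorem tru_eq_iff (g0 : ∀ x, 0 < g x) (o0 : ∀ x, 0 < om x) {X Y : CL} {k : ℕ} {x : ℝ} :
    tru σ g om X k x = tru σ g om Y k x ↔ P k (X k x) = P k (Y k x) := by
  have := wt_pos σ k
  have := g0 x
  have := o0 x
  refine smul_right_inj ?_
  exact Complex.ofReal_ne_zero.2 (by positivity)

theorem Prp.ext (g0 : ∀ x, 0 < g x) (o0 : ∀ x, 0 < om x) {X Y : CL} (hX : Prp X) (hY : Prp Y)
    (h : tru σ g om X = tru σ g om Y) : X = Y :=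
  CL.ext fun k => BoundedContinuousFunction.ext fun x => by
    rw [← hX k, ← hY k]; exact (tru_eq_iff g0 o0).1 (congrFun (congrFun h k) x)

theorem bd_tru (hg : Continuous g) (g0 : ∀ x, 0 ≤ g x) (ho : Continuous om) (o0 : ∀ x, 0 ≤ om x)
    (X : CL) : Bd σ g om (tru σ g om X) ‖X‖ where
  nn := norm_nonneg _
  mode := P_tru X
  cont := cont_tru hg ho X
  bd := ⟨fun k => ‖X k‖, lp_sum_sq_le X, fun k x => by
    have h1 := wt_pos σ k
    have := g0 x
    have := o0 x
    have h2 : ‖P k (X k x)‖ ≤ ‖X k‖ := (norm_P_le _ _).trans ((X k).norm_coe_le_norm x)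
    rw [tru, norm_smul, Complex.norm_real, Real.norm_of_nonneg (by positivity), ← mul_assoc,
      mul_div_cancel₀ _ h1.ne', mul_comm]
    gcongr⟩

theorem exists_bh (u : ℝ → H) (hu : Continuous u) {c : ℝ} (hc : 0 ≤ c) (hb : ∀ x, ‖u x‖ ≤ c) :
    ∃ v : BH, ‖v‖ ≤ c ∧ ∀ x, v x = u x :=
  ⟨ofNormedAddCommGroup u hu c hb, norm_ofNormedAddCommGroup_le hu hc hb, fun _ => rfl⟩

theorem Bd.exists (h : Bd σ g om f η) (hg : Continuous g) (g0 : ∀ x, 0 < g x)
    (ho : Continuous om) (o0 : ∀ x, 0 < om x) :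
    ∃ X : CL, ‖X‖ ≤ η ∧ Prp X ∧ tru σ g om X = f := by
  obtain ⟨c, hc, hb⟩ := h.bd
  have hp : ∀ k x, 0 < g x * om x ^ k := fun k x => mul_pos (g0 x) (pow_pos (o0 x) k)
  have hc0 : ∀ k, 0 ≤ c k := fun k => nonneg_of_mul_nonneg_left
    ((mul_nonneg (wt_pos σ k).le (norm_nonneg _)).trans (hb k 0)) (hp k 0)
  have hb' : ∀ k x, ‖((wt σ k / (g x * om x ^ k) : ℝ) : ℂ) • f k x‖ ≤ c k := fun k x => by
    have := wt_pos σ k
    have := hp k x
    rw [norm_smul, Complex.norm_real, Real.norm_of_nonneg (by positivity), div_mul_eq_mul_div,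
      div_le_iff₀ this]
    exact hb k x
  have hex : ∀ k, ∃ u : BH, ‖u‖ ≤ c k ∧
      ∀ x, u x = ((wt σ k / (g x * om x ^ k) : ℝ) : ℂ) • f k x := fun k => by
    refine exists_bh _ ?_ (hc0 k) (hb' k)
    refine Continuous.smul (Complex.continuous_ofReal.comp ?_) (h.cont k)
    exact continuous_const.div (by fun_prop) fun x => (hp k x).ne'
  choose X hX1 hX2 using hex
  have hX : ∀ s : Finset ℕ, ∑ k ∈ s, ‖X k‖ ^ 2 ≤ η ^ 2 := fun s =>
    (Finset.sum_le_sum fun k _ => pow_le_pow_left₀ (norm_nonneg _) (hX1 k) 2).trans (hc s)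
  refine ⟨⟨X, memlp_of_le hX⟩, lp_norm_le h.nn hX, fun k x => ?_, ?_⟩
  · change P k (X k x) = X k x
    rw [hX2, map_smul, h.mode]
  · funext k x
    change _ • P k (X k x) = _
    have := wt_pos σ k
    have := hp k x
    rw [hX2, map_smul, h.mode, smul_smul, ← Complex.ofReal_mul,
      div_mul_div_cancel₀ (by positivity), div_self (by positivity), Complex.ofReal_one, one_smul]

theorem Bd.mono (h : Bd σ g om f η) (hη : η ≤ η') : Bd σ g om f η' where
  nn := h.nn.trans hη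
  mode := h.mode
  cont := h.cont
  bd := h.bd.imp fun _ hc => ⟨fun s => (hc.1 s).trans (pow_le_pow_left₀ h.nn hη 2), hc.2⟩

theorem Bd.comp (h : Bd σ g om f η) {φ : ℝ → ℝ} (hφ : Continuous φ) {C : ℝ} (hC : 0 ≤ C)
    (g0 : ∀ x, 0 < g x) (o0 : ∀ x, 0 < om x) (h1 : ∀ x, g (φ x) ≤ C * g' x)
    (h2 : ∀ x, om (φ x) ≤ om' x) : Bd σ g' om' (fun k x => f k (φ x)) (C * η) where
  nn := mul_nonneg hC h.nn
  mode k x := h.mode k _
  cont k := (h.cont k).comp hφ
  bd := by
    obtain ⟨c, hc, hb⟩ := h.bd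
    have hp : ∀ k x, 0 < g x * om x ^ k := fun k x => mul_pos (g0 x) (pow_pos (o0 x) k)
    have hc0 : ∀ k, 0 ≤ c k := fun k => nonneg_of_mul_nonneg_left
      ((mul_nonneg (wt_pos σ k).le (norm_nonneg _)).trans (hb k 0)) (hp k 0)
    refine ⟨fun k => C * c k, fun s => ?_, fun k x => (hb k _).trans ?_⟩
    · simp only [mul_pow]
      rw [← Finset.mul_sum]
      exact mul_le_mul_of_nonneg_left (hc s) (sq_nonneg _)
    · have := hc0 k
      have := (o0 (φ x)).le
      have h3 := (g0 (φ x)).le.trans (h1 x)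
      calc c k * (g (φ x) * om (φ x) ^ k) ≤ c k * (C * g' x * om' x ^ k) := by
            gcongr
            · exact h1 x
            · exact h2 x
        _ = _ := by ring


/-- the bound for one mode -/
theorem Bd.mode_le (h : Bd σ g om f η) (g0 : ∀ x, 0 ≤ g x) (o0 : ∀ x, 0 ≤ om x) (k : ℕ) (x : ℝ) :
    ‖f k x‖ ≤ η * (g x * om x ^ k) := by
  obtain ⟨c, hc, hb⟩ := h.bd
  have h1 : c k ≤ η := by
    have := hc {k}
    rw [Finset.sum_singleton] at this
    exact (abs_le_of_sq_le_sq' this h.nn).2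
  have h2 : 1 ≤ wt σ k := by rw [wt_nat]; exact one_le_pow₀ (by linarith [Nat.cast_nonneg (α := ℝ) k])
  have := g0 x
  have := o0 x
  calc ‖f k x‖ ≤ wt σ k * ‖f k x‖ := le_mul_of_one_le_left (norm_nonneg _) h2
    _ ≤ c k * (g x * om x ^ k) := hb k x
    _ ≤ _ := by gcongr




theorem norm_eval_le (x : ℝ) : ‖(evalCLM ℂ x : BH →L[ℂ] H)‖ ≤ 1 :=
  ContinuousLinearMap.opNorm_le_bound _ zero_le_one fun u => by
    simpa using u.norm_coe_le_norm x

/-- trace at the points `s k` -/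
def trs (s : ℕ → ℝ) : CL →L[ℂ] D := dg fun k => evalCLM ℂ (s k)

theorem trs_apply (s : ℕ → ℝ) (X : CL) (k : ℕ) : trs s X k = X k (s k) :=
  dg_apply (fun k => norm_eval_le (s k)) X k


theorem norm_trs_apply_le (s : ℕ → ℝ) (X : CL) : ‖trs s X‖ ≤ ‖X‖ := by
  simpa [trs] using norm_dg_apply_le (fun k => norm_eval_le (s k)) X

theorem Prp.trs {X : CL} (h : Prp X) (s : ℕ → ℝ) : PrpD (trs s X) := fun k => by
  rw [trs_apply, h]

/-- trace at `x` -/
def tr (x : ℝ) : CL →L[ℂ] D := trs fun _ => x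

theorem tr_apply (x : ℝ) (X : CL) (k : ℕ) : tr x X k = X k x := trs_apply _ X k


theorem norm_tr_apply_le (x : ℝ) (X : CL) : ‖tr x X‖ ≤ ‖X‖ := norm_trs_apply_le _ X

theorem tru_eq_trs (s : ℕ → ℝ) (X : CL) (k : ℕ) :
    tru 6 g om X k (s k) = (g (s k) : ℂ) • trD (om (s k)) (trs s X) k := by
  rw [tru, trD, trs_apply, smul_smul]
  congr 1
  push_cast
  ring

theorem tru_eq_tr (x : ℝ) (X : CL) (k : ℕ) :
    tru 6 g om X k x = (g x : ℂ) • trD (om x) (tr x X) k := tru_eq_trs (fun _ => x) X k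

theorem tru_eq_pt (γ : Pth) (X : CL) (k : ℕ) :
    tru 6 g om X k (γ.pt k) = (g (γ.pt k) : ℂ) • trD (om γ.b) (trs γ.pt X) k := by
  rw [tru_eq_trs]
  rcases eq_or_ne k 0 with rfl | hk
  · rw [trD_mode0]
  · simp only [Pth.pt, hk, if_false]

end Crest.Agent.N207.L
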