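import Crest.Agent.N207.L.Nk0
import Crest.Agent.N207.J.Glue1
import Mathlib.Analysis.Analytic.Basic
import Crest.Agent.N207.L.Sup
import Crest.Agent.N207.J.As1
import Crest.Agent.N207.L.Gr2
import Crest.Agent.N207.J.As2
import Crest.Agent.N207.J.As3
import Crest.Agent.N207.L.Cmp
import Crest.Agent.N207.J.As5
import Crest.Agent.N207.CB.E2e
import Crest.Agent.N207.CB.Nl2
import Crest.Agent.N207.CB.Nl1
import Crest.Agent.N207.CB.Dsh
import Crest.Agent.N207.L.Inv2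
import Crest.Agent.N207.L.Lp3

-- ▼ part N207/L/Nk1
section

/-! # N207/L/Nk1 (helper80): restriction of a neck solution to its three pieces;
reparametrisation -/

set_option autoImplicit false
set_option linter.unusedSectionVars false
open Set Filter Topology Metric Complex
open scoped Real

noncomputable section

namespace Crest.Agent.N207.L
open J

variable {ι : Type} [Fintype ι]

/-- the weight in the middle -/
def cw (R : ℝ) : ℝ := Real.exp (5 / 8 * (1 - R))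

theorem cw_pos (R : ℝ) : 0 < cw R := Real.exp_pos _

abbrev nk (o R : ℝ) (ζ : ℂ) : Pth := (neck R ζ).omc o
abbrev lf (o R : ℝ) : Pth := (str (-R) (-1) (-1) (cw R) (5 / 8) fun _ => 1).omc o
abbrev rt (o R : ℝ) : Pth := (str 1 R 1 (cw R) (5 / 8) fun _ => 1).omc o
abbrev mp (o w0 : ℝ) (ζ : ℂ) : Pth := (mid ζ w0).omc o

variable {o R w0 : ℝ} {ζ : ℂ}

theorem nk_w (o R : ℝ) (ζ : ℂ) (x : ℝ) : (nk o R ζ).w x = Real.exp (5 / 8 * (cl 1 R |x| - R)) := rfl

theorem nk_w_end (hR : 1 ≤ R) {x : ℝ} (hx : |x| = R) : (nk o R ζ).w x = 1 := by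
  rw [nk_w, hx, cl_of_mem hR le_rfl, sub_self, mul_zero, Real.exp_zero]

theorem nk_w_mid {x : ℝ} (hx : |x| ≤ 1) : (nk o R ζ).w x = cw R := by
  rw [nk_w, cl_of_le hx, cw]

theorem lf_w (hR : 1 ≤ R) (ζ : ℂ) (x : ℝ) : (lf o R).w x = (nk o R ζ).w (cl (-R) (-1) x) := by
  have h1 := le_cl (-R) (-1) x
  have h2 := cl_le (show -R ≤ -1 by linarith) x
  change cw R * Real.exp (5 / 8 * |cl (-R) (-1) x - -1|) = _
  rw [nk_w, cw, ← Real.exp_add, abs_of_nonpos (by linarith), abs_of_nonpos (by linarith),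
    cl_of_mem (a := 1) (by linarith) (by linarith)]
  congr 1
  ring

theorem rt_w (hR : 1 ≤ R) (ζ : ℂ) (x : ℝ) : (rt o R).w x = (nk o R ζ).w (cl 1 R x) := by
  have h1 := le_cl 1 R x
  have h2 := cl_le hR x
  change cw R * Real.exp (5 / 8 * |cl 1 R x - 1|) = _
  rw [nk_w, cw, ← Real.exp_add, abs_of_nonneg (by linarith), abs_of_nonneg (by linarith),
    cl_of_mem h1 h2]
  congr 1
  ring

theorem trc_eq {g g' : ℝ → ℝ} (ho : 0 < o) {X X' : CL} {x x' : ℝ}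
    (h : ∀ k, tru 6 g (fun _ => o) X k x = tru 6 g' (fun _ => o) X' k x') :
    (g x : ℂ) • trc x X = (g' x' : ℂ) • trc x' X' :=
  PrpD.ext ho ((prp_trc x X).smul' _) ((prp_trc x' X').smul' _) fun k => by
    rw [trD_smul, trD_smul]
    exact (tru_eq g _ X k x).symm.trans ((h k).trans (tru_eq g' _ X' k x'))

section Res
variable {N : NL ι} {η : ℝ} {p q F : ι → Md}

theorem res_sol (ho : 0 ≤ o) {a b : ℝ} (hab : a ≤ b) {γ : Pth} (hom : ∀ x, o ≤ γ.om x)
    (hτ : ∀ x, γ.τ x = ind a b x * (nk o R ζ).τ x)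
    (hw : ∀ x, (nk o R ζ).w (cl a b x) ≤ γ.w x)
    (h : Sol N (nk o R ζ).τ (nk o R ζ).w (nk o R ζ).om η p q F) :
    Sol N γ.τ γ.w γ.om η (cmpV p (cl a b)) (cmpV q (cl a b)) (cmpV F (cl a b)) := by
  refine h.cmp (κ := 1) (cl_cont a b) (cl_mono a b) (cl_der' hab) (fun x => ?_) le_rfl (by simp)
    (fun x => (Real.exp_pos _).le) (fun _ => ho) (fun x => by simpa using hw x) hom
  rw [hτ]
  rcases ind_cases a b x with ⟨h1, h2, _⟩ | ⟨_, h3⟩
  · rw [cl_of_mem h1 h2.le]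
  · simp [h3]

theorem res_lf (ho : 0 ≤ o) (hR : 1 ≤ R)
    (h : Sol N (nk o R ζ).τ (nk o R ζ).w (nk o R ζ).om η p q F) :
    Sol N (lf o R).τ (lf o R).w (lf o R).om η (cmpV p (cl (-R) (-1))) (cmpV q (cl (-R) (-1)))
      (cmpV F (cl (-R) (-1))) := by
  refine res_sol ho (by linarith) (fun _ => le_rfl) (fun x => ?_) (fun x => (lf_w hR ζ x).ge) h
  change (ind (-R) (-1) x : ℂ) = _ * ((ind (-R) R x : ℂ) + ζ * ind (-1) 1 x)
  rcases ind_cases (-R) (-1) x with ⟨h1, h2, h3⟩ | ⟨_, h3⟩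
  · rw [h3, ind_of_mem h1 (by linarith), ind_of_lt h2]; simp
  · simp [h3]

theorem res_rt (ho : 0 ≤ o) (hR : 1 ≤ R)
    (h : Sol N (nk o R ζ).τ (nk o R ζ).w (nk o R ζ).om η p q F) :
    Sol N (rt o R).τ (rt o R).w (rt o R).om η (cmpV p (cl 1 R)) (cmpV q (cl 1 R))
      (cmpV F (cl 1 R)) := by
  refine res_sol ho hR (fun _ => le_rfl) (fun x => ?_) (fun x => (rt_w hR ζ x).ge) h
  change (ind 1 R x : ℂ) = _ * ((ind (-R) R x : ℂ) + ζ * ind (-1) 1 x)
  rcases ind_cases 1 R x with ⟨h1, h2, h3⟩ | ⟨_, h3⟩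
  · rw [h3, ind_of_mem (by linarith) h2, ind_of_ge h1]; simp
  · simp [h3]

theorem res_mp (ho : 0 ≤ o) (hR : 1 ≤ R) (hw : cw R ≤ w0)
    (h : Sol N (nk o R ζ).τ (nk o R ζ).w (nk o R ζ).om η p q F) :
    Sol N (mp o w0 ζ).τ (mp o w0 ζ).w (mp o w0 ζ).om η (cmpV p (cl (-1) 1)) (cmpV q (cl (-1) 1))
      (cmpV F (cl (-1) 1)) := by
  refine res_sol ho (by norm_num) (fun _ => le_rfl) (fun x => ?_) (fun x => ?_) h
  · change (1 + ζ) * (ind (-1) 1 x : ℂ) = _ * ((ind (-R) R x : ℂ) + ζ * ind (-1) 1 x)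
    rcases ind_cases (-1) 1 x with ⟨h1, h2, h3⟩ | ⟨_, h3⟩
    · rw [h3, ind_of_mem (by linarith) (by linarith)]; simp
    · simp [h3]
  · rw [nk_w_mid (abs_le.2 ⟨le_cl _ _ _, cl_le (by norm_num) x⟩)]
    exact hw

variable {S : Tr ι} {A B : ι → D}

theorem dat_lf (hR : 1 ≤ R) (h : Dat (nk o R ζ) (S.p (nk o R ζ)) (S.q (nk o R ζ)) A B) :
    Dat (lf o R) (cmpV (S.p (nk o R ζ)) (cl (-R) (-1))) (cmpV (S.q (nk o R ζ)) (cl (-R) (-1)))
      A (trP (-1) S) := by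
  have e1 : cl (-R) (-1) (-R) = -R := cl_of_le le_rfl
  have e2 : cl (-R) (-1) (-1) = -1 := cl_of_ge (by linarith) le_rfl
  refine ⟨fun i k => ?_, fun _ i k => ?_⟩
  · change S.q (nk o R ζ) i k (cl (-R) (-1) (-R)) = ((lf o R).w (-R) : ℂ) • trD o (A i) k
    rw [lf_w hR ζ, e1]
    exact h.hq i k
  · have : (lf o R).pt k = -1 := by unfold Pth.pt; split_ifs <;> rfl
    rw [this]
    change S.p (nk o R ζ) i k (cl (-R) (-1) (-1)) = _
    rw [lf_w hR ζ, e2]
    exact tru_eq _ _ _ k (-1)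

theorem dat_rt (hR : 1 ≤ R) (h : Dat (nk o R ζ) (S.p (nk o R ζ)) (S.q (nk o R ζ)) A (piL kill B)) :
    Dat (rt o R) (cmpV (S.p (nk o R ζ)) (cl 1 R)) (cmpV (S.q (nk o R ζ)) (cl 1 R))
      (trQ 1 S) (piL kill B + piL keep (trP 1 S)) := by
  have e1 : cl 1 R 1 = 1 := cl_of_le le_rfl
  have e2 : cl 1 R R = R := cl_of_ge hR le_rfl
  refine ⟨fun i k => ?_, fun _ i k => ?_⟩
  · change S.q (nk o R ζ) i k (cl 1 R 1) = ((rt o R).w 1 : ℂ) • _
    rw [rt_w hR ζ, e1]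
    exact tru_eq _ _ _ k 1
  · change S.p (nk o R ζ) i k (cl 1 R ((rt o R).pt k)) =
      _ • trD o (kill (B i) + keep (trP 1 S i)) k
    rw [trD_add, trD_kill, trD_keep, rt_w hR ζ]
    by_cases h0 : k = 0
    · have : (rt o R).pt k = 1 := if_pos h0
      rw [this, e1, if_pos h0, if_pos h0, zero_add]
      exact tru_eq _ _ _ k 1
    · have : (rt o R).pt k = R := if_neg h0
      have h2 := h.hp rfl i k
      have h3 : (nk o R ζ).pt k = R := if_neg h0
      rw [h3, piL_apply, trD_kill, if_neg h0] at h2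
      rw [this, e2, if_neg h0, if_neg h0, add_zero]
      exact h2

theorem dat_mp (hw : w0 ≠ 0) (h : Dat (nk o R ζ) (S.p (nk o R ζ)) (S.q (nk o R ζ)) A (piL kill B)) :
    Dat (mp o w0 ζ) (cmpV (S.p (nk o R ζ)) (cl (-1) 1)) (cmpV (S.q (nk o R ζ)) (cl (-1) 1))
      (((cw R / w0 : ℝ) : ℂ) • trQ (-1) S) (((cw R / w0 : ℝ) : ℂ) • piL kill (trP 1 S)) := by
  have e1 : cl (-1) 1 (-1) = -1 := cl_of_le le_rfl
  have e2 : cl (-1) 1 1 = 1 := cl_of_ge (by norm_num) le_rfl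
  have e3 : cl (-1) 1 0 = 0 := cl_of_mem (by norm_num) (by norm_num)
  have ew : (w0 : ℂ) * ((cw R / w0 : ℝ) : ℂ) = cw R := by
    rw [← Complex.ofReal_mul, mul_div_cancel₀ _ hw]
  refine ⟨fun i k => ?_, fun _ i k => ?_⟩
  · change S.q (nk o R ζ) i k (cl (-1) 1 (-1)) =
      (w0 : ℂ) • trD o (((cw R / w0 : ℝ) : ℂ) • trQ (-1) S i) k
    rw [trD_smul, smul_smul, ew, e1, ← nk_w_mid (o := o) (ζ := ζ) (x := -1) (by simp)]
    exact tru_eq _ _ _ k (-1)
  · change S.p (nk o R ζ) i k (cl (-1) 1 ((mp o w0 ζ).pt k)) =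
      (w0 : ℂ) • trD o (((cw R / w0 : ℝ) : ℂ) • kill (trP 1 S i)) k
    rw [trD_smul, smul_smul, ew, trD_kill]
    by_cases h0 : k = 0
    · have : (mp o w0 ζ).pt k = 0 := if_pos h0
      have h2 := h.hp rfl i k
      have h3 : (nk o R ζ).pt k = 0 := if_pos h0
      rw [h3, piL_apply, trD_kill, if_pos h0, smul_zero] at h2
      rw [this, e3, if_pos h0, smul_zero, h2]
    · have : (mp o w0 ζ).pt k = 1 := if_neg h0
      rw [this, e2, if_neg h0, ← nk_w_mid (o := o) (ζ := ζ) (x := 1) (by simp)]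
      exact tru_eq _ _ _ k 1

/-! ### reparametrisation for a real stretch -/

/-- the real stretch -/
def stch (s x : ℝ) : ℝ := x + s * cl (-1) 1 x

theorem stch_sub {s : ℝ} (hs : |s| ≤ 1 / 2) {x y : ℝ} (h : x ≤ y) :
    (y - x) / 2 ≤ stch s y - stch s x := by
  have h1 := cl_sub_le (-1) 1 h
  have h2 := sub_nonneg.2 (cl_mono (-1) 1 h)
  have h3 := (abs_le.1 hs).1
  unfold stch
  nlinarith

theorem stch_neg (hR : 1 ≤ R) (s : ℝ) : stch s (-R) = -(R + s) := by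
  rw [stch, cl_of_le (by linarith)]; ring

theorem stch_pos (hR : 1 ≤ R) (s : ℝ) : stch s R = R + s := by
  rw [stch, cl_of_ge (by norm_num) hR]; ring

theorem stch_zero (s : ℝ) : stch s 0 = 0 := by
  rw [stch, cl_of_mem (by norm_num) (by norm_num)]; ring

theorem rep_sol (ho : 0 ≤ o) (hR : 1 ≤ R) {s η' : ℝ} (hs : |s| ≤ 1 / 2) (hη : 4 * η ≤ η')
    (h : Sol N (nk o (R + s) 0).τ (nk o (R + s) 0).w (nk o (R + s) 0).om η p q F) :
    Sol N (nk o R s).τ (nk o R s).w (nk o R s).om η' (cmpV p (stch s)) (cmpV q (stch s))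
      (cmpV F (stch s)) := by
  refine h.cmp (κ := 2) (d := fun x => 1 + s * ind (-1) 1 x)
    (continuous_id.add (continuous_const.mul (cl_cont _ _)))
    (fun x y hxy => by have := stch_sub hs hxy; linarith)
    (fun x => (hasDerivWithinAt_id x _).add ((cl_der' (by norm_num) x).const_mul s))
    (fun x => ?_) (by norm_num) (by linarith) (fun x => (Real.exp_pos _).le) (fun _ => ho)
    (fun x => ?_) fun _ => le_rfl
  · have e : ind (-(R + s)) (R + s) (stch s x) = ind (-R) R x := by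
      rw [← stch_neg hR, ← stch_pos hR s]
      rcases ind_cases (-R) R x with ⟨h1, h2, h3⟩ | ⟨h1 | h1, h3⟩ <;> rw [h3]
      · have := stch_sub hs h1; have := stch_sub hs h2.le
        exact ind_of_mem (by linarith) (by linarith)
      · have := stch_sub hs h1.le
        exact ind_of_lt (by linarith)
      · have := stch_sub hs h1
        exact ind_of_ge (by linarith)
    change (ind (-R) R x : ℂ) + s * ind (-1) 1 x = ((1 + s * ind (-1) 1 x : ℝ) : ℂ) *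
      ((ind (-(R + s)) (R + s) (stch s x) : ℂ) + 0 * ind (-1) 1 (stch s x))
    rw [e]
    rcases ind_cases (-1) 1 x with ⟨h1, h2, h3⟩ | ⟨_, h3⟩
    · rw [h3, ind_of_mem (by linarith) (by linarith)]; simp
    · simp [h3]
  · have e2 : Real.exp (5 / 8) ≤ 2 := by
      have := Real.log_two_gt_d9
      rw [← Real.le_log_iff_exp_le (by norm_num)]; linarith
    rw [nk_w, nk_w]
    refine le_trans ?_ (mul_le_mul_of_nonneg_right e2 (Real.exp_pos _).le)
    rw [← Real.exp_add, Real.exp_le_exp]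
    have a1 : |stch s x| ≤ |x| + 1 / 2 := by
      refine (abs_add_le _ _).trans (add_le_add_right ?_ _)
      rw [abs_mul]
      have : |cl (-1) 1 x| ≤ 1 := abs_le.2 ⟨le_cl _ _ _, cl_le (by norm_num) x⟩
      nlinarith [abs_nonneg s, abs_nonneg (cl (-1) 1 x)]
    obtain ⟨a2, a3⟩ := abs_le.1 hs
    have : cl 1 (R + s) |stch s x| ≤ cl 1 R |x| + 1 / 2 := by
      unfold cl
      simp only [max_def, min_def]
      split_ifs <;> linarith
    linarith

theorem rep_dat (hR : 1 ≤ R) {s : ℝ} (hRs : 1 ≤ R + s)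
    (h : Dat (nk o (R + s) 0) p q A (piL kill B)) :
    Dat (nk o R s) (cmpV p (stch s)) (cmpV q (stch s)) A (piL kill B) := by
  refine ⟨fun i k => ?_, fun _ i k => ?_⟩
  · change q i k (stch s (-R)) = ((nk o R s).w (-R) : ℂ) • trD o (A i) k
    rw [stch_neg hR, nk_w_end hR (by rw [abs_neg, abs_of_nonneg (by linarith)]),
      ← nk_w_end (o := o) (ζ := 0) hRs (x := -(R + s))
        (by rw [abs_neg, abs_of_nonneg (by linarith)])]
    exact h.hq i k
  · have h2 := h.hp rfl i k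
    change p i k (stch s ((nk o R s).pt k)) = _ • trD o (kill (B i)) k
    by_cases h0 : k = 0
    · have : (nk o R s).pt k = 0 := if_pos h0
      have h3 : (nk o (R + s) 0).pt k = 0 := if_pos h0
      rw [h3, piL_apply, trD_kill, if_pos h0, smul_zero] at h2
      rw [this, stch_zero, trD_kill, if_pos h0, smul_zero, h2]
    · have : (nk o R s).pt k = R := if_neg h0
      have h3 : (nk o (R + s) 0).pt k = R + s := if_neg h0
      rw [h3, nk_w_end hRs (abs_of_nonneg (by linarith))] at h2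
      rw [this, stch_pos hR, nk_w_end hR (abs_of_nonneg (by linarith))]
      exact h2

end Res

end Crest.Agent.N207.L
end
end

-- ▼ part N207/L/Nk2
section

/-! # N207/L/Nk2 (helper80): gluing of the three pieces -/

set_option autoImplicit false
set_option linter.unusedSectionVars false
open Set Filter Topology Metric Complex
open scoped Real

noncomputable section

namespace Crest.Agent.N207.L
open J

variable {ι : Type} [Fintype ι] {N : NL ι} {C o η ε K : ℝ}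

theorem IsSol.uniq (hU : Uniq N C o η) (ho : 0 < o) {γ : Pth} (hγ : γ.Ok C o) {v : DD ι}
    {S : Tr ι} (hS : IsSol N γ K v S) (hK : K * ‖v‖ ≤ η) {p q F : ι → Md}
    (hs : Sol N γ.τ γ.w γ.om η p q F) (hd : Dat γ p q v.1 v.2) : S.p γ = p ∧ S.q γ = q := by
  obtain ⟨h1, h2, -⟩ := hU γ hγ _ _ _ p q F v.1 v.2
    (hS.sol.le hK (fun x => (hγ.w0 x).le) fun x => ho.le.trans (hγ.o0 x)) hs hS.dat hd
  exact ⟨h1, h2⟩

theorem trP_eq (ho : 0 < o) {γ γ' : Pth} (h1 : γ.om = fun _ => o) (h2 : γ'.om = fun _ => o)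
    {S S' : Tr ι} {φ : ℝ → ℝ} (h : S'.p γ' = cmpV (S.p γ) φ) (x : ℝ) :
    (γ'.w x : ℂ) • trP x S' = (γ.w (φ x) : ℂ) • trP (φ x) S := by
  funext i
  refine trc_eq ho fun k => ?_
  have := congrFun (congrFun (congrFun h i) k) x
  simp only [Tr.p, cmpV, cmpM, h1, h2] at this
  exact this

theorem trQ_eq (ho : 0 < o) {γ γ' : Pth} (h1 : γ.om = fun _ => o) (h2 : γ'.om = fun _ => o)
    {S S' : Tr ι} {φ : ℝ → ℝ} (h : S'.q γ' = cmpV (S.q γ) φ) (x : ℝ) :
    (γ'.w x : ℂ) • trQ x S' = (γ.w (φ x) : ℂ) • trQ (φ x) S := by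
  funext i
  refine trc_eq ho fun k => ?_
  have := congrFun (congrFun (congrFun h i) k) x
  simp only [Tr.q, cmpV, cmpM, h1, h2] at this
  exact this

theorem smul_cancel {V : Type*} [AddCommGroup V] [Module ℂ V] {c : ℝ} (hc : 0 < c) {x y : V}
    (h : (c : ℂ) • x = (c : ℂ) • y) : x = y :=
  smul_right_injective V (Complex.ofReal_ne_zero.2 hc.ne') h

theorem IsSol.trQ_le (ho : 0 < o) {γ : Pth} (hγ : γ.Ok C o) {v : DD ι} {S : Tr ι}
    (hS : IsSol N γ K v S) (x : ℝ) : ‖trQ x S‖ ≤ 2 * (‖v.1‖ + 8 * C * (K * ‖v‖ ^ 2)) := by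
  have C0 := hγ.C0
  have h0 : 0 ≤ K * ‖v‖ ^ 2 := (norm_nonneg _).trans hS.le2
  refine (pi_norm_le_iff_of_nonneg (by positivity)).2 fun i =>
    (norm_trc_q hγ ho hS.sol hS.dat i x).trans ?_
  have a := norm_le_pi_norm v.1 i
  have b := (norm_le_pi_norm S.2.2 i).trans hS.le2
  gcongr

theorem IsSol.trP_le (ho : 0 < o) {γ : Pth} (hγ : γ.Ok C o) (hf : γ.fin = true) {v : DD ι}
    {S : Tr ι} (hS : IsSol N γ K v S) (x : ℝ) :
    ‖piL kill (trP x S)‖ ≤ 2 * (‖piL kill v.2‖ + 8 * C * (K * ‖v‖ ^ 2)) := by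
  have C0 := hγ.C0
  have h0 : 0 ≤ K * ‖v‖ ^ 2 := (norm_nonneg _).trans hS.le2
  refine (pi_norm_le_iff_of_nonneg (by positivity)).2 fun i =>
    (norm_kill_trc_p hγ ho hf hS.sol hS.dat i x).trans ?_
  have a := norm_le_pi_norm (piL kill v.2) i
  have b := (norm_le_pi_norm S.2.2 i).trans hS.le2
  rw [piL_apply] at a
  gcongr

theorem kill_mix (B T : ι → D) : piL kill (piL kill B + piL keep T) = piL kill B := by
  funext i
  refine CL.ext fun k => ?_
  simp only [piL_apply, Pi.add_apply, kill_apply, keep_apply, lp.coeFn_add]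
  split_ifs <;> simp

theorem norm_ofReal_smul {V : Type*} [NormedAddCommGroup V] [NormedSpace ℂ V] {c : ℝ} (hc : 0 ≤ c)
    (x : V) : ‖(c : ℂ) • x‖ = c * ‖x‖ := by
  rw [norm_smul, Complex.norm_real, Real.norm_of_nonneg hc]

/-- **gluing**: high differences of the outputs of the neck are small -/
theorem glue_neck (hU : Uniq N C o η) (hE : Exi N C o ε K) (hP : PolyStmt N) (hKη : K * ε ≤ η)
    (hK : 1 ≤ K) (ho : 0 < o) (ho1 : o ≤ 1) (hC : 4 ≤ C) {R w0 ε' : ℝ} {ζ : ℂ} {M : ℕ}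
    (hR : 1 ≤ R) (hw : cw R ≤ w0) (hζ : -1 / 2 ≤ ζ.re)
    (hnk : ∀ n ≤ M, (nk o R (ζ + n * (2 * π * I))).Ok C o)
    (hmp : ∀ n ≤ M, (mp o w0 (ζ + n * (2 * π * I))).Ok C o)
    (hε' : 0 < ε') (h1 : (1 + 44 * K) * ε' < ε) (h2 : 8 * C * K * (1 + 44 * K) ^ 2 * ε' ≤ 1)
    (hρ : 20 * (2 * M + 1) * (cw R / w0 * (4 * ε')) < ε) {v : DD ι} (hv : ‖v‖ < ε')
    {S : ℕ → Tr ι} (hS : ∀ n ≤ M, IsSol N (nk o R (ζ + n * (2 * π * I))) K (killB v) (S n)) :
    ‖dif M fun n => outL (-R) R (S n)‖ ≤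
      K * ε * (40 * (2 * M + 1) * (cw R / w0 * (4 * ε')) / ε) ^ M := by
  have c0 := cw_pos R
  have w0p : 0 < w0 := c0.trans_le hw
  set κ : ℝ := cw R / w0 with hκ
  have κ0 : 0 < κ := by positivity
  have K0 : 0 < K := by linarith
  have okL : (lf o R).Ok C o := (ok_left hR c0 le_rfl hC).omc ho.le ho1
  have okR : (rt o R).Ok C o := (ok_right hR c0 le_rfl hC).omc ho.le ho1
  obtain ⟨SL, hL⟩ := hE.box okL (str_tau _ _ _ _ _ _)
  obtain ⟨SR, hRt⟩ := hE.box okR (str_tau _ _ _ _ _ _)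
  have hex : ∀ n : ℕ, ∃ Sm, n ≤ M → Box N (mp o w0 (ζ + n * (2 * π * I))) ε K Sm := fun n => by
    by_cases hn : n ≤ M
    · obtain ⟨Sm, h⟩ := hE.box (hmp n hn) (mid_tau w0 (by simpa using hζ))
      exact ⟨Sm, fun _ => h⟩
    · exact ⟨fun _ => 0, fun h => absurd h hn⟩
  choose Sm hSm using hex
  set vL : D3 ι → DD ι := fun z => (v.1, ((κ⁻¹ : ℝ) : ℂ) • z.1) with hvL
  set vR : D3 ι → DD ι := fun z =>
    (((κ⁻¹ : ℝ) : ℂ) • z.2.1, piL kill v.2 + piL keep (((κ⁻¹ : ℝ) : ℂ) • z.2.2)) with hvR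
  have v1 : ‖v.1‖ ≤ ε' := (norm_fst_le v).trans hv.le
  have v2 : ‖piL kill v.2‖ ≤ ε' := (norm_piL_le norm_kill_le _).trans ((norm_snd_le v).trans hv.le)
  have sc : ∀ z ∈ ball (0 : D3 ι) (11 * K * (κ * (4 * ε'))), ∀ u : ι → D, ‖u‖ ≤ ‖z‖ →
      ‖((κ⁻¹ : ℝ) : ℂ) • u‖ ≤ 44 * K * ε' := fun z hz u hu => by
    rw [norm_ofReal_smul (by positivity), inv_mul_le_iff₀ κ0]
    have := mem_ball_zero_iff.1 hz
    nlinarith
  have e44 : 0 ≤ 44 * K * ε' := by positivity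
  have nL : ∀ z ∈ ball (0 : D3 ι) (11 * K * (κ * (4 * ε'))), ‖vL z‖ ≤ (1 + 44 * K) * ε' :=
    fun z hz => max_le (by linarith) (by have := sc z hz _ (norm_fst_le z); linarith)
  have nR : ∀ z ∈ ball (0 : D3 ι) (11 * K * (κ * (4 * ε'))), ‖vR z‖ ≤ (1 + 44 * K) * ε' :=
    fun z hz => max_le
      (by have := sc z hz _ ((norm_fst_le z.2).trans (norm_snd_le z)); linarith)
      ((norm_add_le _ _).trans (by
        have := (norm_piL_le norm_keep_le _).trans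
          (sc z hz _ ((norm_snd_le z.2).trans (norm_snd_le z)))
        linarith))
  have mL : ∀ z ∈ ball (0 : D3 ι) (11 * K * (κ * (4 * ε'))), vL z ∈ ball (0 : DD ι) ε :=
    fun z hz => mem_ball_zero_iff.2 ((nL z hz).trans_lt h1)
  have mR : ∀ z ∈ ball (0 : D3 ι) (11 * K * (κ * (4 * ε'))), vR z ∈ ball (0 : DD ι) ε :=
    fun z hz => mem_ball_zero_iff.2 ((nR z hz).trans_lt h1)
  have dL : DifferentiableOn ℂ (fun z => SL (vL z)) (ball 0 (11 * K * (κ * (4 * ε')))) :=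
    hL.diff.comp (by rw [hvL]; fun_prop) mL
  have dR : DifferentiableOn ℂ (fun z => SR (vR z)) (ball 0 (11 * K * (κ * (4 * ε')))) :=
    hRt.diff.comp (by rw [hvR]; fun_prop) mR
  have quad : ∀ t : ℝ, 0 ≤ t → t ≤ (1 + 44 * K) * ε' → 8 * C * (K * t ^ 2) ≤ ε' := by
    intro t t0 ht
    calc 8 * C * (K * t ^ 2) ≤ 8 * C * (K * ((1 + 44 * K) * ε') ^ 2) := by
          have : 0 ≤ C := by linarith
          gcongr
      _ = 8 * C * K * (1 + 44 * K) ^ 2 * ε' * ε' := by ring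
      _ ≤ 1 * ε' := mul_le_mul_of_nonneg_right h2 hε'.le
      _ = ε' := one_mul _
  have nkB : ‖killB v‖ ≤ ε' := (norm_killB_le v).trans hv.le
  have e1 : ε' ≤ (1 + 44 * K) * ε' := by nlinarith
  have Kη : ∀ t : ℝ, t < ε → K * t ≤ η := fun t ht =>
    (mul_le_mul_of_nonneg_left ht.le K0.le).trans hKη
  have fix : ∀ n ≤ M, ∀ y : DD ι, y = (κ : ℂ) • (trQ (-1) (S n), piL kill (trP 1 (S n))) →
      ‖y‖ ≤ κ * (4 * ε') ∧ (κ : ℂ) • ((trQ (-1) (SL (vL (outL (-1) 1 (Sm n y)))),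
        piL kill (trP 1 (SR (vR (outL (-1) 1 (Sm n y)))))) : DD ι) = y ∧
      ((trP (-R) (SL (vL (outL (-1) 1 (Sm n y)))), trQ R (SR (vR (outL (-1) 1 (Sm n y)))),
        trP R (SR (vR (outL (-1) 1 (Sm n y))))) : D3 ι) = outL (-R) R (S n) := by
    intro n hn y hy
    have hSn := hS n hn
    have okn := hnk n hn
    have hs := hSn.sol.le (Kη _ (nkB.trans_lt (e1.trans_lt h1))) (fun x => (okn.w0 x).le)
      fun _ => ho.le
    have yb : ‖y‖ ≤ κ * (4 * ε') := by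
      rw [hy, norm_ofReal_smul κ0.le]
      have q := quad _ (norm_nonneg _) (nkB.trans e1)
      refine mul_le_mul_of_nonneg_left (max_le ?_ ?_) κ0.le
      · have a := hSn.trQ_le ho okn (-1)
        have e : (killB v).1 = v.1 := rfl
        rw [e] at a
        change ‖trQ (-1) (S n)‖ ≤ _
        linarith
      · have a := hSn.trP_le ho okn rfl 1
        have b := (norm_piL_le norm_kill_le (killB v).2).trans ((norm_snd_le _).trans nkB)
        change ‖piL kill (trP 1 (S n))‖ ≤ _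
        linarith
    have e0 : 0 < κ * (4 * ε') := by positivity
    have yε : ‖y‖ < ε := by
      have : (0 : ℝ) ≤ M := Nat.cast_nonneg M
      nlinarith [mul_nonneg this e0.le]
    have hm := (hSm n hn).sol y (mem_ball_zero_iff.2 yε)
    obtain ⟨mp1, mq1⟩ := hm.uniq hU ho (hmp n hn) (Kη _ yε) (res_mp ho.le hR hw hs)
      (hy ▸ dat_mp w0p.ne' hSn.dat)
    have conv : ∀ a b : ι → D, (w0 : ℂ) • a = (cw R : ℂ) • b → ((κ⁻¹ : ℝ) : ℂ) • a = b := by
      intro a b h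
      refine smul_cancel c0 ?_
      rw [← h, smul_smul, ← Complex.ofReal_mul, hκ]
      congr 2
      field_simp
    have c1 : cl (-1) 1 (-1) = -1 := cl_of_le le_rfl
    have c2 : cl (-1) 1 1 = 1 := cl_of_ge (by norm_num) le_rfl
    have z1 := trP_eq ho rfl rfl mp1 (-1)
    have z2 := trQ_eq ho rfl rfl mq1 1
    have z3 := trP_eq ho rfl rfl mp1 1
    rw [c1, nk_w_mid (by simp)] at z1
    rw [c2, nk_w_mid (by simp)] at z2 z3
    set z := outL (-1) 1 (Sm n y) with hz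
    have zL : vL z = (v.1, trP (-1) (S n)) := Prod.ext rfl (conv _ _ z1)
    have zR : vR z = (trQ 1 (S n), piL kill v.2 + piL keep (trP 1 (S n))) :=
      Prod.ext (conv _ _ z2) (congrArg (fun u => piL kill v.2 + piL keep u) (conv _ _ z3))
    have zb : z ∈ ball (0 : D3 ι) (11 * K * (κ * (4 * ε'))) := by
      have := (norm_outL_le (-1) 1 _).trans (hm.le.trans (mul_le_mul_of_nonneg_left yb K0.le))
      rw [mem_ball_zero_iff]
      nlinarith [mul_pos K0 e0]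
    obtain ⟨lp1, lq1⟩ := (hL.sol _ (mL z zb)).uniq hU ho okL
      (Kη _ (mem_ball_zero_iff.1 (mL z zb))) (res_lf ho.le hR hs) (zL ▸ dat_lf hR hSn.dat)
    obtain ⟨rp1, rq1⟩ := (hRt.sol _ (mR z zb)).uniq hU ho okR
      (Kη _ (mem_ball_zero_iff.1 (mR z zb))) (res_rt ho.le hR hs) (zR ▸ dat_rt hR hSn.dat)
    have l1 := trP_eq ho rfl rfl lp1 (-R)
    have l2 := trQ_eq ho rfl rfl lq1 (-1)
    have r1 := trP_eq ho rfl rfl rp1 1
    have r2 := trP_eq ho rfl rfl rp1 R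
    have r3 := trQ_eq ho rfl rfl rq1 R
    rw [← lf_w hR] at l1 l2
    rw [← rt_w hR] at r1 r2 r3
    rw [cl_of_le le_rfl] at l1 r1
    rw [cl_of_ge (by linarith) le_rfl] at l2
    rw [cl_of_ge hR le_rfl] at r2 r3
    refine ⟨yb, ?_, ?_⟩
    · rw [smul_cancel (okL.w0 _) l2, smul_cancel (okR.w0 _) r1, hy]
    · rw [smul_cancel (okL.w0 _) l1, smul_cancel (okR.w0 _) r2, smul_cancel (okR.w0 _) r3]
      rfl
  have key := glue_dif (M := M) (ρ := ε) (C0 := K) (e := κ * (4 * ε')) (B := K * ε)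
    (Mid := fun n y => outL (-1) 1 (Sm n y))
    (Ψ := fun z => (κ : ℂ) • ((trQ (-1) (SL (vL z)), piL kill (trP 1 (SR (vR z)))) : DD ι))
    (Out := fun z => ((trP (-R) (SL (vL z)), trQ R (SR (vR z)), trP R (SR (vR z))) : D3 ι))
    (y := fun n => (κ : ℂ) • ((trQ (-1) (S n), piL kill (trP 1 (S n))) : DD ι))
    K0 (by positivity) hρ
    (fun n hn => (outL (-1) 1).differentiable.comp_differentiableOn (hSm n hn).diff)
    (fun n hn y hy => (norm_outL_le _ _ _).trans ((hSm n hn).sol y hy).le)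
    (fun r hr hrM y hy => hP C o ε K w0 ζ r Sm ho hr
      (fun n hn => ⟨hmp n (hn.trans hrM), hSm n (hn.trans hrM)⟩) y hy)
    (DifferentiableOn.const_smul (((trQ (-1)).differentiable.comp_differentiableOn dL).prodMk
      (((piL kill).comp (trP 1)).differentiable.comp_differentiableOn dR)) (κ : ℂ))
    (fun z hz => ?_)
    (((trP (-R)).differentiable.comp_differentiableOn dL).prodMk
      (((trQ R).differentiable.comp_differentiableOn dR).prodMk
        ((trP R).differentiable.comp_differentiableOn dR)))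
    (fun z hz => ?_) (fun n hn => ⟨(fix n hn _ rfl).1, (fix n hn _ rfl).2.1⟩)
  · rw [dif_congr fun n hn => (fix n hn _ rfl).2.2] at key
    exact key
  · rw [norm_ofReal_smul κ0.le]
    refine mul_le_mul_of_nonneg_left (max_le ?_ ?_) κ0.le
    · have := (hL.sol _ (mL z hz)).trQ_le ho okL (-1)
      have := quad _ (norm_nonneg _) (nL z hz)
      change ‖trQ (-1) (SL (vL z))‖ ≤ _
      have e : (vL z).1 = v.1 := rfl
      rw [e] at *
      linarith
    · have a := (hRt.sol _ (mR z hz)).trP_le ho okR rfl 1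
      have := quad _ (norm_nonneg _) (nR z hz)
      have e : piL kill (vR z).2 = piL kill v.2 := kill_mix _ _
      rw [e] at a
      change ‖piL kill (trP 1 (SR (vR z)))‖ ≤ _
      linarith
  · have a : ‖SL (vL z)‖ ≤ K * ε := (hL.sol _ (mL z hz)).le.trans
      (mul_le_mul_of_nonneg_left (mem_ball_zero_iff.1 (mL z hz)).le K0.le)
    have b : ‖SR (vR z)‖ ≤ K * ε := (hRt.sol _ (mR z hz)).le.trans
      (mul_le_mul_of_nonneg_left (mem_ball_zero_iff.1 (mR z hz)).le K0.le)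
    exact max_le ((norm_trP_le _ _).trans a)
      (max_le ((norm_trQ_le _ _).trans b) ((norm_trP_le _ _).trans b))

end Crest.Agent.N207.L
end
end

-- ▼ part N207/L/Nk3
section

/-! # N207/L/Nk3 (helper80): the one-neck scattering map -/

set_option autoImplicit false
set_option linter.unusedSectionVars false
open Set Filter Topology Metric Complex
open scoped Real

noncomputable section

namespace Crest.Agent.N207.L
open J

variable {ι : Type} [Fintype ι] {N : NL ι} {C o η ε K : ℝ}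

/-- a real stretch does not change the outputs -/
theorem rep_out (hU : Uniq N C o η) (ho : 0 < o) {R s : ℝ} (hR : 1 ≤ R) (hs : |s| ≤ 1 / 2)
    (hRs : 1 ≤ R + s) (ok : (nk o R s).Ok C o) {v : DD ι} (h4 : 4 * (K * ‖killB v‖) ≤ η)
    {S S' : Tr ι} (hS : IsSol N (nk o R s) K (killB v) S)
    (hS' : IsSol N (nk o (R + s) 0) K (killB v) S') :
    outL (-R) R S = outL (-(R + s)) (R + s) S' := by
  have h0 : 0 ≤ K * ‖killB v‖ := (norm_nonneg _).trans hS.le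
  obtain ⟨p1, q1⟩ := hS.uniq hU ho ok (by linarith) (rep_sol ho.le hR hs h4 hS'.sol)
    (rep_dat hR hRs hS'.dat)
  have a1 := trP_eq ho rfl rfl p1 (-R)
  have a2 := trQ_eq ho rfl rfl q1 R
  have a3 := trP_eq ho rfl rfl p1 R
  rw [stch_neg hR, nk_w_end hR (by rw [abs_neg, abs_of_nonneg (by linarith)]),
    nk_w_end hRs (by rw [abs_neg, abs_of_nonneg (by linarith)])] at a1
  rw [stch_pos hR, nk_w_end hR (abs_of_nonneg (by linarith)),
    nk_w_end hRs (abs_of_nonneg (by linarith))] at a2 a3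
  rw [outL_apply, outL_apply, smul_cancel one_pos a1, smul_cancel one_pos a2,
    smul_cancel one_pos a3]

/-- the chart of half lengths around `R` -/
def nV (R : ℝ) : Set ℂ := {l | l - R ∈ nU R 2}

theorem nV_eq (R : ℝ) : nV R = ({l : ℂ | R - 1 / 2 < l.re} ∩ {l | l.re < R + 1 / 2}) ∩
    ball (R : ℂ) (2 * Real.exp (5 / 8 * R)) := by
  ext l
  simp only [nV, nU, mem_setOf_eq, sub_re, ofReal_re, abs_lt, mem_inter_iff, mem_ball,
    dist_eq_norm]
  constructor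
  · rintro ⟨⟨h1, h2⟩, h3⟩; exact ⟨⟨by linarith, by linarith⟩, h3⟩
  · rintro ⟨⟨h1, h2⟩, h3⟩; exact ⟨⟨by linarith, by linarith⟩, h3⟩

theorem convex_nV (R : ℝ) : Convex ℝ (nV R) := by
  rw [nV_eq]
  exact ((convex_halfSpace_re_gt _).inter (convex_halfSpace_re_lt _)).inter (convex_ball _ _)

theorem isOpen_nV (R : ℝ) : IsOpen (nV R) := by
  rw [nV_eq]
  exact ((isOpen_lt continuous_const continuous_re).inter
    (isOpen_lt continuous_re continuous_const)).inter isOpen_ball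

theorem mem_nV {R : ℝ} (hR : 1 ≤ R) {l : ℂ} (h1 : |l.re - R| < 1 / 2)
    (h2 : |l.im| < 1 * Real.exp (1 / 8 * l.re)) : l ∈ nV R := by
  refine ⟨by simpa using h1, (norm_le_abs_re_add_abs_im _).trans_lt ?_⟩
  simp only [sub_re, ofReal_re, sub_im, ofReal_im, sub_zero]
  have a1 : Real.exp (1 / 8 * l.re) ≤ Real.exp (5 / 8 * R) :=
    Real.exp_le_exp.2 (by have := (abs_lt.1 h1).2; linarith)
  have a2 : 1 ≤ Real.exp (5 / 8 * R) := Real.one_le_exp (by linarith)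
  linarith

theorem real_mem_nV {R x : ℝ} (hR : 1 ≤ R) (h1 : |x - R| < 1 / 2) : (x : ℂ) ∈ nV R :=
  mem_nV hR (by simpa using h1) (by simpa using Real.exp_pos _)

theorem isOpen_Wd (R0 c δ : ℝ) : IsOpen (Wd R0 c δ) :=
  (isOpen_lt continuous_const continuous_re).inter (isOpen_lt (f := fun l : ℂ => |l.im|)
    (g := fun l : ℂ => c * Real.exp (δ * l.re)) (by fun_prop) (by fun_prop))

theorem frequently_real {p : ℂ → Prop} {x : ℝ} (h : ∀ᶠ y : ℝ in 𝓝 x, p y) :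
    ∃ᶠ z in 𝓝[≠] (x : ℂ), p z := by
  have ht : Tendsto (fun y : ℝ => (y : ℂ)) (𝓝[≠] x) (𝓝[≠] (x : ℂ)) :=
    tendsto_nhdsWithin_iff.2 ⟨continuous_ofReal.continuousAt.mono_left nhdsWithin_le_nhds,
      eventually_nhdsWithin_of_forall fun y hy => by simpa using hy⟩
  exact ht.frequently (h.filter_mono nhdsWithin_le_nhds).frequently

/-- **the one-neck scattering map** -/
theorem neckStmt (hPc : PieceStmt N) (hP : PolyStmt N) : NeckStmt N := by
  intro o ho ho1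
  obtain ⟨η, ε, K, hε, hK, hKη, hU, hE⟩ := hPc 18 o ho
  have K0 : 0 < K := by linarith
  obtain ⟨ε', hε', h1, h2⟩ : ∃ ε' : ℝ, 0 < ε' ∧ (1 + 44 * K) * ε' < ε ∧
      8 * 18 * K * (1 + 44 * K) ^ 2 * ε' ≤ 1 := by
    refine ⟨min (ε / (2 * (1 + 44 * K))) (1 / (8 * 18 * K * (1 + 44 * K) ^ 2)), by positivity,
      ?_, ?_⟩
    · refine (mul_le_mul_of_nonneg_left (min_le_left _ _) (by positivity)).trans_lt ?_
      rw [mul_div_assoc', mul_comm 2, mul_div_mul_left _ _ (by positivity)]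
      linarith
    · refine (mul_le_mul_of_nonneg_left (min_le_right _ _) (by positivity)).trans_eq ?_
      field_simp
  have e4 : 4 * ε' < ε := by nlinarith
  have hex : ∀ R : ℝ, ∃ S : ℂ × DD ι → Tr ι, 1 ≤ R →
      DifferentiableOn ℂ S (nU R 2 ×ˢ ball 0 ε) ∧ ∀ ζ ∈ nU R 2, (nk o R ζ).Ok 18 o ∧
        ∀ v ∈ ball (0 : DD ι) ε, IsSol N (nk o R ζ) K v (S (ζ, v)) := fun R => by
    by_cases hR : 1 ≤ R
    · have hf := (fam_neck (c := 2) (C := 18) hR (by norm_num) (by norm_num)).omc ho.le ho1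
      obtain ⟨S, a, b⟩ := hE ℂ _ _ _ _ hf
      refine ⟨S, fun _ => ⟨a, fun ζ hζ => ⟨hf.ok ζ hζ, fun v hv => ?_⟩⟩⟩
      obtain ⟨b1, b2, b3, b4⟩ := b ζ hζ v hv
      exact ⟨b1, b2, b3, b4.hq, b4.hp⟩
    · exact ⟨fun _ => 0, fun h => absurd h hR⟩
  choose SR hSR using hex
  have kb : ∀ v ∈ ball (0 : DD ι) ε', ‖killB v‖ < ε' := fun v hv =>
    (norm_killB_le v).trans_lt (mem_ball_zero_iff.1 hv)
  have kb' : ∀ v ∈ ball (0 : DD ι) ε', killB v ∈ ball (0 : DD ι) ε := fun v hv =>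
    mem_ball_zero_iff.2 ((kb v hv).trans (by linarith))
  set G : ℝ → ℂ → DD ι → D3 ι := fun R l v => outL (-R) R (SR R (l - R, killB v)) with hG
  have Gd : ∀ R, 1 ≤ R →
      DifferentiableOn ℂ (fun p : ℂ × DD ι => G R p.1 p.2) (nV R ×ˢ ball 0 ε') := fun R hR =>
    (outL (-R) R).differentiable.comp_differentiableOn ((hSR R hR).1.comp
      (f := fun p : ℂ × DD ι => (p.1 - R, killB p.2)) (by fun_prop)
      fun p hp => ⟨hp.1, kb' _ hp.2⟩)
  have Gr : ∀ R x : ℝ, 1 ≤ R → 1 ≤ x → |x - R| < 1 / 2 → ∀ v ∈ ball (0 : DD ι) ε',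
      G R x v = G x x v := by
    intro R x hR hx hxR v hv
    obtain ⟨s, rfl⟩ : ∃ s, x = R + s := ⟨x - R, by ring⟩
    have hs : |s| < 1 / 2 := by simpa using hxR
    have m1 : (s : ℂ) ∈ nU R 2 := by simpa [nV] using real_mem_nV hR hxR
    have m0 : (0 : ℂ) ∈ nU (R + s) 2 := by
      simpa [nV] using real_mem_nV (R := R + s) (x := R + s) hx (by simp)
    have := rep_out hU ho hR hs.le hx ((hSR R hR).2 s m1).1
      (by have := mul_le_mul_of_nonneg_left (kb v hv).le K0.le; nlinarith)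
      (((hSR R hR).2 s m1).2 _ (kb' v hv)) (((hSR _ hx).2 0 m0).2 _ (kb' v hv))
    simpa [hG] using this
  have Gi : ∀ R R' : ℝ, 2 ≤ R → 2 ≤ R' → |R - R'| < 1 / 4 → ∀ v ∈ ball (0 : DD ι) ε',
      ∀ l ∈ nV R ∩ nV R', G R l v = G R' l v := by
    intro R R' hR hR' hRR v hv
    have an : ∀ R, 1 ≤ R → AnalyticOnNhd ℂ (fun l => G R l v) (nV R) := fun R hR =>
      ((Gd R hR).comp (f := fun l => (l, v)) (by fun_prop) fun l hl => ⟨hl, hv⟩).analyticOnNhd
        (isOpen_nV R)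
    refine AnalyticOnNhd.eqOn_of_preconnected_of_frequently_eq (𝕜 := ℂ) (U := nV R ∩ nV R')
      ((an R (by linarith)).mono inter_subset_left) ((an R' (by linarith)).mono inter_subset_right)
      ((convex_nV R).inter (convex_nV R')).isPreconnected (z₀ := (R : ℂ))
      ⟨real_mem_nV (by linarith) (by simp), real_mem_nV (by linarith) (by linarith)⟩
      (frequently_real ?_)
    filter_upwards [ball_mem_nhds R (show (0 : ℝ) < 1 / 4 by norm_num)] with x hx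
    rw [mem_ball, Real.dist_eq, abs_lt] at hx
    rw [abs_lt] at hRR
    rw [Gr R x (by linarith) (by linarith) (abs_lt.2 ⟨by linarith, by linarith⟩) v hv,
      Gr R' x (by linarith) (by linarith) (abs_lt.2 ⟨by linarith, by linarith⟩) v hv]
  have mW : ∀ l ∈ Wd 2 1 (1 / 8), l ∈ nV l.re := fun l hl =>
    mem_nV (by linarith [hl.1]) (by simp) hl.2
  refine ⟨ε', K, 2, fun l v => G l.re l v, hε', hK, by norm_num, fun p hp => ?_,
    fun l hl v hv => ?_, fun M => ?_, fun l hl v hv => ?_⟩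
  · have hR : 2 < p.1.re := hp.1.1
    have a := ((Gd p.1.re (by linarith)) p ⟨mW _ hp.1, hp.2⟩).differentiableAt
      (((isOpen_nV _).prod isOpen_ball).mem_nhds ⟨mW _ hp.1, hp.2⟩)
    refine (a.congr_of_eventuallyEq ?_).differentiableWithinAt
    have c : ContinuousAt (fun x : ℂ × DD ι => x.1.re) p := by fun_prop
    filter_upwards [((isOpen_Wd _ _ _).prod isOpen_ball).mem_nhds hp,
      c.eventually (ball_mem_nhds p.1.re (show (0 : ℝ) < 1 / 4 by norm_num))] with x hx hx'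
    have hx2 : |x.1.re - p.1.re| < 1 / 4 := hx'
    exact Gi _ _ hx.1.1.le hR.le hx2 _ hx.2 _
      ⟨mW _ hx.1, mem_nV (by linarith) (by linarith) hx.1.2⟩
  · have a := ((hSR l.re (by linarith [hl.1])).2 _ (mW l hl)).2 _ (kb' v hv)
    exact (norm_outL_le _ _ _).trans (a.le.trans
      (mul_le_mul_of_nonneg_left (norm_killB_le v) K0.le))
  · refine ⟨K * ε * (40 * (2 * M + 1) * (Real.exp (5 / 8) * (4 * ε')) / ε) ^ M,
      160 * (2 * M + 1) + 2, fun l hl hW v hv => ?_⟩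
    have M0 : (0 : ℝ) ≤ M := Nat.cast_nonneg M
    set R := l.re with hRdef
    have hR : 2 ≤ R := by linarith
    have ere : ∀ n : ℕ, (l + n * (2 * π * I)).re = R := fun n => by simp [hRdef]
    have mU : ∀ n ≤ M, l - R + n * (2 * π * I) ∈ nU R 2 := fun n hn => by
      have := mW _ (hW n hn)
      rw [ere] at this
      rw [show l - R + n * (2 * π * I) = l + n * (2 * π * I) - R by ring]
      exact this
    have eκ : cw R / Real.exp (-(R / 8)) = Real.exp (5 / 8) * Real.exp (-(R / 2)) := by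
      rw [cw, ← Real.exp_sub, ← Real.exp_add]; congr 1; ring
    have key := glue_neck (w0 := Real.exp (-(R / 8))) (ζ := l - R) (M := M) (R := R)
      (S := fun n => SR R (l - R + n * (2 * π * I), killB v)) hU hE hP hKη hK ho ho1
      (by norm_num) (by linarith) (Real.exp_le_exp.2 (by linarith)) (by simp [hRdef]; norm_num)
      (fun n hn => ((hSR R (by linarith)).2 _ (mU n hn)).1) (fun n hn => ?_) hε' h1 h2 ?_
      (mem_ball_zero_iff.1 hv) fun n hn => ((hSR R (by linarith)).2 _ (mU n hn)).2 _ (kb' v hv)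
    · rw [← dif_fun]
      refine le_of_eq_of_le (congrArg _ (dif_congr fun n _ => ?_)) (key.trans (le_of_eq ?_))
      · simp only [hG, ere]
        rw [show l + n * (2 * π * I) - R = l - R + n * (2 * π * I) by ring]
      · rw [eκ, show -(M * R) / 2 = M * -(R / 2) by ring, Real.exp_nat_mul, mul_assoc (K * ε),
          ← mul_pow]
        congr 2
        ring
    · refine (ok_mid (by simp [hRdef]; norm_num) (Real.exp_pos _)
        (Real.exp_le_one_iff.2 (by linarith)) ?_).omc ho.le ho1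
      have a1 := (hW n hn).2
      rw [ere] at a1
      have a2 : ‖1 + (l - R + n * (2 * π * I))‖ ≤ 1 + Real.exp (1 / 8 * R) := by
        refine (norm_le_abs_re_add_abs_im _).trans (add_le_add (le_of_eq ?_) ?_)
        · simp [hRdef]
        · simpa using a1.le
      have a3 : Real.exp (1 / 8 * R) * Real.exp (-(R / 8)) = 1 := by
        rw [← Real.exp_add, show 1 / 8 * R + -(R / 8) = 0 by ring, Real.exp_zero]
      have a4 : Real.exp (-(R / 8)) ≤ 1 := Real.exp_le_one_iff.2 (by linarith)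
      have := mul_le_mul_of_nonneg_right a2 (Real.exp_pos (-(R / 8))).le
      linarith
    · rw [eκ, ← Real.exp_add]
      have a1 := Real.add_one_le_exp (-(5 / 8 + -(R / 2)))
      have a2 : Real.exp (5 / 8 + -(R / 2)) * Real.exp (-(5 / 8 + -(R / 2))) = 1 := by
        rw [← Real.exp_add, add_neg_cancel, Real.exp_zero]
      have a3 := Real.exp_pos (5 / 8 + -(R / 2))
      have a4 : 20 * (2 * M + 1) * Real.exp (5 / 8 + -(R / 2)) ≤ 1 := by nlinarith
      calc _ = 20 * (2 * M + 1) * Real.exp (5 / 8 + -(R / 2)) * (4 * ε') := by ring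
        _ ≤ 1 * (4 * ε') := by gcongr
        _ < ε := by linarith
  · have m0 : (0 : ℂ) ∈ nU l 2 := by
      simpa [nV] using real_mem_nV (R := l) (x := l) (by linarith) (by simp)
    exact ⟨SR l (0, killB v), ((hSR l (by linarith)).2 0 m0).2 _ (kb' v hv), by simp [hG]⟩

end Crest.Agent.N207.L
end
end

-- ▼ part N207/L/Pol1
section

/-!
# Row 207, block L (helper77): POLY, abstract part

`Good E a N g`: `g s = ∑ s^m c + O(s^N)` with `a ≤ m` and `c ∈ E (m - a)`.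
-/

set_option autoImplicit false

open Set Filter Asymptotics
open scoped Topology

noncomputable section

namespace Crest.Agent.N207.L

variable {X X' : Type*} [NormedAddCommGroup X] [NormedSpace ℂ X] [NormedAddCommGroup X']
  [NormedSpace ℂ X']

/-- finite expansions with coefficients in a filtration -/
def Good (E : ℕ → Submodule ℂ X) (a N : ℕ) (g : ℂ → X) : Prop :=
  ∃ (κ : Type) (_ : Fintype κ) (d : κ → ℕ) (c : κ → X), (∀ i, c i ∈ E (d i)) ∧
    (fun s : ℂ => g s - ∑ i, s ^ (d i + a) • c i) =O[𝓝 0] fun s : ℂ => s ^ N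

theorem pow_isBigO {m n : ℕ} (h : m ≤ n) : (fun s : ℂ => s ^ n) =O[𝓝 0] fun s : ℂ => s ^ m := by
  rcases h.eq_or_lt with rfl | h
  · exact isBigO_refl _ _
  · exact (isLittleO_pow_pow h).isBigO

theorem sum_isBigO {κ : Type} [Fintype κ] (d : κ → ℕ) (c : κ → X) (a : ℕ) :
    (fun s : ℂ => ∑ i, s ^ (d i + a) • c i) =O[𝓝 0] fun s : ℂ => s ^ a := by
  refine IsBigO.fun_sum (A := fun i (s : ℂ) => s ^ (d i + a) • c i) fun i _ => ?_
  simpa using (pow_isBigO (Nat.le_add_left a (d i))).smul (isBigO_const_one ℂ (c i) (𝓝 0))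

namespace Good

variable {E : ℕ → Submodule ℂ X} {E' : ℕ → Submodule ℂ X'} {a N : ℕ} {g g' : ℂ → X}

theorem of_isBigO (h : Good E a N g) (h' : (fun s => g' s - g s) =O[𝓝 0] fun s : ℂ => s ^ N) :
    Good E a N g' := by
  obtain ⟨κ, _, d, c, h1, h2⟩ := h
  exact ⟨κ, inferInstance, d, c, h1, (h'.add h2).congr_left fun s => by abel⟩

theorem congr (h : Good E a N g) (h' : g =ᶠ[𝓝 0] g') : Good E a N g' :=
  h.of_isBigO ((isBigO_zero _ _).congr' (h'.mono fun s hs => by simp [hs]) EventuallyEq.rfl)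

theorem small (h : g =O[𝓝 0] fun s : ℂ => s ^ N) : Good E a N g :=
  ⟨Empty, inferInstance, fun _ => 0, fun _ => 0, fun _ => zero_mem _, by simpa using h⟩

theorem single {d : ℕ} {c : X} (h : c ∈ E d) : Good E a N fun s => s ^ (d + a) • c :=
  ⟨Unit, inferInstance, fun _ => d, fun _ => c, fun _ => h, by simpa using isBigO_zero _ _⟩

theorem add (h : Good E a N g) (h' : Good E a N g') : Good E a N fun s => g s + g' s := by
  obtain ⟨κ, _, d, c, h1, h2⟩ := h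
  obtain ⟨κ', _, d', c', h1', h2'⟩ := h'
  refine ⟨κ ⊕ κ', inferInstance, Sum.elim d d', Sum.elim c c', ?_,
    (h2.add h2').congr_left fun s => ?_⟩
  · rintro (i | i)
    · exact h1 i
    · exact h1' i
  · simp only [Fintype.sum_sum_type, Sum.elim_inl, Sum.elim_inr]; abel

theorem sum {ι : Type*} (t : Finset ι) {f : ι → ℂ → X} (hf : ∀ i ∈ t, Good E a N (f i)) :
    Good E a N fun s => ∑ i ∈ t, f i s := by
  classical
  induction t using Finset.induction_on with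
  | empty => exact small (by simpa using isBigO_zero _ _)
  | insert i t hi ih =>
    simp only [Finset.sum_insert hi]
    exact (hf i (Finset.mem_insert_self _ _)).add
      (ih fun j hj => hf j (Finset.mem_insert_of_mem hj))

theorem isBigO (h : Good E a N g) (haN : a ≤ N) : g =O[𝓝 0] fun s : ℂ => s ^ a := by
  obtain ⟨κ, _, d, c, -, h2⟩ := h
  exact ((h2.trans (pow_isBigO haN)).add (sum_isBigO d c a)).congr_left fun s => by abel

/-- a linear map that raises the degree by one -/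
theorem clm (h : Good E (a + 1) N g) (A : X →L[ℂ] X') (hA : ∀ d, ∀ x ∈ E d, A x ∈ E' (d + 1)) :
    Good E' a N fun s => A (g s) := by
  obtain ⟨κ, _, d, c, h1, h2⟩ := h
  refine ⟨κ, inferInstance, fun i => d i + 1, fun i => A (c i), fun i => hA _ _ (h1 i),
    ((A.isBigO_comp _ _).trans h2).congr_left fun s => ?_⟩
  simp [add_assoc, add_comm 1 a]



/-- killing the low degrees -/
theorem kill (h : Good E a N g) (A : X →L[ℂ] X') (hA : ∀ d, d + a < N → ∀ x ∈ E d, A x = 0) :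
    (fun s => A (g s)) =O[𝓝 0] fun s : ℂ => s ^ N := by
  obtain ⟨κ, _, d, c, h1, h2⟩ := h
  have h3 : (fun s : ℂ => A (∑ i, s ^ (d i + a) • c i)) =O[𝓝 0] fun s : ℂ => s ^ N := by
    simp only [map_sum, map_smul]
    refine IsBigO.fun_sum (A := fun i (s : ℂ) => s ^ (d i + a) • A (c i)) fun i _ => ?_
    rcases lt_or_ge (d i + a) N with h4 | h4
    · simpa [hA _ h4 _ (h1 i)] using isBigO_zero _ _
    · simpa using (pow_isBigO h4).smul (isBigO_const_one ℂ (A (c i)) (𝓝 0))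
  exact (((A.isBigO_comp _ _).trans h2).add h3).congr_left fun s => by simp

end Good


end Crest.Agent.N207.L

end
end

-- ▼ part N207/L/Pol3
section

/-!
# Row 207, block L (helper77): POLY, the superposition operator
-/

set_option autoImplicit false
set_option linter.unusedSectionVars false

open Set Filter Asymptotics
open scoped Topology

noncomputable section

namespace Crest.Agent.N207.L

section
variable {X X' X'' : Type*} [NormedAddCommGroup X] [NormedSpace ℂ X] [NormedAddCommGroup X']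
  [NormedSpace ℂ X'] [NormedAddCommGroup X''] [NormedSpace ℂ X'']
  {E : ℕ → Submodule ℂ X} {E' : ℕ → Submodule ℂ X'} {E'' : ℕ → Submodule ℂ X''} {a b N : ℕ}
  {g : ℂ → X} {g' : ℂ → X'}

theorem Good.clm0 (h : Good E a N g) (A : X →L[ℂ] X') (hA : ∀ d, ∀ x ∈ E d, A x ∈ E' d) :
    Good E' a N fun s => A (g s) := by
  obtain ⟨κ, _, d, c, h1, h2⟩ := h
  exact ⟨κ, inferInstance, d, fun i => A (c i), fun i => hA _ _ (h1 i),
    ((A.isBigO_comp _ _).trans h2).congr_left fun s => by simp⟩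

theorem Good.smul (h : Good E a N g) (c : ℂ) : Good E a N fun s => c • g s :=
  h.clm0 (c • ContinuousLinearMap.id ℂ X) fun _ _ hx => Submodule.smul_mem _ c hx

theorem Good.lower (hE : Monotone E) {r : ℕ} (h : Good E (r + a) (N + r) g) : Good E a N g := by
  obtain ⟨κ, _, d, c, h1, h2⟩ := h
  exact ⟨κ, inferInstance, fun i => d i + r, c, fun i => hE (Nat.le_add_right _ _) (h1 i),
    (h2.trans (pow_isBigO (Nat.le_add_right _ _))).congr_left fun s => by simp [add_assoc]⟩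

theorem Good.bil (h : Good E a (N + a) g) (h' : Good E' b (N + b) g') (B : X →L[ℂ] X' →L[ℂ] X'')
    (hB : ∀ d e, ∀ x ∈ E d, ∀ y ∈ E' e, B x y ∈ E'' (d + e)) :
    Good E'' (a + b) (N + (a + b)) fun s => B (g s) (g' s) := by
  have h0 := h'.isBigO (Nat.le_add_left _ _)
  obtain ⟨κ, _, d, c, h1, h2⟩ := h
  obtain ⟨κ', _, d', c', h1', h2'⟩ := h'
  refine ⟨κ × κ', inferInstance, fun i => d i.1 + d' i.2, fun i => B (c i.1) (c' i.2),
    fun i => hB _ _ _ (h1 _) _ (h1' _), ?_⟩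
  have h3 := (B.isBigO_comp _ _ |>.trans h2).norm_norm.mul h0.norm_norm
  have h4 := (B.isBigO_comp _ _ |>.trans (sum_isBigO d c a)).norm_norm.mul h2'.norm_norm
  have h5 := (h3.congr_right (g₂ := fun s : ℂ => ‖s ^ (N + (a + b))‖) fun s => by
    rw [← norm_mul, ← pow_add, add_assoc]).add
      (h4.congr_right fun s => by rw [← norm_mul, ← pow_add]; congr 2; ring)
  refine IsBigO.trans (IsBigO.of_bound 1 (Eventually.of_forall fun s => ?_)) h5.of_norm_right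
  have e : B (g s) (g' s) - ∑ i : κ × κ', s ^ (d i.1 + d' i.2 + (a + b)) • B (c i.1) (c' i.2) =
      B (g s - ∑ i, s ^ (d i + a) • c i) (g' s) +
        B (∑ i, s ^ (d i + a) • c i) (g' s - ∑ i, s ^ (d' i + b) • c' i) := by
    have : ∑ i : κ × κ', s ^ (d i.1 + d' i.2 + (a + b)) • B (c i.1) (c' i.2) =
        B (∑ i, s ^ (d i + a) • c i) (∑ i, s ^ (d' i + b) • c' i) := by
      rw [Fintype.sum_prod_type, map_sum B, sum_apply]
      refine Finset.sum_congr rfl fun i _ => ?_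
      rw [map_sum]
      refine Finset.sum_congr rfl fun j _ => ?_
      simp only [map_smul, smul_apply, smul_smul, ← pow_add]
      congr 2; ring
    rw [this]
    simp only [map_sub, sub_apply]; abel
  rw [e, one_mul, Real.norm_of_nonneg (by positivity)]
  exact (norm_add_le _ _).trans (add_le_add ((B _).le_opNorm _) ((B _).le_opNorm _))

end

variable {A1 A2 : Type} [NormedAddCommGroup A1] [NormedSpace ℂ A1] [NormedAddCommGroup A2]
  [NormedSpace ℂ A2]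

namespace Alg

/-- filtrations compatible with the product and the inclusion -/
structure Filt (𝒜 : Alg A1 A2) (E : ℕ → Submodule ℂ A1) (E' : ℕ → Submodule ℂ A2) : Prop where
  mono : Monotone E'
  mul : ∀ d e, ∀ x ∈ E d, ∀ y ∈ E e, 𝒜.mul x y ∈ E' (d + e)
  inc : ∀ d, ∀ x ∈ E' d, 𝒜.inc x ∈ E d

variable {𝒜 : Alg A1 A2} {E : ℕ → Submodule ℂ A1} {E' : ℕ → Submodule ℂ A2} {β : ℝ} {N : ℕ}

theorem Filt.prd (h : 𝒜.Filt E E') : ∀ (r : ℕ) (a : ℂ → Fin (r + 2) → A1),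
    (∀ j, Good E 1 (N + 1) fun s => a s j) → Good E' (r + 2) (N + (r + 2)) fun s => 𝒜.prd r (a s)
  | 0, _, ha => (ha 0).bil (ha 1) 𝒜.mul h.mul
  | r + 1, a, ha => by
    have := (ha 0).bil ((Filt.prd h r (fun s j => a s j.succ) fun _ => ha _).clm0 𝒜.inc h.inc)
      𝒜.mul h.mul
    rw [show 1 + (r + 2) = r + 1 + 2 by ring] at this
    exact this

variable {κ ι : Type} [Fintype κ] [Fintype ι] [DecidableEq κ] {Q : (κ → ℂ) → ι → ℂ}
  [CompleteSpace A2]

theorem norm_Qh_sub (h : 𝒜.Bnd β) (S : Ser Q) {J : κ → A1} (hJ : ‖J‖ ≤ rad S β / 2) (N : ℕ) :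
    ‖𝒜.Qh S J - ∑ r ∈ Finset.range N, 𝒜.term S r J‖ ≤
      2 * S.K / rad S β ^ (N + 2) * ‖J‖ ^ (N + 2) := by
  have hr := rad_pos S h.one_le
  have hK := S.K0
  have h1 := (hasSum_nat_add_iff' N).2 (hasSum_Qh h S hJ)
  rw [← h1.tsum_eq]
  refine (tsum_of_norm_bounded (hasSum_geometric_two.mul_left (S.K * (‖J‖ / rad S β) ^ (N + 2)))
    fun r => (norm_term h S _ J).trans ?_).trans (le_of_eq (by rw [div_pow]; ring))
  have h2 : ‖J‖ / rad S β ≤ 1 / 2 := by rw [div_le_iff₀ hr]; linarith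
  rw [show r + N + 2 = N + 2 + r by ring, pow_add, ← mul_assoc]
  gcongr

theorem Filt.Qh (h : 𝒜.Filt E E') (hβ : 𝒜.Bnd β) (S : Ser Q) {J : ℂ → κ → A1}
    (hJ : ∀ m, Good E 1 (N + 1) fun s => J s m) (i : ι) :
    Good E' 2 (N + 2) fun s => 𝒜.Qh S (J s) i := by
  have h1 : J =O[𝓝 0] fun s : ℂ => s ^ 1 := isBigO_pi.2 fun m => (hJ m).isBigO (by omega)
  have h2 : Good E' 2 (N + 2) fun s => (∑ r ∈ Finset.range N, 𝒜.term S r (J s)) i := by
    simp only [Finset.sum_apply, term]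
    refine Good.sum _ fun r _ => Good.sum _ fun α _ => Good.smul ?_ _
    refine Good.lower (r := r) h.mono ?_
    rw [show N + 2 + r = N + (r + 2) by ring]
    exact h.prd r (fun s j => J s (α j)) fun _ => hJ _
  refine h2.of_isBigO (IsBigO.trans (IsBigO.of_bound (2 * S.K / rad S β ^ (N + 2)) ?_)
    ((h1.norm_norm.pow (N + 2)).congr_right (fun s => by simp)).of_norm_right)
  have h3 : Tendsto J (𝓝 0) (𝓝 0) := h1.trans_tendsto (by simp only [pow_one]; exact tendsto_id)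
  filter_upwards [h3.eventually (Metric.closedBall_mem_nhds 0 (half_pos (rad_pos S hβ.one_le)))]
    with s hs
  rw [Real.norm_of_nonneg (by positivity)]
  exact (norm_le_pi_norm (_ - _ : ι → A2) i).trans
    (norm_Qh_sub hβ S (mem_closedBall_zero_iff.1 hs) N)

/-- **the fixed point is good to every order** -/
theorem Filt.fix (h : 𝒜.Filt E E') (hβ : 𝒜.Bnd β) (S : Ser Q) {u0 : κ → A1}
    (hu0 : ∀ m, u0 m ∈ E 0) (cp : κ → ι) (J : κ → A2 →L[ℂ] A1)
    (hJ : ∀ m d, ∀ x ∈ E' d, J m x ∈ E (d + 1)) {f : ℂ → ι → A2} (hf : f =O[𝓝 0] fun s : ℂ => s)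
    (hfix : ∀ᶠ s in 𝓝 (0 : ℂ), 𝒜.Qh S (fun m => s • u0 m + J m (f s (cp m))) = f s) (N : ℕ) (i : ι) :
    Good E' 2 (N + 1) fun s => f s i := by
  induction N generalizing i with
  | zero => exact Good.small (by simpa using isBigO_pi.1 hf i)
  | succ N ih =>
    refine (h.Qh hβ S (J := fun s m => s • u0 m + J m (f s (cp m))) (fun m => ?_) i).congr
      (hfix.mono fun s hs => congrFun hs i)
    exact Good.add (by simpa using Good.single (a := 1) (N := N + 1) (hu0 m))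
      ((ih _).clm (J m) (hJ m))

/-- finite powers -/
def pi (𝒜 : Alg A1 A2) (ν : Type) [Fintype ν] : Alg (ν → A1) (ν → A2) where
  mul := (ContinuousLinearMap.piEquivL ℂ (ν → A1) fun _ : ν => A2).toContinuousLinearMap ∘L
    ContinuousLinearMap.pi fun n =>
      𝒜.mul.bilinearComp (ContinuousLinearMap.proj n) (ContinuousLinearMap.proj n)
  inc := ContinuousLinearMap.pi fun n => 𝒜.inc ∘L ContinuousLinearMap.proj n

variable {ν : Type} [Fintype ν]



theorem Bnd.pi (h : 𝒜.Bnd β) : (𝒜.pi ν).Bnd β := by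
  have h1 := h.one_le
  refine ⟨h1, fun x y => (pi_norm_le_iff_of_nonneg (by positivity)).2 fun n => ?_,
    fun x => (pi_norm_le_iff_of_nonneg (by positivity)).2 fun n => ?_⟩
  · refine (h.mul_le _ _).trans ?_
    gcongr <;> exact norm_le_pi_norm _ n
  · refine (h.inc_le _).trans ?_
    gcongr; exact norm_le_pi_norm _ n

theorem pi_Qh (h : 𝒜.Bnd β) (S : Ser Q) {J : κ → ν → A1} (hJ : ‖J‖ ≤ rad S β / 2) (i : ι) (n : ν) :
    (𝒜.pi ν).Qh S J i n = 𝒜.Qh S (fun m => J m n) i :=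
  Hom.Qh (φ1 := ContinuousLinearMap.proj n) (φ2 := ContinuousLinearMap.proj n)
    ⟨fun _ _ => rfl, fun _ => rfl⟩ h.pi S hJ i

end Alg

end Crest.Agent.N207.L

end
end

-- ▼ part N207/L/Pol2
section

/-!
# Row 207, block L (helper77): POLY, exponential polynomials and the time layer
-/

set_option autoImplicit false
set_option linter.unusedSectionVars false

open Set Filter Complex
open scoped Topology

noncomputable section

namespace Crest.Agent.N207.L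

open Crest.Agent.N207.J

variable {ι : Type} (ν : ι → ℂ)

/-- `e^{mt} t^i ν^j`, `i + j ≤ d` -/
def EP (d : ℕ) : Submodule ℂ (ι → ℂ → ℂ) :=
  Submodule.span ℂ {F | ∃ (m : ℤ) (i j : ℕ), i + j ≤ d ∧ F = fun n t => exp (m * t) * t ^ i * ν n ^ j}

/-- polynomials in `ν` -/
def PN (d : ℕ) : Submodule ℂ (ι → ℂ) := Submodule.span ℂ {F | ∃ j ≤ d, F = fun n => ν n ^ j}

variable {ν}

theorem EP_gen (m : ℤ) {i j d : ℕ} (h : i + j ≤ d) :
    (fun n t => exp (m * t) * t ^ i * ν n ^ j) ∈ EP ν d := Submodule.subset_span ⟨m, i, j, h, rfl⟩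

theorem EP_mono : Monotone (EP ν) := fun _ _ h =>
  Submodule.span_mono fun _ ⟨m, i, j, h1, h2⟩ => ⟨m, i, j, h1.trans h, h2⟩

theorem EP_mul {d e : ℕ} {F G : ι → ℂ → ℂ} (hF : F ∈ EP ν d) (hG : G ∈ EP ν e) :
    F * G ∈ EP ν (d + e) := by
  induction hF using Submodule.span_induction with
  | zero => simp
  | add _ _ _ _ h1 h2 => rw [add_mul]; exact add_mem h1 h2
  | smul c _ _ h1 => rw [smul_mul_assoc]; exact Submodule.smul_mem _ c h1
  | mem F hF =>
    induction hG using Submodule.span_induction with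
    | zero => simp
    | add _ _ _ _ h1 h2 => rw [mul_add]; exact add_mem h1 h2
    | smul c _ _ h1 => rw [mul_smul_comm]; exact Submodule.smul_mem _ c h1
    | mem G hG =>
      obtain ⟨m, i, j, h1, rfl⟩ := hF
      obtain ⟨m', i', j', h1', rfl⟩ := hG
      convert EP_gen (ν := ν) (m + m') (i := i + i') (j := j + j') (d := d + e) (by omega) using 1
      funext n t
      simp only [Pi.mul_apply, Int.cast_add, add_mul, exp_add]; ring

theorem EP_exp (m : ℤ) : (fun _ t => exp (m * t)) ∈ EP ν 0 := by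
  simpa using EP_gen (ν := ν) m (i := 0) (j := 0) (d := 0) le_rfl

theorem EP_exp_mul (m : ℤ) {d : ℕ} {F : ι → ℂ → ℂ} (hF : F ∈ EP ν d) :
    (fun n t => exp (m * t) * F n t) ∈ EP ν d := by
  have := EP_mul (EP_exp m) hF
  rw [zero_add] at this
  exact this

theorem EP_cont {d : ℕ} {F : ι → ℂ → ℂ} (hF : F ∈ EP ν d) (n : ι) : Continuous (F n) := by
  induction hF using Submodule.span_induction with
  | zero => exact continuous_const
  | add _ _ _ _ h1 h2 => exact h1.add h2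
  | smul c _ _ h1 => exact h1.const_smul c
  | mem F hF => obtain ⟨m, i, j, -, rfl⟩ := hF; fun_prop

theorem anti_gen (m : ℤ) (i j : ℕ) : ∃ Φ : ℂ → ℂ, (fun n t => Φ t * ν n ^ j) ∈ EP ν (i + j + 1) ∧
    ∀ t, HasDerivAt Φ (exp (m * t) * t ^ i) t := by
  by_cases hm : m = 0
  · subst hm
    refine ⟨fun t => t ^ (i + 1) / (i + 1), ?_, fun t => ?_⟩
    · convert Submodule.smul_mem _ ((i + 1 : ℂ)⁻¹)
        (EP_gen (ν := ν) 0 (i := i + 1) (j := j) (d := i + j + 1) (by omega)) using 1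
      funext n t; simp; ring
    · have h0 : (i + 1 : ℂ) ≠ 0 := by exact_mod_cast Nat.succ_ne_zero i
      refine ((hasDerivAt_pow (i + 1) t).div_const (i + 1 : ℂ)).congr_deriv ?_
      simp; field_simp
  have h0 : (m : ℂ) ≠ 0 := by exact_mod_cast hm
  have hE : ∀ t, HasDerivAt (fun t => exp (m * t)) (exp (m * t) * m) t := fun t => by
    simpa using ((hasDerivAt_id t).const_mul (m : ℂ)).cexp
  induction i with
  | zero =>
    refine ⟨fun t => exp (m * t) / m, ?_, fun t => ?_⟩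
    · convert Submodule.smul_mem _ ((m : ℂ)⁻¹)
        (EP_gen (ν := ν) m (i := 0) (j := j) (d := 0 + j + 1) (by omega)) using 1
      funext n t; simp; ring
    · refine ((hE t).div_const (m : ℂ)).congr_deriv ?_
      field_simp
  | succ i ih =>
    obtain ⟨Φ, h1, h2⟩ := ih
    refine ⟨fun t => (exp (m * t) * t ^ (i + 1) - (i + 1) * Φ t) / m, ?_, fun t => ?_⟩
    · convert Submodule.smul_mem _ ((m : ℂ)⁻¹) (sub_mem
        (EP_gen (ν := ν) m (i := i + 1) (j := j) (d := i + 1 + j + 1) (by omega))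
        (Submodule.smul_mem _ (i + 1 : ℂ) (EP_mono (by omega) h1))) using 1
      funext n t; simp; ring
    · refine ((((hE t).mul (hasDerivAt_pow (i + 1) t)).sub
        ((h2 t).const_mul (i + 1 : ℂ))).div_const (m : ℂ)).congr_deriv ?_
      simp; field_simp; ring

theorem EP_anti {d : ℕ} {F : ι → ℂ → ℂ} (hF : F ∈ EP ν d) :
    ∃ Φ ∈ EP ν (d + 1), ∀ n t, HasDerivAt (Φ n) (F n t) t := by
  induction hF using Submodule.span_induction with
  | zero => exact ⟨0, zero_mem _, fun n t => hasDerivAt_const _ _⟩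
  | add _ _ _ _ h1 h2 =>
    obtain ⟨Φ, h1, h3⟩ := h1
    obtain ⟨Ψ, h2, h4⟩ := h2
    exact ⟨Φ + Ψ, add_mem h1 h2, fun n t => (h3 n t).add (h4 n t)⟩
  | smul c _ _ h1 =>
    obtain ⟨Φ, h1, h3⟩ := h1
    exact ⟨c • Φ, Submodule.smul_mem _ c h1, fun n t => (h3 n t).const_mul c⟩
  | mem F hF =>
    obtain ⟨m, i, j, h1, rfl⟩ := hF
    obtain ⟨Φ, h2, h3⟩ := anti_gen (ν := ν) m i j
    exact ⟨_, EP_mono (by omega) h2, fun n t => (h3 t).mul_const _⟩

/-- end values `α + β ν` with `e^{m β ν} = 1` -/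
def Per (ν : ι → ℂ) (a : ι → ℂ) : Prop :=
  ∃ α β : ℂ, (∀ n, a n = α + β * ν n) ∧ ∀ n, exp (β * ν n) = 1

theorem EP_eval {a : ι → ℂ} (ha : Per ν a) {d : ℕ} {F : ι → ℂ → ℂ} (hF : F ∈ EP ν d) :
    (fun n => F n (a n)) ∈ PN ν d := by
  obtain ⟨α, β, h1, h2⟩ := ha
  induction hF using Submodule.span_induction with
  | zero => exact zero_mem _
  | add _ _ _ _ h3 h4 => exact add_mem h3 h4
  | smul c _ _ h3 => exact Submodule.smul_mem _ c h3
  | mem F hF =>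
    obtain ⟨m, i, j, h3, rfl⟩ := hF
    have e : (fun n => exp (m * a n) * a n ^ i * ν n ^ j) = ∑ l ∈ Finset.range (i + 1),
        (exp (m * α) * β ^ l * α ^ (i - l) * (i.choose l : ℂ)) • fun n => ν n ^ (l + j) := by
      funext n
      have : exp (m * a n) = exp (m * α) := by
        rw [h1, mul_add, exp_add, exp_int_mul (β * ν n), h2, one_zpow, mul_one]
      rw [this, h1, add_comm α, add_pow, Finset.mul_sum, Finset.sum_mul, Finset.sum_apply]
      refine Finset.sum_congr rfl fun l _ => ?_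
      simp only [Pi.smul_apply, smul_eq_mul]; ring
    simp only [e]
    refine Submodule.sum_mem _ fun l hl => Submodule.smul_mem _ _ (Submodule.subset_span ⟨_, ?_, rfl⟩)
    have := Finset.mem_range.1 hl
    omega

theorem PN_EP {d : ℕ} {F : ι → ℂ} (hF : F ∈ PN ν d) : (fun n _ => F n) ∈ EP ν d := by
  induction hF using Submodule.span_induction with
  | zero => exact zero_mem _
  | add _ _ _ _ h3 h4 => exact add_mem h3 h4
  | smul c _ _ h3 => exact Submodule.smul_mem _ c h3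
  | mem F hF =>
    obtain ⟨j, h, rfl⟩ := hF
    simpa using EP_gen (ν := ν) 0 (i := 0) (j := j) (d := d) (by omega)

theorem PN_kill [Fintype ι] {c : ι → ℂ} {d : ℕ} (hc : ∀ j ≤ d, ∑ n, c n * ν n ^ j = 0)
    {F : ι → ℂ} (hF : F ∈ PN ν d) : ∑ n, c n * F n = 0 := by
  induction hF using Submodule.span_induction with
  | zero => simp
  | add _ _ _ _ h3 h4 => simp [mul_add, Finset.sum_add_distrib, h3, h4]
  | smul a _ _ h3 => simp [mul_left_comm _ a, ← Finset.mul_sum, h3]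
  | mem F hF => obtain ⟨j, h, rfl⟩ := hF; exact hc j h

/-! ### the time layer -/

variable {Pt F F' F'' : Type} [NormedAddCommGroup F] [NormedSpace ℂ F] [NormedAddCommGroup F']
  [NormedSpace ℂ F'] [NormedAddCommGroup F''] [NormedSpace ℂ F''] [Fintype ι]

/-- closed span of the families with values `Φ n (γ n p) • v` -/
def TS (ν : ι → ℂ) (γ : ι → Pt → ℂ) (ev : Pt → F →L[ℂ] H) (d : ℕ) : Submodule ℂ (ι → F) :=
  (Submodule.span ℂ {g | ∃ Φ ∈ EP ν d, ∃ v : H, ∀ n p, ev p (g n) = Φ n (γ n p) • v}).topologicalClosure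

variable {γ : ι → Pt → ℂ} {ev : Pt → F →L[ℂ] H} {ev' : Pt → F' →L[ℂ] H} {ev'' : Pt → F'' →L[ℂ] H}

theorem TS_gen {d : ℕ} {g : ι → F} {Φ : ι → ℂ → ℂ} (h : Φ ∈ EP ν d) {v : H}
    (hg : ∀ n p, ev p (g n) = Φ n (γ n p) • v) : g ∈ TS ν γ ev d :=
  Submodule.le_topologicalClosure _ (Submodule.subset_span ⟨Φ, h, v, hg⟩)

theorem TS_closed (d : ℕ) : IsClosed (TS ν γ ev d : Set (ι → F)) :=
  Submodule.isClosed_topologicalClosure _

theorem TS_mono : Monotone (TS ν γ ev) := fun _ _ h => Submodule.topologicalClosure_mono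
  (Submodule.span_mono fun _ ⟨Φ, h1, h2⟩ => ⟨Φ, EP_mono h h1, h2⟩)

theorem TS_ind {d : ℕ} {W : Type*} [NormedAddCommGroup W] [NormedSpace ℂ W]
    (A : (ι → F) →L[ℂ] W) {S : Submodule ℂ W} (hS : IsClosed (S : Set W))
    (h : ∀ g, ∀ Φ ∈ EP ν d, ∀ v : H, (∀ n p, ev p (g n) = Φ n (γ n p) • v) → A g ∈ S)
    {g : ι → F} (hg : g ∈ TS ν γ ev d) : A g ∈ S :=
  Submodule.topologicalClosure_minimal (t := S.comap A.toLinearMap) _
    (Submodule.span_le.2 fun g hg => by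
      obtain ⟨Φ, h1, v, h2⟩ := hg
      exact h g Φ h1 v h2) (hS.preimage A.continuous) hg

/-- `n`-dependent linear maps -/
theorem TS_lin {d e : ℕ} (A : ι → F →L[ℂ] F')
    (h : ∀ (g : ι → F), ∀ Φ ∈ EP ν d, ∀ v : H, (∀ n p, ev p (g n) = Φ n (γ n p) • v) →
      ∃ Ψ ∈ EP ν e, ∃ w : H, ∀ n p, ev' p (A n (g n)) = Ψ n (γ n p) • w)
    {g : ι → F} (hg : g ∈ TS ν γ ev d) : (fun n => A n (g n)) ∈ TS ν γ ev' e :=
  TS_ind (ContinuousLinearMap.pi fun n => A n ∘L ContinuousLinearMap.proj n) (TS_closed e)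
    (fun g Φ h1 v h2 => by
      obtain ⟨Ψ, h3, w, h4⟩ := h g Φ h1 v h2
      exact TS_gen h3 h4) hg

theorem TS_map {d : ℕ} (A : F →L[ℂ] F') (B : H →L[ℂ] H) (h : ∀ f p, ev' p (A f) = B (ev p f))
    {g : ι → F} (hg : g ∈ TS ν γ ev d) : (fun n => A (g n)) ∈ TS ν γ ev' d :=
  TS_lin (fun _ => A) (fun g Φ h1 v h2 => ⟨Φ, h1, B v, fun n p => by rw [h, h2, map_smul]⟩) hg

theorem TS_bil {d e : ℕ} (A : F →L[ℂ] F' →L[ℂ] F'') (B : H →L[ℂ] H →L[ℂ] H)
    (h : ∀ f g p, ev'' p (A f g) = B (ev p f) (ev' p g)) {f : ι → F} {g : ι → F'}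
    (hf : f ∈ TS ν γ ev d) (hg : g ∈ TS ν γ ev' e) :
    (fun n => A (f n) (g n)) ∈ TS ν γ ev'' (d + e) := by
  refine TS_ind (ContinuousLinearMap.pi fun n => A.flip (g n) ∘L ContinuousLinearMap.proj n)
    (TS_closed _) (fun f Φ h1 v h2 => ?_) hf
  refine TS_lin (fun n => A (f n)) (fun g Ψ h3 w h4 => ⟨Φ * Ψ, EP_mul h1 h3, B v w, fun n p => ?_⟩) hg
  rw [h, h2, h4]
  simp [smul_smul, mul_comm]

theorem TS_kill {c : ι → ℂ} {d : ℕ} (hc : ∀ j ≤ d, ∑ n, c n * ν n ^ j = 0) {p : Pt}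
    (hp : Per ν fun n => γ n p) {g : ι → F} (hg : g ∈ TS ν γ ev d) :
    ∑ n, c n • ev p (g n) = 0 := by
  have := TS_ind (∑ n, c n • (ev p ∘L ContinuousLinearMap.proj n)) (S := ⊥) isClosed_singleton
    (fun g Φ h1 v h2 => ?_) hg
  · simpa using this
  · simp [h2, smul_smul, ← Finset.sum_smul, PN_kill hc (EP_eval hp h1)]

/-- the meaning of a Green operator `∫_a^t e^{m (t - u)} · du` along a path -/
def IsG (γ : Pt → ℂ) (ev : Pt → F →L[ℂ] H) (ev' : Pt → F' →L[ℂ] H) (m : ℤ) (a σ : ℂ)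
    (A : F →L[ℂ] F') : Prop :=
  ∀ φ Φ : ℂ → ℂ, Continuous φ → (∀ t, HasDerivAt Φ (φ t) t) → ∀ (f : F) (v : H),
    (∀ p, ev p f = (exp (m * γ p) * φ (γ p)) • v) →
      ∀ p, ev' p (A f) = (σ * (exp (m * γ p) * (Φ (γ p) - Φ a))) • v

theorem TS_G {d : ℕ} {m : ℤ} {a : ι → ℂ} {σ : ℂ} (ha : Per ν a) (A : ι → F →L[ℂ] F')
    (hA : ∀ n, IsG (γ n) ev ev' m (a n) σ (A n)) {g : ι → F} (hg : g ∈ TS ν γ ev d) :
    (fun n => A n (g n)) ∈ TS ν γ ev' (d + 1) := by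
  refine TS_lin A (fun g φ h1 v h2 => ?_) hg
  have h3 := EP_exp_mul (-m) h1
  obtain ⟨Φ, h4, h5⟩ := EP_anti h3
  refine ⟨_, Submodule.smul_mem _ σ (EP_exp_mul m (sub_mem h4 (PN_EP (EP_eval ha h4)))), v,
    fun n p => hA n _ _ (EP_cont h3 n) (h5 n) _ v (fun p => ?_) p⟩
  rw [h2, ← mul_assoc, ← exp_add]; simp

theorem TS_free {m : ℤ} {σ : ℂ} {g : ι → F} {v : H}
    (h : ∀ n p, ev p (g n) = (σ * exp (m * γ n p)) • v) : g ∈ TS ν γ ev 0 :=
  TS_gen (Submodule.smul_mem _ σ (EP_exp m)) h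

end Crest.Agent.N207.L

end
end

-- ▼ part N207/L/Pol4
section

/-!
# Row 207, block L (helper77): POLY, the Green operators of a path, and the
filtrations of the sequence spaces
-/

set_option autoImplicit false
set_option linter.unusedSectionVars false

open Set Filter Complex MeasureTheory BoundedContinuousFunction
open scoped Topology

noncomputable section

namespace Crest.Agent.N207.L

open Crest.Agent.N207.J

namespace Pth.Ok

variable {γ : Pth} {C o : ℝ} {ev ev' : ℝ → BH →L[ℂ] H}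

theorem ode_anti (h : γ.Ok C o) (m σ c : ℂ) {φ Φ : ℂ → ℂ} (hΦ : ∀ t, HasDerivAt Φ (φ t) t) (v : H) :
    Ode γ.τ m (fun x => σ • (exp (m * γ.t x) * φ (γ.t x)) • v)
      fun x => (σ * (exp (m * γ.t x) * (Φ (γ.t x) - c))) • v := by
  have hc : Continuous Φ := continuous_iff_continuousAt.2 fun t => (hΦ t).continuousAt
  have := h.cont
  refine ⟨by fun_prop, fun x => ?_⟩
  refine ((((h.der_exp m x).mul (((hΦ _).comp_hasDerivWithinAt x (h.der x)).sub_const c)).const_mul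
    σ).smul_const v).congr_deriv ?_
  simp only [smul_smul, ← add_smul, Function.comp_apply]
  congr 1; ring

theorem isG_gm (h : γ.Ok C o) (h0 : 0 < o) {k : ℕ} {c : ℂ} (hc : c ≠ 0)
    (hev : ∀ x f, c • ev x f = γ.tw 2 k x • f x) (hev' : ∀ x f, c • ev' x f = γ.tw 1 k x • f x) :
    IsG γ.t ev ev' (-(k + 2 : ℕ)) (γ.t γ.a) 1 (γ.gm H k) := by
  intro φ Φ _ hΦ f v hf x
  refine smul_right_injective H hc ?_
  push_cast at hf ⊢
  simp only [hev', smul_comm c]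
  exact h.uniq_pt (h.ode_gm h0 k f) ((h.ode_anti _ 1 (Φ (γ.t γ.a)) hΦ (c • v)).congr
    (fun x => by rw [← hev, hf, one_smul, smul_comm]) fun _ => rfl) (y := γ.a)
    (by simp [h.gm_a h0]) x

theorem isG_gp (h : γ.Ok C o) (h0 : 0 < o) (hfin : γ.fin = true) {k : ℕ} {c : ℂ} (hc : c ≠ 0)
    (hev : ∀ x f, c • ev x f = γ.tw 2 k x • f x) (hev' : ∀ x f, c • ev' x f = γ.tw 1 k x • f x) :
    IsG γ.t ev ev' k (γ.t (γ.pt k)) (-1) (γ.gp H k) := by
  intro φ Φ _ hΦ f v hf x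
  refine smul_right_injective H hc ?_
  push_cast at hf ⊢
  simp only [hev', smul_comm c]
  exact h.uniq_pt (h.ode_gp h0 k f) ((h.ode_anti _ (-1) (Φ (γ.t (γ.pt k))) hΦ (c • v)).congr
    (fun x => by rw [← hev, hf, neg_one_smul, smul_comm]) fun _ => rfl) (y := γ.pt k)
    (by simp [h.gp_pt h0 hfin]) x

theorem em_eq (h : γ.Ok C o) (h0 : 0 < o) (k : ℕ) (A : H) (x : ℝ) : γ.tw 1 k x • γ.em H k A x =
    (γ.tw 1 k γ.a * exp ((k + 2 : ℕ) * γ.t γ.a) * exp ((-(k + 2 : ℕ) : ℤ) * γ.t x)) • A := by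
  rw [h.hom (h.ode_em h0 k A) x γ.a, h.em_a h0, smul_smul, mul_assoc, ← exp_add, mul_comm]
  congr 3; push_cast; ring

theorem ep_eq (h : γ.Ok C o) (h0 : 0 < o) (hfin : γ.fin = true) (k : ℕ) (A : H) (x : ℝ) :
    γ.tw 1 k x • γ.ep H k A x =
      (γ.tw 1 k (γ.pt k) * exp (-(k * γ.t (γ.pt k))) * exp ((k : ℤ) * γ.t x)) • A := by
  rw [h.hom (h.ode_ep h0 k A) x (γ.pt k), h.ep_pt h0 hfin, smul_smul, mul_assoc, ← exp_add, mul_comm]
  congr 3; push_cast; ring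

end Pth.Ok

/-! ### sequence spaces -/

variable {ι F F' F'' : Type} [Fintype ι] [NormedAddCommGroup F] [NormedSpace ℂ F]
  [NormedAddCommGroup F'] [NormedSpace ℂ F'] [NormedAddCommGroup F''] [NormedSpace ℂ F'']

/-- families of sequences whose modes lie in `T` -/
def CE (T : Submodule ℂ (ι → F)) : Submodule ℂ (ι → J.CL F) where
  carrier := {x | ∀ k, (fun n => x n k) ∈ T}
  add_mem' := fun hx hy k => T.add_mem (hx k) (hy k)
  zero_mem' := fun _ => T.zero_mem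
  smul_mem' := fun c _ hx k => T.smul_mem c (hx k)

theorem CE_mono {T T' : Submodule ℂ (ι → F)} (h : T ≤ T') : CE T ≤ CE T' := fun _ hx k => h (hx k)

theorem CE_dg {T : Submodule ℂ (ι → F)} {T' : Submodule ℂ (ι → F')} {A : ι → ℕ → F →L[ℂ] F'}
    {c : ℝ} (hA : ∀ n k, ‖A n k‖ ≤ c) (h : ∀ k, ∀ g ∈ T, (fun n => A n k (g n)) ∈ T')
    {x : ι → J.CL F} (hx : x ∈ CE T) : (fun n => dg (A n) (x n)) ∈ CE T' := fun k => by
  simp only [dg_apply (hA _)]
  exact h k _ (hx k)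

theorem CE_sc {T : Submodule ℂ (ι → F)} {s : ℕ → ℂ} {c : ℝ} (hs : ∀ k, ‖s k‖ ≤ c)
    {x : ι → J.CL F} (hx : x ∈ CE T) : (fun n => J.sc F s (x n)) ∈ CE T := fun k => by
  simp only [sc_apply hs]
  exact T.smul_mem _ (hx k)

theorem mem_of_hasSum {α : Type*} {T : Submodule ℂ (ι → F)} (hT : IsClosed (T : Set (ι → F)))
    {a : α → ι → F} {b : ι → F} (h : ∀ n, HasSum (fun i => a i n) (b n)) (ha : ∀ i, a i ∈ T) :
    b ∈ T :=
  hT.mem_of_tendsto (Pi.hasSum.2 h) (Eventually.of_forall fun _ => T.sum_mem fun i _ => ha i)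


end Crest.Agent.N207.L

end
end

-- ▼ part N207/L/Pol5
section

/-!
# Row 207, block L (helper77): POLY, the operations of a layer respect the filtrations
-/

set_option autoImplicit false
set_option linter.unusedSectionVars false

open Set Filter Complex
open scoped Topology
open Crest.Agent.R246.Zon797 (Pr)

noncomputable section

namespace Crest.Agent.N207.L

open Crest.Agent.N207.J

variable {ι Pt F1 F2 : Type} [Fintype ι] [NormedAddCommGroup F1] [NormedSpace ℂ F1]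
  [CompleteSpace F1] [NormedAddCommGroup F2] [NormedSpace ℂ F2] [CompleteSpace F2] {C : ℝ}
  {Y : Layer Pt F1 F2 C} {ν : ι → ℂ} {γ : ι → Pt → ℂ} {d e : ℕ} {c : ℂ}

theorem TS_ylin (ho : ∀ p, Y.om p = c) (A : H →L[ℂ] H) {j : ℤ} (hj : -1 ≤ j) {g : ι → F1}
    (hg : g ∈ TS ν γ Y.ev1 d) : (fun n => Y.lin A j (g n)) ∈ TS ν γ Y.ev1 d :=
  TS_map _ (c ^ j • A) (fun f p => by rw [Y.ev_lin A hj, ho]; rfl) hg

theorem CE_mul (ho : ∀ p, Y.om p = c) {x y : ι → J.CL F1} (hx : x ∈ CE (TS ν γ Y.ev1 d))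
    (hy : y ∈ CE (TS ν γ Y.ev1 e)) : (fun n => Y.mul (x n) (y n)) ∈ CE (TS ν γ Y.ev2 (d + e)) := by
  intro j
  refine mem_of_hasSum (TS_closed _) (fun n => Y.hasSum_mul (x n) (y n) j) fun q =>
    Submodule.smul_mem _ _ ?_
  refine TS_bil (Y.mulE j q.1 q.2) ((c ^ j)⁻¹ • c ^ (q.1 + q.2) • mulH j q.1 q.2)
    (fun f g p => ?_) (hx q.1) (hy q.2)
  have := (eq_inv_smul_iff₀ (pow_ne_zero j (Y.om_ne p))).2 (Y.ev_mulE j q.1 q.2 f g p)
  rw [ho] at this
  exact this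

theorem CE_incl {x : ι → J.CL F2} (hx : x ∈ CE (TS ν γ Y.ev2 d)) :
    (fun n => Y.incl (x n)) ∈ CE (TS ν γ Y.ev1 d) := fun k => by
  simp only [Layer.incl, cm_apply]
  exact TS_map _ (ContinuousLinearMap.id ℂ H) (fun f p => Y.ev_inc f p) (hx k)

theorem CE_ml (ho : ∀ p, Y.om p = c) (m : ℕ) (φ : CS) {x : ι → J.CL F1}
    (hx : x ∈ CE (TS ν γ Y.ev1 d)) : (fun n => Y.ml m φ (x n)) ∈ CE (TS ν γ Y.ev1 d) := by
  by_cases hm : 4 ≤ m
  · intro j
    refine mem_of_hasSum (TS_closed _) (fun n => Y.hasSum_ml hm φ (x n) j) fun q =>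
      Submodule.smul_mem _ _ ?_
    by_cases hk : q.1 = 1
    · rw [hk]
      refine TS_map (Y.mlE φ j 1 q.2 (wn m 1))
        ((c ^ j)⁻¹ • (wn m 1 * c ^ q.2) • mulH j 1 q.2 (toH φ)) (fun f p => ?_) (hx q.2)
      have := (eq_inv_smul_iff₀ (pow_ne_zero j (Y.om_ne p))).2 (Y.ev_mlE φ j q.2 (wn m 1) f p)
      rw [ho] at this
      exact this
    · simp only [Layer.mlE, hk, false_and, if_false, zero_apply]
      exact zero_mem _
  · simp only [Layer.ml, dif_neg hm, zero_apply]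
    exact zero_mem _

theorem CE_rot (ho : ∀ p, Y.om p = c) (a : Pr 4) {x : ι → J.CL F1}
    (hx : x ∈ CE (TS ν γ Y.ev1 d)) : (fun n => Y.rot a (x n)) ∈ CE (TS ν γ Y.ev1 d) :=
  CE_dg (A := fun _ k => ((k : ℂ) + 1)⁻¹ • Y.lin (Rk a k) 0) (fun _ => Y.rot_bd a)
    (fun k _ hg => Submodule.smul_mem _ _ (TS_ylin ho (Rk a k) (by norm_num) hg)) hx

theorem CE_lw {F : Type} [NormedAddCommGroup F] [NormedSpace ℂ F] {T : Submodule ℂ (ι → F)} (m : ℕ)
    {x : ι → J.CL F} (hx : x ∈ CE T) : (fun n => lw F m (x n)) ∈ CE T := CE_sc (lw_bd m) hx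

theorem filt_layer (ho : ∀ p, Y.om p = c) {𝒜 : Alg (J.CL F1) (J.CL F2)} (hm : 𝒜.mul = Y.mul)
    (hi : 𝒜.inc = Y.incl) :
    (𝒜.pi ι).Filt (fun d => CE (TS ν γ Y.ev1 d)) fun d => CE (TS ν γ Y.ev2 d) := by
  refine ⟨fun _ _ h => CE_mono (TS_mono h), fun d e x hx y hy => ?_, fun d x hx => ?_⟩
  · have := CE_mul ho hx hy
    rw [← hm] at this
    exact this
  · have := CE_incl hx
    rw [← hi] at this
    exact this

/-- the coefficients of `dif r` on `Fin (M + 1)` -/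
def dc (M r : ℕ) (n : Fin (M + 1)) : ℂ := if (n : ℕ) ≤ r then (-1) ^ (r - n) * r.choose n else 0

theorem sum_dc {W : Type*} [NormedAddCommGroup W] [NormedSpace ℂ W] {M r : ℕ} (hr : r ≤ M)
    (a : ℕ → W) : ∑ n : Fin (M + 1), dc M r n • a n = dif r a := by
  rw [dif_eq']
  refine (Finset.sum_range (n := M + 1) fun n => (if n ≤ r then (-1 : ℂ) ^ (r - n) * r.choose n
    else 0) • a n).symm.trans ?_
  symm
  refine Finset.sum_subset_zero_on_sdiff (Finset.range_subset_range.2 (by omega))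
    (fun n hn => ?_) fun n hn => ?_
  · simp only [Finset.mem_sdiff, Finset.mem_range] at hn
    rw [if_neg (by omega), zero_smul]
  · rw [if_pos (Nat.lt_succ_iff.1 (Finset.mem_range.1 hn))]

theorem sum_dc_pow {M r j : ℕ} (hr : r ≤ M) (hj : j < r) :
    ∑ n : Fin (M + 1), dc M r n * ((n : ℕ) : ℂ) ^ j = 0 := by
  have h1 := sum_dc hr fun n : ℕ => (n : ℂ) ^ j
  have h2 := dif_fun r (fun z : ℂ => z ^ j) 1 0
  rw [fwdDiff_iter_pow_eq_zero_of_lt hj] at h2
  simp only [zero_add, mul_one, Pi.zero_apply] at h2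
  exact h1.trans h2

end Crest.Agent.N207.L

end
end

-- ▼ part N207/L/Pol6
section

/-!
# Row 207, block L (helper77): POLY for the stored fixed point equation
-/

set_option autoImplicit false
set_option linter.unusedSectionVars false

open Set Filter Complex Asymptotics
open scoped Topology

noncomputable section

namespace Crest.Agent.N207.L

open Crest.Agent.N207.J

section
variable {ι Pt F1 F2 : Type} [Fintype ι] [NormedAddCommGroup F1] [NormedSpace ℂ F1]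
  [CompleteSpace F1] [NormedAddCommGroup F2] [NormedSpace ℂ F2] [CompleteSpace F2] {C : ℝ}
  {Y : Layer Pt F1 F2 C} {ν : ι → ℂ} {γ : ι → Pt → ℂ} {d : ℕ} {c : ℂ}

theorem CE_dd (ho : ∀ p, Y.om p = c) (m : ℕ) (a : Fin 4) {x y : ι → J.CL F1}
    (hx : x ∈ CE (TS ν γ Y.ev1 d)) (hy : y ∈ CE (TS ν γ Y.ev1 d)) :
    (fun n => Y.dd m a (x n, y n)) ∈ CE (TS ν γ Y.ev1 d) := by
  have := add_mem (CE_ml ho m (xc a) hy)
    (Submodule.sum_mem _ fun b (_ : b ∈ Finset.univ) => CE_ml ho m (rx b a) (CE_rot ho b hx))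
  convert this using 1
  funext n
  simp only [Layer.dd_apply, Pi.add_apply, Finset.sum_apply]

theorem CE_jetc (ho : ∀ p, Y.om p = c) (j : Jx) {p q : ι → J.CL F1} {f : ι → J.CL F2}
    (hp : p ∈ CE (TS ν γ Y.ev1 d)) (hq : q ∈ CE (TS ν γ Y.ev1 d)) (hf : f ∈ CE (TS ν γ Y.ev2 d)) :
    (fun n => Y.jetc j (p n, q n, f n)) ∈ CE (TS ν γ Y.ev1 d) := by
  have h0 : (fun n => Layer.u0 (p n, q n, f n)) ∈ CE (TS ν γ Y.ev1 d) := add_mem hp hq
  have h1 : (fun n => Layer.u1 (p n, q n, f n)) ∈ CE (TS ν γ Y.ev1 d) :=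
    sub_mem (CE_sc bd_s1 hp) (CE_sc bd_s2 hq)
  have h2 : (fun n => Y.u2 (p n, q n, f n)) ∈ CE (TS ν γ Y.ev1 d) :=
    add_mem (add_mem (CE_sc bd_s1sq hp) (CE_sc bd_s2sq hq)) (CE_incl hf)
  rcases j with _ | a | e
  · exact CE_lw 2 h0
  · exact CE_lw 1 (CE_dd ho 5 a h0 h1)
  · exact sub_mem (CE_dd ho 4 e.1 (CE_dd ho 5 e.2 h0 h1) (CE_dd ho 4 e.2 h1 h2))
      (CE_ml ho 4 (xc e.1) (CE_lw 1 (CE_dd ho 5 e.2 h0 h1)))

theorem Per.exp_eq {a : ι → ℂ} (h : Per ν a) : ∃ α, ∀ (m : ℤ) n, exp (m * a n) = exp (m * α) := by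
  obtain ⟨α, β, h1, h2⟩ := h
  exact ⟨α, fun m n => by
    rw [h1, mul_add, exp_add, exp_int_mul (β * ν n), h2, one_zpow, mul_one]⟩

end

/-- a finite family of curves with common weights and periodic ends -/
structure PFam {I : Type} (ν : I → ℂ) (γ : Pth) (t τ : I → ℝ → ℂ) (C o : ℝ) : Prop where
  op : 0 < o
  ok : ∀ n, (γ.re (t n) (τ n)).Ok C o
  om : ∀ x, γ.om x = o
  fin : γ.fin = true
  pa : Per ν fun n => t n γ.a
  pp : ∀ k, Per ν fun n => t n (γ.pt k)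

namespace PFam

variable {I : Type} [Fintype I] {ν : I → ℂ} {γ : Pth} {t τ : I → ℝ → ℂ} {C o C' : ℝ}
  (h : PFam ν γ t τ C o) (h1 : 1 ≤ C') (h2 : 16 * C ≤ C') {d : ℕ}
include h

theorem ev1 (n : I) (k : ℕ) (x : ℝ) (f : BH) :
    (o : ℂ) ^ k • evW γ.w x f = (γ.re (t n) (τ n)).tw 1 k x • f x := by
  rw [evW_apply, smul_smul]
  simp [Pth.tw, Pth.re, h.om, mul_comm]

theorem ev2 (n : I) (k : ℕ) (x : ℝ) (f : BH) :
    (o : ℂ) ^ k • evW (fun x => γ.w x ^ 2) x f = (γ.re (t n) (τ n)).tw 2 k x • f x := by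
  rw [evW_apply, smul_smul]
  simp [Pth.tw, Pth.re, h.om, mul_comm]

theorem one (k : ℕ) : (o : ℂ) ^ k ≠ 0 := pow_ne_zero k (ofReal_ne_zero.2 h.op.ne')

/-- the Green parts -/
def G (n : I) : Grn BH BH C' := (h.ok n).grn h.op h1 h2

theorem EM (A : D) : (fun n => (h.G h1 h2 n).EM A) ∈ CE (TS ν t (evW γ.w) 0) := fun k => by
  obtain ⟨α, hα⟩ := h.pa.exp_eq
  refine TS_free (m := -(k + 2 : ℕ)) (σ := γ.tw 1 k γ.a * exp ((k + 2 : ℕ) * α))
    (v := ((o : ℂ) ^ k)⁻¹ • A k) fun n x => ?_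
  have := hα (k + 2 : ℕ) n
  rw [Int.cast_natCast] at this
  rw [smul_comm, eq_inv_smul_iff₀ (h.one k), h.ev1 n k, Grn.EM_apply, ← this]
  exact (h.ok n).em_eq h.op k (A k) x

theorem EP (A : D) : (fun n => (h.G h1 h2 n).EP A) ∈ CE (TS ν t (evW γ.w) 0) := fun k => by
  obtain ⟨α, hα⟩ := (h.pp k).exp_eq
  refine TS_free (m := k) (σ := γ.tw 1 k (γ.pt k) * exp (-(k * α)))
    (v := ((o : ℂ) ^ k)⁻¹ • A k) fun n x => ?_
  have := hα (-k) n
  rw [Int.cast_neg, Int.cast_natCast, neg_mul, neg_mul] at this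
  rw [smul_comm, eq_inv_smul_iff₀ (h.one k), h.ev1 n k, Grn.EP_apply, ← this]
  exact (h.ok n).ep_eq h.op h.fin k (A k) x

theorem GM {f : I → CL} (hf : f ∈ CE (TS ν t (evW fun x => γ.w x ^ 2) d)) :
    (fun n => (h.G h1 h2 n).GM (f n)) ∈ CE (TS ν t (evW γ.w) (d + 1)) := fun k => by
  simp only [Grn.GM_apply]
  exact Submodule.smul_mem _ (((k : ℂ) + 1) / 2) (TS_G h.pa _
    (fun n => (h.ok n).isG_gm h.op (h.one k) (h.ev2 n k) (h.ev1 n k)) (hf k))

theorem GP {f : I → CL} (hf : f ∈ CE (TS ν t (evW fun x => γ.w x ^ 2) d)) :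
    (fun n => (h.G h1 h2 n).GP (f n)) ∈ CE (TS ν t (evW γ.w) (d + 1)) := fun k => by
  simp only [Grn.GP_apply]
  exact Submodule.smul_mem _ (((k : ℂ) + 1) / 2) (TS_G (h.pp k) _
    (fun n => (h.ok n).isG_gp h.op h.fin (h.one k) (h.ev2 n k) (h.ev1 n k)) (hf k))

omit h in
/-- diagonal operators -/
def diag {X X' : Type} [NormedAddCommGroup X] [NormedSpace ℂ X] [NormedAddCommGroup X']
    [NormedSpace ℂ X'] (A : I → X →L[ℂ] X') : (I → X) →L[ℂ] (I → X') :=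
  ContinuousLinearMap.pi fun n => A n ∘L ContinuousLinearMap.proj n

variable {ι : Type} [Fintype ι] [DecidableEq ι] {Q : (ι × Jx → ℂ) → ι → ℂ} {β : ℝ}

/-- the expansions of the stored solutions -/
theorem good (W : Wts γ.w γ.om o) {𝒜 : Alg CL CL} (hm : 𝒜.mul = W.bcf.mul)
    (hi : 𝒜.inc = W.bcf.incl) (hβ : 𝒜.Bnd β) (S : Ser Q) (A B : ι → D) {f : ℂ → I → ι → CL}
    (hf : f =O[𝓝 0] fun s : ℂ => s)
    (hfix : ∀ᶠ s in 𝓝 (0 : ℂ), ∀ n, 𝒜.Qh S (fun m => W.bcf.jetc m.2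
      ((h.G h1 h2 n).EP (s • B m.1) - (h.G h1 h2 n).GP (f s n m.1),
        (h.G h1 h2 n).EM (s • A m.1) - (h.G h1 h2 n).GM (f s n m.1), f s n m.1)) = f s n)
    (N : ℕ) (i : ι) :
    Good (fun d => CE (TS ν t (evW γ.w) d)) 1 (N + 1)
      (fun s n => (h.G h1 h2 n).EP (s • B i) - (h.G h1 h2 n).GP (f s n i)) ∧
    Good (fun d => CE (TS ν t (evW γ.w) d)) 1 (N + 1)
      (fun s n => (h.G h1 h2 n).EM (s • A i) - (h.G h1 h2 n).GM (f s n i)) := by
  have ho : ∀ p, W.bcf.om p = o := fun p => by simp [h.om]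
  have hF := filt_layer (ν := ν) (γ := t) ho hm hi
  let u0 : ι × Jx → I → CL := fun m n =>
    W.bcf.jetc m.2 ((h.G h1 h2 n).EP (B m.1), (h.G h1 h2 n).EM (A m.1), 0)
  let J : ι × Jx → (I → CL) →L[ℂ] (I → CL) := fun m => diag fun n => W.bcf.jetc m.2 ∘L
    (-(h.G h1 h2 n).GP).prod ((-(h.G h1 h2 n).GM).prod (ContinuousLinearMap.id ℂ CL))
  have hf' : ∀ i, (fun s n => f s n i) =O[𝓝 0] fun s : ℂ => s := fun i =>
    isBigO_pi.2 fun n => isBigO_pi.1 (isBigO_pi.1 hf n) i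
  have e : ∀ s m n, (s • u0 m + J m (fun n => f s n m.1)) n = W.bcf.jetc m.2
      ((h.G h1 h2 n).EP (s • B m.1) - (h.G h1 h2 n).GP (f s n m.1),
        (h.G h1 h2 n).EM (s • A m.1) - (h.G h1 h2 n).GM (f s n m.1), f s n m.1) := fun s m n => by
    change s • W.bcf.jetc m.2 _ + W.bcf.jetc m.2 (-(h.G h1 h2 n).GP (f s n m.1),
      -(h.G h1 h2 n).GM (f s n m.1), f s n m.1) = _
    rw [← map_smul, ← map_add]
    simp [sub_eq_add_neg]
  have hs : ∀ᶠ s in 𝓝 (0 : ℂ), ‖fun m => s • u0 m + J m fun n => f s n m.1‖ ≤ Alg.rad S β / 2 := by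
    have : (fun s m => s • u0 m + J m fun n => f s n m.1) =O[𝓝 0] fun s : ℂ => s :=
      isBigO_pi.2 fun m => IsBigO.add
        (by simpa using (isBigO_refl (fun s : ℂ => s) (𝓝 0)).smul (isBigO_const_one ℂ (u0 m) (𝓝 0)))
        (((J m).isBigO_comp _ _).trans (hf' m.1))
    filter_upwards [(this.trans_tendsto tendsto_id).eventually
      (Metric.closedBall_mem_nhds 0 (half_pos (Alg.rad_pos S hβ.one_le)))] with s hs
    exact mem_closedBall_zero_iff.1 hs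
  have key := hF.fix hβ.pi S (u0 := u0)
    (fun m => CE_jetc ho m.2 (h.EP h1 h2 _) (h.EM h1 h2 _) (zero_mem _)) Prod.fst J
    (fun m d x hx => CE_jetc ho m.2 (neg_mem (h.GP h1 h2 hx)) (neg_mem (h.GM h1 h2 hx))
      (CE_mono (TS_mono (Nat.le_succ d)) hx)) (f := fun s i n => f s n i) (isBigO_pi.2 hf')
    (by
      filter_upwards [hfix, hs] with s h3 h4
      funext i n
      rw [Alg.pi_Qh hβ S h4]
      simp only [e]
      exact congrFun (h3 n) i) N i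
  constructor
  · refine (Good.add (Good.single (a := 1) (h.EP h1 h2 (B i))) (key.clm (diag fun n =>
      -(h.G h1 h2 n).GP) fun d x hx => neg_mem (h.GP h1 h2 hx))).congr
      (Eventually.of_forall fun s => funext fun n => ?_)
    simp [diag, sub_eq_add_neg]
  · refine (Good.add (Good.single (a := 1) (h.EM h1 h2 (A i))) (key.clm (diag fun n =>
      -(h.G h1 h2 n).GM) fun d x hx => neg_mem (h.GM h1 h2 hx))).congr
      (Eventually.of_forall fun s => funext fun n => ?_)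
    simp [diag, sub_eq_add_neg]

end PFam

/-- finite differences of the traces of good families -/
theorem Good.dif_trc {M r : ℕ} (hr : r ≤ M) {t : Fin (M + 1) → ℝ → ℂ} {w : ℝ → ℝ} {x : ℝ}
    (hw : w x ≠ 0) (hx : Per (fun n : Fin (M + 1) => ((n : ℕ) : ℂ)) fun n => t n x)
    {g : ℂ → Fin (M + 1) → CL} {g' : ℂ → ℕ → CL}
    (hg : Good (fun d => CE (TS (fun n : Fin (M + 1) => ((n : ℕ) : ℂ)) t (evW w) d)) 1 (r + 1) g)
    (hg' : ∀ᶠ s in 𝓝 (0 : ℂ), ∀ n, trc x (g s n) = trc x (g' s n)) :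
    (fun s => dif r fun n => trc x (g' s n)) =O[𝓝 0] fun s : ℂ => s ^ (r + 1) := by
  have := hg.kill (∑ n, dc M r n • (trc x ∘L ContinuousLinearMap.proj n)) fun d hd y hy => by
    refine CL.ext fun k => ?_
    have h1 := TS_kill (c := dc M r) (fun j hj => sum_dc_pow hr (by omega)) hx (hy k)
    simp only [evW_apply, smul_comm _ (w x : ℂ), ← Finset.smul_sum] at h1
    have h2 := congrArg (P k) ((smul_eq_zero.1 h1).resolve_left (ofReal_ne_zero.2 hw))
    rw [_root_.sum_apply, lp.coeFn_sum, Finset.sum_apply]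
    simpa [trc_apply] using h2
  refine this.congr' (hg'.mono fun s hs => ?_) EventuallyEq.rfl
  simp only [← sum_dc hr, ← hs]
  simp

end Crest.Agent.N207.L

end
end

-- ▼ part N207/L/Pol7
section

/-!
# Row 207, block L (helper77): the stored fixed point equation of a solution; `PolyStmt`
-/

set_option autoImplicit false
set_option linter.unusedSectionVars false

open Set Filter Complex Asymptotics Metric
open scoped Topology Real

noncomputable section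

namespace Crest.Agent.N207.L

open Crest.Agent.N207.J

variable {ι : Type} [Fintype ι] {N : NL ι} {γ : Pth} {C o C' η : ℝ} {p q F : ι → Md}
  {A B : ι → D}

theorem tru_duh (γ : Pth) {e : H →L[ℂ] BH} {G : BH →L[ℂ] BH} {X f : CL} {a : H} {k : ℕ} {x : ℝ}
    {u : H} (hf : Prp f) (hu : P k u = u) (he : ∃ c : ℂ, ∀ a, e a x = c • a)
    (hX : X k = e a - (((k : ℂ) + 1) / 2) • G (f k))
    (h : u = γ.tw 1 k x • (e ((((wt (6 : ℕ) k)⁻¹ : ℝ) : ℂ) • P k a) x -
      (2 * (k : ℂ) + 2)⁻¹ • G (srcM f k) x)) : tru 6 γ.w γ.om X k x = u := by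
  obtain ⟨c, hc⟩ := he
  have e1 : srcM f k = (wn 4 k)⁻¹ • f k := BoundedContinuousFunction.ext fun y => by
    change (((wt (4 : ℕ) k)⁻¹ : ℝ) : ℂ) • P k (f k y) = _
    rw [hf, ofReal_inv, wt_eq_wn]; rfl
  rw [← hu, h, tru_sol, hX, e1]
  simp only [BoundedContinuousFunction.coe_sub, BoundedContinuousFunction.coe_smul, Pi.sub_apply,
    hc, map_smul, map_sub, P_P, smul_sub, smul_smul, ofReal_inv, wt_eq_wn, Grn.half_wn]

theorem Sol.tru_q (h : γ.Ok C o) (ho : 0 < o) (h1 : 1 ≤ C') (h2 : 16 * C ≤ C')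
    (hs : Sol N γ.τ γ.w γ.om η p q F) (hd : Dat γ p q A B) {i : ι} {f : CL} (hf : Prp f)
    (ef : tru 4 (fun x => γ.w x ^ 2) γ.om f = F i) :
    tru 6 γ.w γ.om ((h.grn ho h1 h2).EM (A i) - (h.grn ho h1 h2).GM f) = q i := by
  funext k x
  refine tru_duh γ (e := γ.em H k) (G := γ.gm H k) (a := A i k) hf ((hs.bq i).mode k x)
    ⟨_, fun a => h.em_apply ho k a x⟩ (by
      rw [lp.coeFn_sub, Pi.sub_apply, Grn.EM_apply, Grn.GM_apply]; rfl) ?_
  refine h.duh_q ho k _ ((hs.ode_q i k).congr (fun x => ?_) fun _ => rfl) ?_ x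
  · rw [← tru_src, ef]
  · rw [← smul_trD]; exact hd.hq i k

theorem Sol.tru_p (h : γ.Ok C o) (ho : 0 < o) (hfin : γ.fin = true) (h1 : 1 ≤ C')
    (h2 : 16 * C ≤ C') (hs : Sol N γ.τ γ.w γ.om η p q F) (hd : Dat γ p q A B) {i : ι} {f : CL}
    (hf : Prp f) (ef : tru 4 (fun x => γ.w x ^ 2) γ.om f = F i) :
    tru 6 γ.w γ.om ((h.grn ho h1 h2).EP (B i) - (h.grn ho h1 h2).GP f) = p i := by
  funext k x
  refine tru_duh γ (e := γ.ep H k) (G := γ.gp H k) (a := B i k) hf ((hs.bp i).mode k x)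
    ⟨_, fun a => h.ep_apply ho hfin k a x⟩ (by
      rw [lp.coeFn_sub, Pi.sub_apply, Grn.EP_apply, Grn.GP_apply]; rfl) ?_
  refine h.duh_p ho k _ ((hs.ode_p i k).congr (fun x => ?_) fun _ => rfl) (fun _ => ?_)
    (M := 0) (fun h' => by simp [hfin] at h') x
  · rw [← tru_src, ef]
  · rw [← smul_trD]
    have := hd.hp hfin i k
    by_cases h0 : k = 0
    · subst h0
      simpa [trD] using this
    · simpa [Pth.pt, h0] using this

/-- the algebra of a layer -/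
def lalg {w om : ℝ → ℝ} (W : Wts w om o) : Alg CL CL := ⟨W.bcf.mul, W.bcf.incl⟩

theorem lalg_bnd {w om : ℝ → ℝ} (W : Wts w om o) : (lalg W).Bnd (96 * o⁻¹) := by
  have := W.one_le
  exact ⟨by linarith, W.bcf.norm_mul_apply, fun c => (W.bcf.incl.le_of_opNorm_le
    W.bcf.norm_incl c).trans (mul_le_mul_of_nonneg_right (by linarith) (norm_nonneg _))⟩

/-- the pointwise equation gives the stored one -/
theorem Qh_eq [DecidableEq ι] {w om : ℝ → ℝ} (W : Wts w om o) (S : Ser N.Q) {P' Q' f : ι → CL}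
    (hf : ∀ i, Prp (f i))
    (hJ : ‖fun m : ι × Jx => W.bcf.jetc m.2 (P' m.1, Q' m.1, f m.1)‖ ≤ Alg.rad S (96 * o⁻¹) / 2)
    (he : ∀ x y, (fun i => val (tru 4 (fun x => w x ^ 2) om (f i)) x y) = N.Q (jets
      (fun i => tru 6 w om (P' i)) (fun i => tru 6 w om (Q' i))
      (fun i => tru 4 (fun x => w x ^ 2) om (f i)) x y)) :
    (lalg W).Qh S (fun m => W.bcf.jetc m.2 (P' m.1, Q' m.1, f m.1)) = f := by
  funext i
  refine W.bcf.ext_syn2 (m := 4) (by norm_num) (Alg.Qh_mem (lalg_bnd W) S W.bcf.isClosed_prop2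
    W.bcf.mul_mem_prop2 hJ i) (W.mem_prop2.2 (hf i)) fun x => ContinuousMap.ext fun y => ?_
  have := Alg.Hom.chr (𝒜 := lalg W) (e1 := ContinuousMap.evalCLM ℂ y ∘L W.bcf.syn1 4 x)
    (e2 := ContinuousMap.evalCLM ℂ y ∘L W.bcf.syn2 4 x)
    ⟨fun a b => congrArg (fun u : CS => u y) (W.bcf.syn_mul x a b),
      fun c => congrArg (fun u : CS => u y) (W.bcf.syn_incl (by norm_num) x c)⟩ (lalg_bnd W)
    (fun a => ((W.bcf.syn1 4 x a).norm_coe_le_norm y).trans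
      ((W.bcf.norm_syn1_le (by norm_num) x a).trans (by
        have := W.one_le
        gcongr; norm_num))) S hJ i
  refine this.trans ?_
  rw [← W.val_tru2 (by norm_num), congrFun (he x y) i]
  congr 1
  funext m
  exact (W.jets_tru P' Q' f x y m).symm

theorem PFam.poly {r : ℕ} {t τ : Fin (r + 1) → ℝ → ℂ}
    (h : PFam (fun n : Fin (r + 1) => ((n : ℕ) : ℂ)) γ t τ C o) {S : ℂ → ℕ → Tr ι} {K : ℝ}
    (hS : ∀ᶠ s in 𝓝 (0 : ℂ), ∀ n : Fin (r + 1),
      Sol N (τ n) γ.w γ.om (K * ‖s‖) ((S s n).p γ) ((S s n).q γ) ((S s n).F γ) ∧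
        Dat γ ((S s n).p γ) ((S s n).q γ) (s • A) (s • B)) {x : ℝ}
    (hx : Per (fun n : Fin (r + 1) => ((n : ℕ) : ℂ)) fun n => t n x) (i : ι) :
    ((fun s => dif r fun n => trc x ((S s n).1 i)) =O[𝓝 0] fun s : ℂ => s ^ (r + 1)) ∧
      (fun s => dif r fun n => trc x ((S s n).2.1 i)) =O[𝓝 0] fun s : ℂ => s ^ (r + 1) := by
  classical
  obtain ⟨S0⟩ := exists_ser N.an N.q0 N.q1
  have W : Wts γ.w γ.om o := (h.ok 0).wts h.op
  have h1 := le_max_left 1 (16 * C)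
  have h2 := le_max_right 1 (16 * C)
  have ex : ∀ (s : ℂ) (n : Fin (r + 1)) (i : ι), ∃ f : CL,
      Bd 4 (fun x => γ.w x ^ 2) γ.om ((S s n).F γ i) (K * ‖s‖) → ‖f‖ ≤ K * ‖s‖ ∧ Prp f ∧
        tru 4 (fun x => γ.w x ^ 2) γ.om f = (S s n).F γ i := fun s n i => by
    by_cases hs : Bd 4 (fun x => γ.w x ^ 2) γ.om ((S s n).F γ i) (K * ‖s‖)
    · obtain ⟨f, hf⟩ := hs.exists (W.wc.pow 2) (fun x => pow_pos (W.w0 x) 2) W.oc W.om_pos
      exact ⟨f, fun _ => hf⟩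
    · exact ⟨0, fun a => absurd a hs⟩
  choose f hf using ex
  have hO : f =O[𝓝 0] fun s : ℂ => s :=
    isBigO_pi.2 fun n => isBigO_pi.2 fun i => IsBigO.of_bound K (hS.mono fun s hs =>
      (hf s n i ((hs n).1.bF i)).1)
  have tp : ∀ᶠ s in 𝓝 (0 : ℂ), ∀ n i, tru 6 γ.w γ.om ((h.G h1 h2 n).EP (s • B i) -
      (h.G h1 h2 n).GP (f s n i)) = (S s n).p γ i := hS.mono fun s hs n i =>
    Sol.tru_p (h.ok n) h.op h.fin h1 h2 (hs n).1 ⟨(hs n).2.hq, (hs n).2.hp⟩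
      (hf s n i ((hs n).1.bF i)).2.1 (hf s n i ((hs n).1.bF i)).2.2
  have tq : ∀ᶠ s in 𝓝 (0 : ℂ), ∀ n i, tru 6 γ.w γ.om ((h.G h1 h2 n).EM (s • A i) -
      (h.G h1 h2 n).GM (f s n i)) = (S s n).q γ i := hS.mono fun s hs n i =>
    Sol.tru_q (h.ok n) h.op h1 h2 (hs n).1 ⟨(hs n).2.hq, (hs n).2.hp⟩
      (hf s n i ((hs n).1.bF i)).2.1 (hf s n i ((hs n).1.bF i)).2.2
  have hL : ∀ (T : D →L[ℂ] CL) (G : CL →L[ℂ] CL) (a : D) n i,
      (fun s : ℂ => T (s • a) - G (f s n i)) =O[𝓝 0] fun s : ℂ => s := fun T G a n i =>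
    ((T.isBigO_comp _ _).trans (by
      simpa using (isBigO_refl (fun s : ℂ => s) (𝓝 0)).smul (isBigO_const_one ℂ a (𝓝 0)))).sub
      ((G.isBigO_comp _ _).trans (isBigO_pi.1 (isBigO_pi.1 hO n) i))
  have key := h.good h1 h2 W (𝒜 := lalg W) rfl rfl (lalg_bnd W) S0 A B hO (by
    rw [eventually_all]
    intro n
    have : (fun (s : ℂ) (m : ι × Jx) => W.bcf.jetc m.2 ((h.G h1 h2 n).EP (s • B m.1) -
        (h.G h1 h2 n).GP (f s n m.1), (h.G h1 h2 n).EM (s • A m.1) -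
        (h.G h1 h2 n).GM (f s n m.1), f s n m.1)) =O[𝓝 0] fun s : ℂ => s :=
      isBigO_pi.2 fun m => ((W.bcf.jetc m.2).isBigO_comp _ _).trans ((hL _ _ _ n _).prod_left
        ((hL _ _ _ n _).prod_left (isBigO_pi.1 (isBigO_pi.1 hO n) m.1)))
    filter_upwards [hS, tp, tq, (this.trans_tendsto tendsto_id).eventually (closedBall_mem_nhds 0
      (half_pos (Alg.rad_pos S0 (lalg_bnd W).one_le)))] with s hs e1 e2 h3
    refine Qh_eq W S0 (P' := fun i => (h.G h1 h2 n).EP (s • B i) - (h.G h1 h2 n).GP (f s n i))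
      (Q' := fun i => (h.G h1 h2 n).EM (s • A i) - (h.G h1 h2 n).GM (f s n i))
      (fun i => (hf s n i ((hs n).1.bF i)).2.1) (mem_closedBall_zero_iff.1 h3) fun x y => ?_
    simp only [e1, e2, (hf s n _ ((hs n).1.bF _)).2.2]
    exact (hs n).1.eq x y) r i
  have et : ∀ {X Y : CL}, tru 6 γ.w γ.om X = tru 6 γ.w γ.om Y → trc x X = trc x Y := fun e =>
    CL.ext fun k => by
      rw [trc_apply, trc_apply]
      exact (tru_eq_iff W.w0 W.om_pos).1 (congrFun (congrFun e k) x)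
  exact ⟨key.1.dif_trc le_rfl (W.w0 _).ne' hx (tp.mono fun s hs n => et (hs n i)),
    key.2.dif_trc le_rfl (W.w0 _).ne' hx (tq.mono fun s hs n => et (hs n i))⟩

theorem per_mid (ζ : ℂ) (w0 : ℝ) (r : ℕ) {x : ℝ} {e : ℤ} (hx : cl (-1) 1 x = e) :
    Per (fun n : Fin (r + 1) => ((n : ℕ) : ℂ))
      fun n => (mid (ζ + (n : ℕ) * (2 * π * I)) w0).t x :=
  ⟨(1 + ζ) * e, e * (2 * π * I), fun n => by simp only [mid, hx]; push_cast; ring, fun n => by
    have := exp_int_mul_two_pi_mul_I (e * (n : ℕ))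
    push_cast at this
    rw [← this]; congr 1; ring⟩

/-- **POLY** -/
theorem polyStmt (N : NL ι) : PolyStmt N := by
  intro C o ε K w0 ζ r S ho _ hS v hv
  have c1 := per_mid ζ w0 r (x := -1) (e := -1) (by simp [cl])
  have c2 := per_mid ζ w0 r (x := 1) (e := 1) (by simp [cl])
  have c0 := per_mid ζ w0 r (x := 0) (e := 0) (by simp [cl])
  have hle : ∀ n : Fin (r + 1), (n : ℕ) ≤ r := fun n => Nat.lt_succ_iff.1 n.2
  have h : PFam (fun n : Fin (r + 1) => ((n : ℕ) : ℂ)) ((mid 0 w0).omc o)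
      (fun n => (mid (ζ + (n : ℕ) * (2 * π * I)) w0).t)
      (fun n => (mid (ζ + (n : ℕ) * (2 * π * I)) w0).τ) C o :=
    ⟨ho, fun n => (hS n (hle n)).1, fun _ => rfl, rfl, c1, fun k => by
      unfold Pth.pt
      split_ifs
      exacts [c0, c2]⟩
  have hb : ∀ᶠ s in 𝓝 (0 : ℂ), s • v ∈ ball (0 : DD ι) ε :=
    (by fun_prop : Continuous fun s : ℂ => s • v).continuousAt.eventually_mem
      (by rw [zero_smul]; exact ball_mem_nhds _ ((norm_nonneg v).trans_lt (mem_ball_zero_iff.1 hv)))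
  have key := fun {x : ℝ} hx i => h.poly (N := N) (S := fun s n => S n (s • v)) (K := K * ‖v‖)
    (A := v.1) (B := v.2) (hb.mono fun s hs n => by
      have := (hS n (hle n)).2.sol _ hs
      rw [show K * ‖v‖ * ‖s‖ = K * ‖s • v‖ by rw [norm_smul]; ring]
      exact ⟨this.sol, this.dat.hq, this.dat.hp⟩) (x := x) hx i
  refine ((((isBigO_pi.2 fun i => (key c1 i).1).prod_left ((isBigO_pi.2 fun i =>
    (key c2 i).2).prod_left (isBigO_pi.2 fun i => (key c2 i).1))).trans_isLittleO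
    (isLittleO_pow_pow (Nat.lt_succ_self r))).norm_right).congr (fun s => ?_) fun s => norm_pow _ _
  simp only [dif_eq']
  refine Prod.ext (funext fun i => ?_) (Prod.ext (funext fun i => ?_) (funext fun i => ?_)) <;>
    simp [Prod.fst_sum, Prod.snd_sum, Finset.sum_apply, outL_apply, trP_apply, trQ_apply]

end Crest.Agent.N207.L

end
end

-- ▼ part N207/L/Xn1

/-! # N207/L/Xn1 (helper59): the extended neck, holomorphic part -/

set_option autoImplicit false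
set_option maxHeartbeats 1600000

open scoped ContDiff InnerProductSpace
open Metric Set Filter Topology MeasureTheory
open Crest.GeometryTopology.CoordMetric
open Crest.Agent.N207.I Crest.Agent.N207.J Crest.Agent.N207.CB Crest.Agent.N207.Lg

noncomputable section

namespace Crest.Agent.N207.L

/-- no energy data -/
def em1 : CB.DD →L[ℂ] (IX → D) :=
  ContinuousLinearMap.pi (Sum.rec (fun e => ContinuousLinearMap.proj e) fun _ => 0)

theorem em1_apply (y : CB.DD) : em1 y = Sum.elim y 0 := by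
  funext i; cases i <;> rfl

theorem norm_em1_le (y : CB.DD) : ‖em1 y‖ ≤ ‖y‖ :=
  (pi_norm_le_iff_of_nonneg (norm_nonneg _)).2 fun i => by
    cases i with
    | inl e => exact norm_le_pi_norm y e
    | inr _ => exact (norm_zero (E := D)).le.trans (norm_nonneg _)

/-- no energy data -/
def em2 : CB.DD × CB.DD →L[ℂ] DD IX := em1.prodMap em1

theorem norm_em2_le (y : CB.DD × CB.DD) : ‖em2 y‖ ≤ ‖y‖ :=
  max_le ((norm_em1_le _).trans (norm_fst_le y)) ((norm_em1_le _).trans (norm_snd_le y))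

/-- the analytic weight -/
abbrev o8 : ℝ := Real.exp (-(1 / 8))

/-- the action of the extended neck, read in the parent collar -/
def enL : Tr IX →L[ℂ] ℂ :=
  ((-2 * Real.exp (-2) : ℝ) : ℂ) • (innerSL ℂ (toH 1)) ∘L
    truL (colR (1 / 8)).w (colR (1 / 8)).om 0 (-4 + 3) ∘L ContinuousLinearMap.proj (.inr ()) ∘L
      ContinuousLinearMap.fst ℂ _ _ ∘L ContinuousLinearMap.snd ℂ _ _

theorem enL_apply (S : Tr IX) : enL S =
    ((-2 * Real.exp (-2) : ℝ) : ℂ) * ⟪toH 1, S.q (colR (1 / 8)) (.inr ()) 0 (-4 + 3)⟫_ℂ := by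
  have := truL_apply (colR (1 / 8)).w (colR (1 / 8)).om 0 (-4 + 3) (S.2.1 (.inr ()))
  exact congrArg (fun v => ((-2 * Real.exp (-2) : ℝ) : ℂ) * ⟪toH 1, v⟫_ℂ) this

theorem keep_kill (A : D) : keep (kill A) = 0 := CL.ext fun k => by
  rw [keep_apply, kill_apply]; split_ifs <;> rfl



section
variable {ι : Type} [Fintype ι]

theorem sub_QO_dL (y : DD ι) (u : D3 ι) : ‖dL y u - QO (dL y u)‖ ≤ ‖u‖ := by
  rw [norm_sub_QO]; exact norm_fst_le u

theorem sub_QI_dR (y : DD ι) (u : D3 ι) : ‖dR y u - QI (dR y u)‖ ≤ ‖u‖ := by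
  rw [norm_sub_QI]
  refine max_le ((norm_fst_le u.2).trans (norm_snd_le u)) ?_
  have : piL keep (dR y u).2 = piL keep u.2.2 := by
    funext i
    change keep (u.2.2 i + kill (y.2 i)) = keep (u.2.2 i)
    rw [map_add, keep_kill, add_zero]
  rw [this]
  exact (norm_piL_le norm_keep_le _).trans ((norm_snd_le u.2).trans (norm_snd_le u))

end

theorem xn_num {K C a δ u d e r : ℝ} (hK : 0 ≤ K) (hC : 0 ≤ C) (a0 : 0 ≤ a) (δ0 : 0 ≤ δ)
    (d0 : 0 ≤ d) (u0 : 0 ≤ u) (a1 : a < r) (δ1 : δ < r) (r1 : r ≤ 1) (hu : u ≤ C * (a ^ 2 + δ))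
    (hd : d ≤ a + u) (he : e ≤ u) :
    d ≤ (1 + 2 * C) * r ∧ K * (e + d ^ 2) ≤ K * (C + 2 + 4 * C ^ 2) * (a ^ 2 + δ) := by
  have m1 : a ^ 2 + δ ≤ 2 * r := by nlinarith
  have m2 : C * (a ^ 2 + δ) ≤ C * (2 * r) := mul_le_mul_of_nonneg_left m1 hC
  refine ⟨by nlinarith, ?_⟩
  rw [mul_assoc]
  refine mul_le_mul_of_nonneg_left ?_ hK
  have h1 : d ^ 2 ≤ (a + u) ^ 2 := pow_le_pow_left₀ d0 hd 2
  have h2 : u * u ≤ C * (a ^ 2 + δ) * (C * 2) :=
    mul_le_mul hu (by nlinarith) u0 (by positivity)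
  nlinarith [sq_nonneg (a - u)]

/-- the holomorphic data of the extended neck -/
structure XD (k : ℕ) (r0 : ℝ) (E : Type) [NormedAddCommGroup E] [NormedSpace ℂ E] (N : ℂ → E)
    (n0 : E) (ε C ℓ0 : ℝ) (X : E × CB.DD × CB.DD → MJ k × MJ k × ℂ) : Prop where
  hol : DifferentiableOn ℂ X (ball (n0, 0) ε)
  bd : ∀ p ∈ ball ((n0, 0) : E × CB.DD × CB.DD) ε,
    ‖(X p).1‖ ≤ C * (‖p.2‖ ^ 2 + ‖p.1 - n0‖) ∧ ‖(X p).2.1‖ ≤ C * (‖p.2‖ ^ 2 + ‖p.1 - n0‖) ∧
      ‖(X p).2.2‖ ≤ C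
  cpx : ∀ p ∈ ball ((n0, 0) : E × CB.DD × CB.DD) ε, Cpx 1 (X p).1 ∧ Cpx (-1) (X p).2.1
  real : ∀ ℓ : ℝ, ℓ0 ≤ ℓ → ∀ y : CB.DD × CB.DD,
    (N ℓ, y) ∈ ball ((n0, 0) : E × CB.DD × CB.DD) ε → ∃ u : D3 IX, 1 ≤ (ℓ - 8) / 2 ∧
      Idn NQ (1 / 8) ((ℓ - 8) / 2) (em2 y) u ∧ piL keep u.2.2 = u.2.2 ∧
      ‖em2 y‖ ≤ r0 ∧ ‖dL (em2 y) u‖ ≤ r0 ∧ ‖dR (em2 y) u‖ ≤ r0 ∧
      (∀ (x : J0) a b, ∀ z ∈ B1, ((X (N ℓ, y)).1 a b).val x z =
        EF NQ 10 o8 (colL (1 / 8)) (bcut 1) (dL (em2 y) u) (QO (dL (em2 y) u)) (.inl (a, b))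
          (x.1 + (‖x.1‖ / 8) • z)) ∧
      (∀ (x : J0) a b, ∀ z ∈ B1, ((X (N ℓ, y)).2.1 a b).val x z =
        EF NQ 10 o8 (colR (1 / 8)) (bcut (-1)) (dR (em2 y) u) (QI (dR (em2 y) u)) (.inl (a, b))
          (x.1 + (‖x.1‖ / 8) • z)) ∧
      (X (N ℓ, y)).2.2 = enL (SR NQ (1 / 8) (dR (em2 y) u))

theorem o8_pos : 0 < o8 := Real.exp_pos _

theorem eta8_pos : 0 < NQ.eta 10 o8 :=
  NQ.eta_pos' (by norm_num) o8_pos (Real.exp_le_one_iff.2 (by norm_num))

theorem xd_of (k : ℕ) {r0 : ℝ} (hr : 0 < r0) {E : Type} [NormedAddCommGroup E] [NormedSpace ℂ E]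
    {N : ℂ → E} {n0 : E} {ε' C L0 : ℝ} {u : E × DD IX → D3 IX} (hε' : 0 < ε') (hC : 0 < C)
    (diff : DifferentiableOn ℂ u (ball (n0, 0) ε'))
    (le : ∀ z ∈ ball ((n0, 0) : E × DD IX) ε', ‖u z‖ ≤ C * (‖z.2‖ ^ 2 + ‖z.1 - n0‖))
    (eta : ∀ z ∈ ball ((n0, 0) : E × DD IX) ε', ‖z.2‖ + ‖u z‖ < NQ.eta 10 o8)
    (kp : ∀ z, piL keep (u z).2.2 = (u z).2.2)
    (hI : ∀ l : ℝ, L0 ≤ l → ∀ y : DD IX,
      (N ((2 * l : ℝ) : ℂ), y) ∈ ball ((n0, 0) : E × DD IX) ε' →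
        1 ≤ l ∧ Idn NQ (1 / 8) l y (u (N ((2 * l : ℝ) : ℂ), y))) :
    ∃ (ε C' : ℝ) (X : (E × ℂ) × CB.DD × CB.DD → MJ k × MJ k × ℂ), 0 < ε ∧ ε ≤ r0 ∧ 0 < C' ∧
      XD k r0 (E × ℂ) (fun L => (N (L - (8 : ℝ)), Complex.exp (-2 * L))) (n0, 0) ε C'
        (2 * L0 + 8) X := by
  have k0 : (0 : ℝ) ≤ 1 / 8 := by norm_num
  obtain ⟨KO, BO, hKO, dO, hO⟩ := (col_L 1 (κ := 1 / 8) (C := 10) (by norm_num) le_rfl
    (by norm_num)).e2M supp_bcut_L k NQ Sum.inl QO (γ := colL (1 / 8)) rfl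
  obtain ⟨KI, BI, hKI, dI, hI'⟩ := (col_R (-4) (κ := 1 / 8) (C := 10) (by norm_num) le_rfl
    (by norm_num)).e2M supp_bcut_R k NQ Sum.inl QI (γ := colR (1 / 8)) rfl
  have η0 := eta8_pos
  obtain ⟨ρ, ρ0, ρ1, ρ2, ρ3⟩ : ∃ ρ : ℝ, 0 < ρ ∧ ρ ≤ 1 ∧ ρ ≤ r0 ∧ ρ ≤ NQ.eta 10 o8 / 4 :=
    ⟨min 1 (min r0 (NQ.eta 10 o8 / 4)), by positivity, min_le_left _ _,
      (min_le_right _ _).trans (min_le_left _ _), (min_le_right _ _).trans (min_le_right _ _)⟩
  obtain ⟨r, r0', r1, r2⟩ : ∃ r : ℝ, 0 < r ∧ r ≤ ε' ∧ (1 + 2 * C) * r ≤ ρ :=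
    ⟨min ε' (ρ / (1 + 2 * C)), by positivity, min_le_left _ _, by
      rw [← le_div_iff₀' (by positivity)]; exact min_le_right _ _⟩
  have r3 : r ≤ ρ := by nlinarith
  have hz : ∀ p ∈ ball (((n0, 0), 0) : (E × ℂ) × CB.DD × CB.DD) r,
      ‖p.1.1 - n0‖ ≤ ‖p.1 - (n0, 0)‖ ∧ ‖p.1 - (n0, 0)‖ < r ∧ ‖p.2‖ < r ∧
        (p.1.1, em2 p.2) ∈ ball ((n0, 0) : E × DD IX) ε' := fun p hp => by
    obtain ⟨h1, h2⟩ := mem_ball_pr hp
    have h3 : ‖p.1.1 - n0‖ ≤ ‖p.1 - (n0, 0)‖ := norm_fst_le (p.1 - (n0, 0))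
    refine ⟨h3, h1, h2, ?_⟩
    rw [mem_ball, Prod.dist_eq, dist_eq_norm, dist_zero_right]
    exact max_lt (by linarith) (by linarith [norm_em2_le p.2])
  have hn : ∀ p ∈ ball (((n0, 0), 0) : (E × ℂ) × CB.DD × CB.DD) r, ∀ {K d e : ℝ}, 0 ≤ K →
      0 ≤ d → d ≤ ‖em2 p.2‖ + ‖u (p.1.1, em2 p.2)‖ → e ≤ ‖u (p.1.1, em2 p.2)‖ → d ≤ ρ ∧
        K * (e + d ^ 2) ≤ K * (C + 2 + 4 * C ^ 2) * (‖p.2‖ ^ 2 + ‖p.1 - (n0, 0)‖) := by
    intro p hp K d e hK d0 hd he
    obtain ⟨h1, h2, h3, h4⟩ := hz p hp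
    have h5 := norm_em2_le p.2
    have h6 : ‖em2 p.2‖ ^ 2 ≤ ‖p.2‖ ^ 2 := pow_le_pow_left₀ (norm_nonneg _) h5 2
    have h7 : ‖u (p.1.1, em2 p.2)‖ ≤ C * (‖p.2‖ ^ 2 + ‖p.1 - (n0, 0)‖) :=
      (le _ h4).trans (mul_le_mul_of_nonneg_left (add_le_add h6 h1) hC.le)
    obtain ⟨a, b⟩ := xn_num hK hC.le (norm_nonneg _) (norm_nonneg _) d0 (norm_nonneg _) h3 h2
      (r3.trans ρ1) h7 (hd.trans (by linarith)) he
    exact ⟨a.trans r2, b⟩
  have hl : ∀ p ∈ ball (((n0, 0), 0) : (E × ℂ) × CB.DD × CB.DD) r,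
      ‖dL (em2 p.2) (u (p.1.1, em2 p.2))‖ ≤ ρ ∧ ‖dR (em2 p.2) (u (p.1.1, em2 p.2))‖ ≤ ρ :=
    fun p hp => ⟨(hn p hp le_rfl (norm_nonneg _) (norm_dL_le _ _) le_rfl).1,
      (hn p hp le_rfl (norm_nonneg _) (norm_dR_le _ _) le_rfl).1⟩
  have mb : ∀ {d : DD IX}, ‖d‖ ≤ ρ → d ∈ ball (0 : DD IX) (NQ.eta 10 o8 / 2) := fun h =>
    mem_ball_zero_iff.2 (by linarith)
  have dy : DifferentiableOn ℂ (fun p : (E × ℂ) × CB.DD × CB.DD => em2 p.2)
      (ball ((n0, 0), 0) r) := (em2.differentiable.comp differentiable_snd).differentiableOn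
  have du : DifferentiableOn ℂ (fun p : (E × ℂ) × CB.DD × CB.DD => u (p.1.1, em2 p.2))
      (ball ((n0, 0), 0) r) :=
    diff.comp (differentiable_fst.fst.differentiableOn.prodMk dy) fun p hp => (hz p hp).2.2.2
  obtain ⟨C1, hC1⟩ : ∃ C1, C1 = C + 2 + 4 * C ^ 2 := ⟨_, rfl⟩
  rw [← hC1] at hn
  have C10 : 0 < C1 := by rw [hC1]; positivity
  have nE := norm_nonneg enL
  refine ⟨r, KO * C1 + KI * C1 + ‖enL‖ * 2, fun p => (BO (dL (em2 p.2) (u (p.1.1, em2 p.2))),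
      BI (dR (em2 p.2) (u (p.1.1, em2 p.2))),
      enL (SR NQ (1 / 8) (dR (em2 p.2) (u (p.1.1, em2 p.2))))), r0',
    r3.trans ρ2, by positivity, ?_, fun p hp => ?_, fun p hp => ?_, fun ℓ hℓ y hy => ?_⟩
  · refine (dO.comp (diffOn_dL dy du) fun p hp => mb (hl p hp).1).prodMk
      ((dI.comp (diffOn_dR dy du) fun p hp => mb (hl p hp).2).prodMk
        (enL.differentiable.comp_differentiableOn (diffOn_SR k0 le_rfl dy du fun p hp => ?_)))
    have := eta _ (hz p hp).2.2.2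
    dsimp only at this ⊢
    exact this
  · have m0 : 0 ≤ ‖p.2‖ ^ 2 + ‖p.1 - (n0, 0)‖ := add_nonneg (sq_nonneg _) (norm_nonneg _)
    have a1 := (hO _ (mb (hl p hp).1)).1.trans
      (hn p hp hKO.le (norm_nonneg _) (norm_dL_le _ _) (sub_QO_dL _ _)).2
    have a2 := (hI' _ (mb (hl p hp).2)).1.trans
      (hn p hp hKI.le (norm_nonneg _) (norm_dR_le _ _) (sub_QI_dR _ _)).2
    have a3 : ‖SR NQ (1 / 8) (dR (em2 p.2) (u (p.1.1, em2 p.2)))‖ ≤ 2 :=
      (NL.norm_sol (fam_colR k0 le_rfl).base o8_pos (by linarith [(hl p hp).2])).trans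
        (by linarith [(hl p hp).2])
    have b1 : 0 ≤ KO * C1 := by positivity
    have b2 : 0 ≤ KI * C1 := by positivity
    refine ⟨a1.trans (mul_le_mul_of_nonneg_right (by linarith) m0),
      a2.trans (mul_le_mul_of_nonneg_right (by linarith) m0), ?_⟩
    exact (enL.le_opNorm _).trans ((mul_le_mul_of_nonneg_left a3 nE).trans (by linarith))
  · exact ⟨(hO _ (mb (hl p hp).1)).2.1, (hI' _ (mb (hl p hp).2)).2.1⟩
  · have e1 : (ℓ : ℂ) - (8 : ℝ) = ((2 * ((ℓ - 8) / 2) : ℝ) : ℂ) := by push_cast; ring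
    generalize he : ((N (ℓ - (8 : ℝ)), Complex.exp (-2 * ℓ)) : E × ℂ) = n at hy ⊢
    have e2 : N (ℓ - (8 : ℝ)) = n.1 := by rw [← he]
    have h3 : ‖y‖ < r := (hz (n, y) hy).2.2.1
    have h4 : (n.1, em2 y) ∈ ball ((n0, 0) : E × DD IX) ε' := (hz (n, y) hy).2.2.2
    have l1 : ‖dL (em2 y) (u (n.1, em2 y))‖ ≤ ρ := (hl (n, y) hy).1
    have l2 : ‖dR (em2 y) (u (n.1, em2 y))‖ ≤ ρ := (hl (n, y) hy).2
    have h5 := hI ((ℓ - 8) / 2) (by linarith) (em2 y)
    rw [← e1, e2] at h5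
    obtain ⟨h6, h7⟩ := h5 h4
    exact ⟨_, h6, h7, kp _, by linarith [norm_em2_le y], l1.trans ρ2, l2.trans ρ2,
      (hO _ (mb l1)).2.2.2, (hI' _ (mb l2)).2.2.2, rfl⟩

theorem exists_XD (k : ℕ) {r0 : ℝ} (hr : 0 < r0) :
    ∃ (E : Type) (_ : NormedAddCommGroup E) (_ : NormedSpace ℂ E) (_ : CompleteSpace E) (Cd : ℝ)
      (N : ℂ → E) (co : ℕ → ℕ → E) (ε C ℓ0 : ℝ) (X : E × CB.DD × CB.DD → MJ k × MJ k × ℂ),
      Dul Cd N co ∧ 0 < ε ∧ ε ≤ r0 ∧ 0 < C ∧ XD k r0 E N (co 0 0) ε C ℓ0 X := by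
  obtain ⟨ε, R0, Cd, ε', C, Nm, co, u, -, hε', hC, hD, hL, L0, hI⟩ :=
    neck_loop (κ := 1 / 8) (neckStmt (piece NQ) (polyStmt NQ)) (by norm_num) le_rfl
  obtain ⟨C', co', hD', e0, -⟩ := dsh _ Cd _ co hD 8 (by norm_num)
  obtain ⟨r, C1, X, h1, h2, h3, h4⟩ := xd_of k hr hε' hC hL.diff hL.le hL.eta hL.keep hI
  exact ⟨HN IX ε × ℂ, inferInstance, inferInstance, inferInstance, C', _, co', r, C1, _, X, hD',
    h1, h2, h3, e0 ▸ h4⟩

end Crest.Agent.N207.L
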