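import Crest.Agent.N207.CB.Pb4
import Crest.Agent.N207.Lg.Nat
import Crest.Agent.N207.CB.Co5
import Crest.Agent.N207.CB.Glu3_Mg
import Crest.Agent.N207.CB.Reg
import Crest.Agent.N207.CB.Nl3_Mg
import Crest.Agent.N207.CB.Dsh
import Crest.Agent.N207.CB.Boot
import Crest.Agent.N207.L.Lp4
import Crest.Agent.N207.L.Inv2
import Crest.Agent.N207.CB.E2e
import Crest.Agent.N207.CB.Nl1
import Crest.Agent.N207.J.Re6
import Crest.Agent.N207.I.Lim1
import Crest.Agent.N207.L.Inv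
import Crest.Agent.N207.L.Pc3
import Crest.Agent.N207.L.Xn1

-- ▼ part N207/CB/Pb
section

/-!
# Row 207, leaf `CB.PB` (helper58)
-/

set_option autoImplicit false

open Crest.Agent.N207.I

namespace Crest.Agent.N207.CB

theorem Pb.nat : Pb.NAT := fun _ _ _ _ _ _ _ y p q hy =>
  ⟨Lg.rel_redT p q y hy, (Lg.fgfF_pull p q hy).trans (mul_comm _ _)⟩

theorem pb {M : Type*} (T : TD M) : PB T := Pb.pb_of Pb.nat T

end Crest.Agent.N207.CB
end

-- ▼ part N207/CB/LF1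
section

/-!
# Row 207, block L (helper92): all core leaves discharged
-/

set_option autoImplicit false

open Crest.Agent.N207.I

namespace Crest.Agent.N207.CB

theorem lstmt_of {M : Type*} {T : TD M} (hG : GLB T) (hN : XNS) (hH : XHS) : LStmt T :=
  hG (core (grc reg)) hN hH (anx T ana reg) (trn T) reg (glu T) (pb T) dsh

end Crest.Agent.N207.CB
end

-- ▼ part N207/L/Xh1
section

/-! # N207/L/Xh1 (helper80): real fields of invariant solutions, the free part on a collar -/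

set_option autoImplicit false
set_option linter.unusedSectionVars false

open scoped ContDiff
open Metric Set Filter Topology
open Crest.GeometryTopology.CoordMetric
open Crest.Agent.N207.J Crest.Agent.N207.CB Crest.Agent.N207.I

noncomputable section

namespace Crest.Agent.N207.L.Xh

section
variable {ι : Type} [Fintype ι]

/-- the zero nonlinearity -/
def NZ (ι : Type) [Fintype ι] : NL ι := ⟨fun _ => 0, analyticAt_const, rfl, hasFDerivAt_const _ _⟩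

variable {γ : Pth} {C o : ℝ}

theorem L0_F (γ : Pth) (v : DD ι) (i : ι) : (γ.L0 v).F γ i = 0 := by
  funext k x
  simp [Tr.F, Pth.L0_apply, tru]

theorem val_zero (x : ℝ) : val 0 x = 0 := by simp [val]

theorem sol_L0 (h : γ.Ok C o) (ho : 0 < o) (v : DD ι) :
    Sol (NZ ι) γ.τ γ.w γ.om ‖v‖ ((γ.L0 v).p γ) ((γ.L0 v).q γ) ((γ.L0 v).F γ) where
  bp i := (h.bd6 ho _).mono ((Tr.norm_p _ i).trans (h.norm_L0 ho v))
  bq i := (h.bd6 ho _).mono ((Tr.norm_q _ i).trans (h.norm_L0 ho v))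
  bF i := (h.bd4 ho _).mono ((Tr.norm_F _ i).trans (h.norm_L0 ho v))
  dp i k x := by
    have := (h.ode_sp ho (v.2 i) 0 k).der x
    rwa [map_zero, sub_zero] at this
  dq i k x := by
    have := (h.ode_sq ho (v.1 i) 0 k).der x
    rwa [map_zero, sub_zero, ← sub_eq_add_neg] at this
  eq x y := funext fun i => by rw [L0_F, val_zero]; rfl

variable {N : NL ι} {τ : ℝ → ℂ} {w om : ℝ → ℝ} {η G : ℝ} {p q F : ι → Md} {I : Set ℝ}

/-- the amplitudes of the function of a solution -/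
theorem pm_fn (h : Sol N τ w om η p q F) (hI : IsOpen I) (hτ : ∀ x ∈ I, τ x = 1)
    (hw : ∀ x ∈ I, |w x| ≤ 1) (ho : ∀ x ∈ I, |om x| ≤ 1) (c : ℝ) (i : ι) (k : ℕ) {t : ℝ}
    (ht : t - c ∈ I) : pm (fn c (p i) (q i)) k t = p i k (t - c) ∧
      qm (fn c (p i) (q i)) k t = q i k (t - c) := by
  have hI' : IsOpen ((· - c) ⁻¹' I) := hI.preimage (by fun_prop)
  obtain ⟨m1, m2, -⟩ := h.mb zero_le_one le_rfl hw ho i
  have e0 : ∀ s ∈ (· - c) ⁻¹' I, mdU (fn c (p i) (q i)) k s = dt (p i) (q i) (F i) 0 k (s - c) :=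
    fun s hs => by rw [mdU, fn, rst_ann]; exact (m1.add m2).P_val (n := 3) hs k
  have e1 : mdU (Eu (fn c (p i) (q i))) k t = dt (p i) (q i) (F i) 1 k (t - c) := by
    refine (hasDerivAt_mdU hI' (n := 1) ((h.real hI hτ zero_le_one le_rfl hw ho c).2.1 i) k
      ht).unique ((((h.str hI hτ i).d0 k ht).comp_sub_const t c).congr_of_eventuallyEq ?_)
    filter_upwards [hI'.mem_nhds ht] with s hs using e0 s hs
  have := two_k_ne k
  rw [pm, qm, e0 t ht, e1]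
  simp only [dt]
  constructor <;> match_scalars <;> field_simp <;> ring

end

variable {N : NL IX} {τ : ℝ → ℂ} {w om : ℝ → ℝ} {η G : ℝ} {p q F : IX → Md} {I : Set ℝ}
  {Γ : Subgroup Iso4}

theorem cB_le {j : ℕ} (hj : j ≤ 2) : cB j 0 ≤ cB 2 0 := by
  interval_cases j <;> norm_num [cB]

/-- the real field of an invariant solution -/
theorem fld (h : Sol N τ w om η p q F) (hI : IsOpen I) (hτ : ∀ x ∈ I, τ x = 1) (hG : 0 ≤ G)
    (hG1 : G ≤ 1) (hw : ∀ x ∈ I, |w x| ≤ G) (ho : ∀ x ∈ I, |om x| ≤ 1)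
    (hi : ∀ x ∈ I, InvM Γ (fun i k => p i k x) ∧ InvM Γ fun i k => q i k x) :
    (∀ x ∈ An I, ∀ a b, fn 0 (p (.inl (a, b))) (q (.inl (a, b))) x =
      cf (reM fun i => fn 0 (p i) (q i)) a b x) ∧
    Inv Γ 2 (An I) (reM fun i => fn 0 (p i) (q i)) ∧
    B2 (An I) (cB 2 0 * (12 * η * G)) (reM fun i => fn 0 (p i) (q i)) := by
  have e : (· - (0 : ℝ)) ⁻¹' I = I := by simp
  have hm := h.mb hG hG1 hw ho
  have h1 := fun x hx => finv (x := x) (n := 3) (f := fun i k x => p i k x + q i k x) 0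
    (fun t ht => (hi t ht).1.add (hi t ht).2) (fun i => (hm i).1.add (hm i).2.1) hx
  obtain ⟨-, h2, h3⟩ := h.real hI hτ hG hG1 hw ho 0
  rw [e] at h1 h2 h3
  have h0 := (h.bp (.inr ())).nn
  refine ⟨fun x hx => (h1 x hx).1, ⟨fun a b => Complex.reCLM.contDiff.comp_contDiffOn (h2 _),
    fun x hx => (h1 x hx).2.1, fun γ hγ x hx => (h1 x hx).2.2.1 γ hγ⟩, fun x hx j hj a b => ?_⟩
  refine le_trans (mul_le_mul_of_nonneg_left ?_ (by positivity)) (((h3 x hx).1 (.inl (a, b)) j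
    hj).trans (mul_le_mul_of_nonneg_right (cB_le hj) (by positivity)))
  refine (Complex.reCLM.norm_iteratedFDeriv_comp_left
    ((h2 _).contDiffAt (An_mem_nhds hI hx)) (by exact_mod_cast hj)).trans ?_
  rw [Complex.reCLM_norm, one_mul]

/-- the cut-off difference of two invariant fields -/
theorem cut_inv {u l : MetricField 4} {U L : IX → E4 → ℂ} {χ : ℝ → ℝ} (hχ : ∀ t, t ∉ I → χ t = 0)
    (hu : Inv Γ 2 (An I) u) (hl : Inv Γ 2 (An I) l)
    (eu : ∀ x ∈ An I, ∀ a b, U (.inl (a, b)) x = cf u a b x)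
    (el : ∀ x ∈ An I, ∀ a b, L (.inl (a, b)) x = cf l a b x) {E : IX → E4 → ℂ}
    (hE : ∀ i x, E i x = χ (Real.log ‖x‖) * (U i x - L i x))
    (sm : ∀ i, ContDiffOn ℝ ∞ (E i) {x | x ≠ 0}) :
    Inv Γ ∞ {x | x ≠ 0} (reM E) ∧ (∀ x, x ≠ 0 → reM E x = χ (Real.log ‖x‖) • (u x - l x)) ∧
      ∀ x, x ≠ 0 → ∀ a b, E (.inl (a, b)) x = cf (reM E) a b x := by
  have k0 : ∀ x, x ≠ 0 → ∀ a b, E (.inl (a, b)) x =
      (((χ (Real.log ‖x‖) • (u x - l x)) a b : ℝ) : ℂ) := fun x hx a b => by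
    by_cases h : Real.log ‖x‖ ∈ I
    · rw [hE, eu x ⟨hx, h⟩, el x ⟨hx, h⟩]; simp [cf]
    · rw [hE, hχ _ h]; simp
  have k1 : ∀ x, x ≠ 0 → reM E x = χ (Real.log ‖x‖) • (u x - l x) := fun x hx => by
    ext a b
    rw [reM, Matrix.of_apply, k0 x hx, Complex.ofReal_re]
  refine ⟨⟨fun a b => Complex.reCLM.contDiff.comp_contDiffOn (sm _), fun x hx => ?_,
    fun γ hγ x hx => ?_⟩, k1, fun x hx a b => by rw [k0 x hx, cf, k1 x hx]⟩
  · rw [k1 x hx]
    by_cases h : Real.log ‖x‖ ∈ I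
    · exact ((hu.symm x ⟨hx, h⟩).sub (hl.symm x ⟨hx, h⟩)).smul _
    · rw [hχ _ h, zero_smul]; exact Matrix.isSymm_zero
  · have hx' : γ x ≠ 0 := fun e => hx (γ.injective (e.trans (map_zero γ).symm))
    ext a b
    rw [pullM_iso, k1 x hx, k1 _ hx', γ.norm_map]
    by_cases h : Real.log ‖x‖ ∈ I
    · rw [hu.eqv γ hγ x ⟨hx, h⟩, hl.eqv γ hγ x ⟨hx, h⟩]
      simp only [Matrix.smul_apply, Matrix.sub_apply, pullM_iso, smul_eq_mul,
        ← Finset.sum_sub_distrib, Finset.mul_sum]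
      exact Finset.sum_congr rfl fun c _ => Finset.sum_congr rfl fun d _ => by ring
    · simp [hχ _ h]

theorem lfJ_of {k : ℕ} {W : MJ k} {E : IX → E4 → ℂ}
    (h : ∀ x, x ≠ 0 → ∀ a b, E (.inl (a, b)) x = cf (reM E) a b x)
    (hW : ∀ (x : J0) a b, ∀ y ∈ CB.B1, (W a b).val x y = E (.inl (a, b)) (x.1 + (‖x.1‖ / 8) • y)) :
    LfJ (reM E) W := fun x a b y hy => by
  rw [hW x a b y hy]
  refine h _ (fun e => ?_) a b
  have h1 := congrArg norm (eq_neg_of_add_eq_zero_left e)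
  have h2 := norm_pos_iff.2 x.2
  have h3 := mem_ball_zero_iff.1 hy
  rw [norm_neg, norm_smul, Real.norm_of_nonneg (by positivity)] at h1
  nlinarith

end Crest.Agent.N207.L.Xh

end
end

-- ▼ part N207/L/Xh2
section

/-! # N207/L/Xh2 (helper80): the collar inputs `ColO`, `ColI` from the collar solutions -/

set_option autoImplicit false

open scoped ContDiff
open Metric Set Filter Topology
open Crest.GeometryTopology.CoordMetric
open Crest.Agent.N207.J Crest.Agent.N207.CB Crest.Agent.N207.I Crest.Agent.N207.Lg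

noncomputable section

namespace Crest.Agent.N207.L.Xh

variable {τ : ℝ → ℂ} {w om : ℝ → ℝ} {η G : ℝ} {p q F : IX → Md} {I I' : Set ℝ}
  {Γ : Subgroup Iso4} {u : MetricField 4}


theorem b2_mono {S S' : Set E4} {a b : ℝ} (h : B2 S a u) (hS : S' ⊆ S) (hab : a ≤ b) :
    B2 S' b u := fun x hx j hj c d => (h x (hS hx) j hj c d).trans hab

theorem An_mono (h : I ⊆ I') : An I ⊆ An I' := fun _ hx => ⟨hx.1, h hx.2⟩

theorem posDef_of {S : Set E4} {a : ℝ} (hi : Inv Γ 2 S u) (h : B2 S a u) (ha : a ≤ 1 / 100)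
    {x : E4} (hx : x ∈ S) : ((fl1 + u) x).PosDef := by
  refine (pos_of_small (fun a b => ?_) fun a b => ?_).posDef (by norm_num)
  · simp only [Pi.add_apply, Matrix.add_apply, (hi.symm x hx).apply a b, Matrix.one_apply, eq_comm]
  · simpa using (h x hx 0 (by omega) a b).trans ha

theorem c2_of (hI : IsOpen I) {a : ℝ} (hi : Inv Γ 2 (An I) u) (h : B2 (An I) a u)
    (ha : a ≤ 1 / 100) {x : E4} (hx : x ∈ An I) : C2 (fl1 + u) x :=
  ⟨fun a b => contDiffAt_const.add ((hi.sm a b).contDiffAt (An_mem_nhds hI hx)), by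
    filter_upwards [An_mem_nhds hI hx] with z hz a b
    simp only [Pi.add_apply, Matrix.add_apply, (hi.symm z hz).apply a b, Matrix.one_apply, eq_comm],
    (posDef_of hi h ha hx).det_pos⟩

theorem Lp2_congr {U U' : E4 → ℂ} {x : E4} (h : U =ᶠ[𝓝 x] U') : Lp2 U x = Lp2 U' x := by
  unfold Lp2
  congr 1
  refine Finset.sum_congr rfl fun i _ => ?_
  rw [Filter.EventuallyEq.fderiv_eq (f := fun y => fderiv ℝ U' y (ee i))]
  filter_upwards [h.fderiv (𝕜 := ℝ)] with y hy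
  rw [hy]

/-- the reduced equation -/
theorem red0 (h : Sol NQ τ w om η p q F) (hI : IsOpen I) (hτ : ∀ x ∈ I, τ x = 1)
    (hw : ∀ x ∈ I, |w x| ≤ 1) (ho : ∀ x ∈ I, |om x| ≤ 1)
    (hi : ∀ x ∈ I, InvM Γ (fun i k => p i k x) ∧ InvM Γ fun i k => q i k x)
    (hη : cB 2 0 * (12 * η * 1) ≤ 1 / 100) {x : E4} (hx : x ∈ An I) :
    redM fl1 (fl1 + reM fun i => fn 0 (p i) (q i)) x = 0 := by
  obtain ⟨h1, h2, h3⟩ := fld h hI hτ zero_le_one le_rfl hw ho hi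
  have hU : ∀ a b, fn 0 (p (.inl (a, b))) (q (.inl (a, b))) =ᶠ[𝓝 x]
      cf (reM fun i => fn 0 (p i) (q i)) a b := fun a b => by
    filter_upwards [An_mem_nhds hI hx] with z hz using h1 z hz a b
  ext a b
  have h4 := NQ_red (U := fun i => fn 0 (p i) (q i)) hU (c2_of hI h2 h3 hη hx) a b
  have h5 := ((h.real hI hτ zero_le_one le_rfl hw ho 0).2.2 x (by simpa using hx)).2.2.2
  rw [← h5, ← Lp2_congr (hU a b), sub_self, mul_zero] at h4
  have hn : ((‖x‖ : ℝ) : ℂ) ≠ 0 := by exact_mod_cast norm_ne_zero_iff.2 hx.1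
  exact_mod_cast (mul_eq_zero.1 h4).resolve_left (pow_ne_zero 2 hn)

variable {N : NL IX}

/-- amplitudes of the real field -/
theorem pm_re (h : Sol N τ w om η p q F) (hI : IsOpen I) (hτ : ∀ x ∈ I, τ x = 1)
    (hw : ∀ x ∈ I, |w x| ≤ 1) (ho : ∀ x ∈ I, |om x| ≤ 1)
    (hi : ∀ x ∈ I, InvM Γ (fun i k => p i k x) ∧ InvM Γ fun i k => q i k x) (a b : Fin 4) (k : ℕ)
    {t : ℝ} (ht : t ∈ I) : pm (cf (reM fun i => fn 0 (p i) (q i)) a b) k t = p (.inl (a, b)) k t ∧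
      qm (cf (reM fun i => fn 0 (p i) (q i)) a b) k t = q (.inl (a, b)) k t := by
  have h1 := pm_qm_congr (ev_An hI ht fun x hx =>
    (fld h hI hτ zero_le_one le_rfl hw ho hi).1 x hx a b) k
  have h2 := pm_fn h hI hτ hw ho 0 (.inl (a, b)) k (t := t) (by rwa [sub_zero])
  rw [sub_zero] at h2
  exact ⟨h1.1.symm.trans h2.1, h1.2.symm.trans h2.2⟩

theorem harm (h : Sol (NZ IX) τ w om η p q F) (hI : IsOpen I) (hτ : ∀ x ∈ I, τ x = 1)
    (hw : ∀ x ∈ I, |w x| ≤ 1) (ho : ∀ x ∈ I, |om x| ≤ 1) {ε : ℝ} (hε : cB 2 0 * (12 * η * 1) ≤ ε)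
    (i : IX) {x : E4} (hx : x ∈ An I) :
    J.PB 2 (fn 0 (p i) (q i)) x ε ∧ Lp2 (fn 0 (p i) (q i)) x = 0 := by
  obtain ⟨-, h1, h2⟩ := h.real hI hτ zero_le_one le_rfl hw ho 0
  rw [show (· - (0 : ℝ)) ⁻¹' I = I by simp] at h1 h2
  have h0 := (h.bp i).nn
  exact ⟨⟨(h1 i).contDiffAt (An_mem_nhds hI hx), fun j hj => ((h2 x hx).1 i j hj).trans
    ((mul_le_mul_of_nonneg_right (cB_le hj) (by positivity)).trans hε)⟩,
    congrFun (h2 x hx).2.2.2 i⟩

/-- uniqueness on the outer collar -/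
def UO (ε : ℝ) : Prop :=
  ∀ (Γ : Subgroup Iso4) (y : CB.DD) (u β : MetricField 4)
    (l : Fin 4 → Fin 4 → E4 → ℂ), SB (An (Ioo 1 3)) ε u →
    (∀ x ∈ An (Ioo 1 3), redM fl1 (fl1 + u) x = 0) →
    (∀ a b k, Tendsto (qm (cf u a b) k) (𝓝[>] 1) (𝓝 (trD 1 (y (a, b)) k))) →
    (∀ a b, ∀ x ∈ An (Ioo 2 3), J.PB 2 (l a b) x ε ∧ Lp2 (l a b) x = 0) →
    (∀ a b k, ∀ t ∈ Ioo (2 : ℝ) 3, pm (l a b) k t = 0) → Inv Γ ∞ {x | x ≠ 0} β →
    (∀ x : E4, Real.log ‖x‖ ≤ 22 / 10 ∨ 29 / 10 ≤ Real.log ‖x‖ → β x = 0) →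
    (∀ x ∈ An (Ioo 1 (285 / 100)), ∀ a b, cf β a b x =
      (stp (22 / 10) (24 / 10) (Real.log ‖x‖) : ℝ) * (cf u a b x - l a b x)) →
    ∀ ε' ≤ ε, ColO Γ ε' y u β

/-- uniqueness on the inner collar -/
def UI (ε : ℝ) : Prop :=
  ∀ (Γ : Subgroup Iso4) (y : CB.DD) (u β : MetricField 4)
    (l : Fin 4 → Fin 4 → E4 → ℂ), SB (An (Ioo (-3) (-1))) ε u →
    (∀ x ∈ An (Ioo (-3) (-1)), redM fl1 (fl1 + u) x = 0) →
    (∀ a b k, k ≠ 0 → Tendsto (pm (cf u a b) k) (𝓝[<] (-1)) (𝓝 (trD 1 (y (a, b)) k))) →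
    (∀ a b, ∀ x ∈ An (Ioo (-3) (-2)), J.PB 2 (l a b) x ε ∧ Lp2 (l a b) x = 0) →
    (∀ a b, ∀ t ∈ Ioo (-3 : ℝ) (-2), pm (l a b) 0 t = 0 ∧ ∀ k, qm (l a b) k t = 0) →
    Inv Γ ∞ {x | x ≠ 0} β →
    (∀ x : E4, -Real.log ‖x‖ ≤ 22 / 10 ∨ 29 / 10 ≤ -Real.log ‖x‖ → β x = 0) →
    (∀ x ∈ An (Ioo (-(285 / 100)) (-1)), ∀ a b, cf β a b x =
      (stp (22 / 10) (24 / 10) (-Real.log ‖x‖) : ℝ) * (cf u a b x - l a b x)) →
    ∀ ε' ≤ ε, ColI Γ ε' y u β

theorem uo : ∃ ε : ℝ, 0 < ε ∧ UO ε := colO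

theorem ui : ∃ ε : ℝ, 0 < ε ∧ UI ε := colI

theorem aux {χ s : ℝ} {A A' B : ℂ} (h1 : χ = s) (h2 : A = A') :
    (χ : ℂ) * (A - B) = s * (A' - B) := by rw [h1, h2]

theorem aux0 {χ : ℝ} {A : ℂ} (h : χ = 0) : ((χ : ℂ) * A).re = 0 := by simp [h]

theorem tru_zero (σ : ℕ) (g om : ℝ → ℝ) (k : ℕ) (x : ℝ) : tru σ g om 0 k x = 0 := by simp [tru]

variable {κ ε e : ℝ} {v : L.DD IX} {y : CB.DD}

/-- **the outer collar** -/
theorem colO_of (hU : UO ε) (h0 : 0 ≤ κ) (h1 : κ ≤ 1 / 8) (hv : ‖v‖ ≤ NQ.eta 10 (Real.exp (-κ)))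
    (hε : cB 2 0 * (24 * ‖v‖) ≤ min ε (1 / 100)) (he : e ≤ ε)
    (hi : ∀ x ∈ Icc (1 : ℝ) 4, InvM Γ (fun i k => (SL NQ κ v).p (colL κ) i k x) ∧
      InvM Γ fun i k => (SL NQ κ v).q (colL κ) i k x)
    (hy : ∀ ab k, trD 1 (v.1 (.inl ab)) k = trD 1 (y ab) k)
    (hu : ∀ x ∈ An (Ioo 1 2),
      u x = reM (fun i => fn 0 ((SL NQ κ v).p (colL κ) i) ((SL NQ κ v).q (colL κ) i)) x)
    (sm : ∀ i, ContDiffOn ℝ ∞ (EF NQ 10 (Real.exp (-κ)) (colL κ) (bcut 1) v (QO v) i)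
      {x | x ≠ 0}) :
    ColO Γ e y u (reM (EF NQ 10 (Real.exp (-κ)) (colL κ) (bcut 1) v (QO v))) ∧
      ∀ x, x ≠ 0 → ∀ a b, EF NQ 10 (Real.exp (-κ)) (colL κ) (bcut 1) v (QO v) (.inl (a, b)) x =
        cf (reM (EF NQ 10 (Real.exp (-κ)) (colL κ) (bcut 1) v (QO v))) a b x := by
  have ok := (fam_colL h0 h1).base
  have o0 := Real.exp_pos (-κ)
  have hτ : ∀ x ∈ Ioo (1 : ℝ) 4, (colL κ).τ x = 1 := fun x hx => by
    change ((ind 1 (1 + 3) x : ℝ) : ℂ) = 1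
    rw [ind_of_mem hx.1.le (by linarith [hx.2]), Complex.ofReal_one]
  have hw : ∀ x ∈ Ioo (1 : ℝ) 4, |(colL κ).w x| ≤ 1 := fun x _ => by rw [colL_w, abs_one]
  have ho : ∀ x ∈ Ioo (1 : ℝ) 4, |(colL κ).om x| ≤ 1 := fun x _ => by
    rw [abs_of_pos (ok.om0 o0 x)]; exact ok.o1 x
  have hs := NL.sol_sol (N := NQ) ok o0 hv
  have hd : ∀ i k, (SL NQ κ v).q (colL κ) i k 1 = trD 1 (v.1 i) k := fun i k => by
    refine ((NQ.sol_dat ok o0 v).hq i k).trans ?_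
    rw [colL_w, Complex.ofReal_one, one_smul]
    exact congrArg (trD · _ k) (omL_left 1)
  have hl := sol_L0 ok o0 (QO v)
  have lp : ∀ i k x, ((colL κ).L0 (QO v)).p (colL κ) i k x = 0 := fun i k x => by
    change tru 6 _ _ ((colL κ).EP 0) k x = 0
    rw [map_zero, tru_zero]
  have li : ∀ x ∈ Ioo (1 : ℝ) 4, InvM Γ (fun i k => ((colL κ).L0 (QO v)).p (colL κ) i k x) ∧
      InvM Γ fun i k => ((colL κ).L0 (QO v)).q (colL κ) i k x := fun x _ => by
    refine ⟨InvM.zero.congr fun i k => lp i k x, ((hi 1 (by norm_num)).2.smul fun k =>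
      Real.exp (-(k + 2) * (cl 1 (1 + 3) x - cl 1 (1 + 3) 1))).congr fun i k => ?_⟩
    refine (ok.tru_EM o0 (v.1 i) k x).trans ?_
    rw [← (NQ.sol_dat ok o0 v).hq i k]
    push_cast
    rfl
  have hi' := fun x (hx : x ∈ Ioo (1 : ℝ) 4) => hi x (Ioo_subset_Icc_self hx)
  obtain ⟨a1, a2, a3⟩ := fld hs isOpen_Ioo hτ zero_le_one le_rfl hw ho hi'
  obtain ⟨b1, b2, -⟩ := fld hl isOpen_Ioo hτ zero_le_one le_rfl hw ho li
  obtain ⟨c1, -, c3⟩ := cut_inv (χ := bcut 1) (fun t ht => bcut_zero (by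
    rcases not_and_or.1 ht with h | h <;> [left; right] <;> linarith [not_lt.1 h])) a2 b2 a1 b1
    (fun _ _ => rfl) sm
  have n0 := norm_nonneg v
  have n1 : ‖QO v‖ ≤ ‖v‖ := (norm_pr0 v.1).trans_le (norm_fst_le v)
  have c0 := cB_pos 2 0
  have s1 : Ioo (1 : ℝ) 3 ⊆ Ioo 1 4 := Ioo_subset_Ioo le_rfl (by norm_num)
  have s2 : Ioo (2 : ℝ) 3 ⊆ Ioo 1 4 := Ioo_subset_Ioo (by norm_num) (by norm_num)
  have e1 := hε.trans (min_le_left _ _)
  have e2 := hε.trans (min_le_right _ _)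
  have k := hU Γ y _ _ (fun a b => fn 0 (((colL κ).L0 (QO v)).p (colL κ) (.inl (a, b)))
      (((colL κ).L0 (QO v)).q (colL κ) (.inl (a, b))))
    ⟨fun a b => (a2.sm a b).mono (An_mono s1), fun x hx => a2.symm x (An_mono s1 hx),
      b2_mono a3 (An_mono s1) (by linarith)⟩
    (fun x hx => red0 hs isOpen_Ioo hτ hw ho hi' (by linarith) (An_mono s1 hx)) (fun a b k => ?_)
    (fun a b x hx => harm hl isOpen_Ioo hτ hw ho (by nlinarith) _ (An_mono s2 hx))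
    (fun a b k t ht => (pm_fn hl isOpen_Ioo hτ hw ho 0 _ k (by simpa using s2 ht)).1.trans
      (lp _ _ _)) c1 (fun x hx => ?_) (fun x hx a b => ?_) e he
  · exact ⟨⟨k.inv, k.supp, fun W w1 w2 w3 w4 w5 x hx =>
      (k.unq W w1 w2 w3 w4 w5 x hx).trans (hu x hx).symm⟩, c3⟩
  · rw [← hy, ← hd]
    refine (((hs.bq _).cont k).continuousAt.tendsto.mono_left nhdsWithin_le_nhds).congr' ?_
    filter_upwards [Ioo_mem_nhdsGT (show (1 : ℝ) < 4 by norm_num)] with t ht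
    exact (pm_re hs isOpen_Ioo hτ hw ho hi' a b k ht).2.symm
  · ext a b
    exact aux0 (bcut_zero (by rwa [one_mul]))
  · exact (c3 x hx.1 a b).symm.trans (aux ((bcut_eq (by linarith [hx.2.2])).trans
      (by rw [one_mul])) (a1 x ⟨hx.1, hx.2.1, by linarith [hx.2.2]⟩ a b))

/-- **the inner collar** -/
theorem colI_of (hU : UI ε) (h0 : 0 ≤ κ) (h1 : κ ≤ 1 / 8) (hv : ‖v‖ ≤ NQ.eta 10 (Real.exp (-κ)))
    (hε : cB 2 0 * (24 * ‖v‖) ≤ min ε (1 / 100)) (he : e ≤ ε)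
    (hi : ∀ x ∈ Icc (-4 : ℝ) (-1), InvM Γ (fun i k => (SR NQ κ v).p (colR κ) i k x) ∧
      InvM Γ fun i k => (SR NQ κ v).q (colR κ) i k x)
    (hy : ∀ ab k, k ≠ 0 → trD 1 (v.2 (.inl ab)) k = trD 1 (y ab) k)
    (hu : ∀ x ∈ An (Ioo (-2) (-1)),
      u x = reM (fun i => fn 0 ((SR NQ κ v).p (colR κ) i) ((SR NQ κ v).q (colR κ) i)) x)
    (sm : ∀ i, ContDiffOn ℝ ∞ (EF NQ 10 (Real.exp (-κ)) (colR κ) (bcut (-1)) v (QI v) i)
      {x | x ≠ 0}) :
    ColI Γ e y u (reM (EF NQ 10 (Real.exp (-κ)) (colR κ) (bcut (-1)) v (QI v))) ∧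
      ∀ x, x ≠ 0 → ∀ a b, EF NQ 10 (Real.exp (-κ)) (colR κ) (bcut (-1)) v (QI v) (.inl (a, b)) x =
        cf (reM (EF NQ 10 (Real.exp (-κ)) (colR κ) (bcut (-1)) v (QI v))) a b x := by
  have ok := (fam_colR h0 h1).base
  have o0 := Real.exp_pos (-κ)
  have hτ : ∀ x ∈ Ioo (-4 : ℝ) (-1), (colR κ).τ x = 1 := fun x hx => by
    change ((ind (-4) (-4 + 3) x : ℝ) : ℂ) = 1
    rw [ind_of_mem hx.1.le (by linarith [hx.2]), Complex.ofReal_one]
  have hw : ∀ x ∈ Ioo (-4 : ℝ) (-1), |(colR κ).w x| ≤ 1 := fun x _ => by rw [colR_w, abs_one]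
  have ho : ∀ x ∈ Ioo (-4 : ℝ) (-1), |(colR κ).om x| ≤ 1 := fun x _ => by
    rw [abs_of_pos (ok.om0 o0 x)]; exact ok.o1 x
  have hs := NL.sol_sol (N := NQ) ok o0 hv
  have pt : ∀ k, k ≠ 0 → (colR κ).pt k = -4 + 3 := fun k hk => if_neg hk
  have hd : ∀ i k, k ≠ 0 → (SR NQ κ v).p (colR κ) i k (-4 + 3) = trD 1 (v.2 i) k :=
    fun i k hk => by
      rw [← pt k hk]
      refine ((NQ.sol_dat ok o0 v).hp rfl i k).trans ?_
      rw [colR_w, Complex.ofReal_one, one_smul]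
      exact congrArg (trD · _ k) (omR_right _)
  have hl := sol_L0 ok o0 (QI v)
  have lq : ∀ i k x, ((colR κ).L0 (QI v)).q (colR κ) i k x = 0 := fun i k x => by
    change tru 6 _ _ ((colR κ).EM 0) k x = 0
    rw [map_zero, tru_zero]
  have lp : ∀ i k x, ((colR κ).L0 (QI v)).p (colR κ) i k x = if k = 0 then 0 else
      ((Real.exp (k * (cl (-4) (-4 + 3) x - cl (-4) (-4 + 3) (-4 + 3))) : ℝ) : ℂ) •
        (SR NQ κ v).p (colR κ) i k (-4 + 3) := fun i k x => by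
    refine (ok.tru_EP o0 rfl (kill (v.2 i)) k x).trans ?_
    rw [trD_kill]
    split_ifs with hk
    · simp
    · rw [hd i k hk, pt k hk, colR_w, Complex.ofReal_one, one_smul,
        show (colR κ).om (-4 + 3) = 1 from omR_right _]
      push_cast
      rfl
  have li : ∀ x ∈ Ioo (-4 : ℝ) (-1), InvM Γ (fun i k => ((colR κ).L0 (QI v)).p (colR κ) i k x) ∧
      InvM Γ fun i k => ((colR κ).L0 (QI v)).q (colR κ) i k x := fun x _ =>
    ⟨((hi (-4 + 3) (by norm_num)).1.smul _).kill.congr fun i k => lp i k x,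
      InvM.zero.congr fun i k => lq i k x⟩
  have hi' := fun x (hx : x ∈ Ioo (-4 : ℝ) (-1)) => hi x (Ioo_subset_Icc_self hx)
  obtain ⟨a1, a2, a3⟩ := fld hs isOpen_Ioo hτ zero_le_one le_rfl hw ho hi'
  obtain ⟨b1, b2, -⟩ := fld hl isOpen_Ioo hτ zero_le_one le_rfl hw ho li
  obtain ⟨c1, -, c3⟩ := cut_inv (χ := bcut (-1)) (fun t ht => bcut_zero (by
    rcases not_and_or.1 ht with h | h <;> [right; left] <;> linarith [not_lt.1 h])) a2 b2 a1 b1
    (fun _ _ => rfl) sm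
  have n0 := norm_nonneg v
  have n1 : ‖QI v‖ ≤ ‖v‖ := max_le (by simp [QI_apply])
    ((norm_piL_le norm_kill_le _).trans (norm_snd_le v))
  have c0 := cB_pos 2 0
  have s1 : Ioo (-3 : ℝ) (-1) ⊆ Ioo (-4) (-1) := Ioo_subset_Ioo (by norm_num) le_rfl
  have s2 : Ioo (-3 : ℝ) (-2) ⊆ Ioo (-4) (-1) := Ioo_subset_Ioo (by norm_num) (by norm_num)
  have e1 := hε.trans (min_le_left _ _)
  have e2 := hε.trans (min_le_right _ _)
  have k := hU Γ y _ _ (fun a b => fn 0 (((colR κ).L0 (QI v)).p (colR κ) (.inl (a, b)))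
      (((colR κ).L0 (QI v)).q (colR κ) (.inl (a, b))))
    ⟨fun a b => (a2.sm a b).mono (An_mono s1), fun x hx => a2.symm x (An_mono s1 hx),
      b2_mono a3 (An_mono s1) (by linarith)⟩
    (fun x hx => red0 hs isOpen_Ioo hτ hw ho hi' (by linarith) (An_mono s1 hx))
    (fun a b k hk => ?_)
    (fun a b x hx => harm hl isOpen_Ioo hτ hw ho (by nlinarith) _ (An_mono s2 hx))
    (fun a b t ht => ⟨(pm_fn hl isOpen_Ioo hτ hw ho 0 _ 0 (by simpa using s2 ht)).1.trans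
      ((lp _ _ _).trans (if_pos rfl)), fun k =>
        (pm_fn hl isOpen_Ioo hτ hw ho 0 _ k (by simpa using s2 ht)).2.trans (lq _ _ _)⟩)
    c1 (fun x hx => ?_) (fun x hx a b => ?_) e he
  · exact ⟨⟨k.inv, k.supp, fun W w1 w2 w3 w4 w5 w6 x hx =>
      (k.unq W w1 w2 w3 w4 w5 w6 x hx).trans (hu x hx).symm⟩, c3⟩
  · rw [← hy _ _ hk, ← hd _ _ hk, show (-4 + 3 : ℝ) = -1 by norm_num]
    refine (((hs.bp _).cont k).continuousAt.tendsto.mono_left nhdsWithin_le_nhds).congr' ?_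
    filter_upwards [Ioo_mem_nhdsLT (show (-4 : ℝ) < -1 by norm_num)] with t ht
    exact (pm_re hs isOpen_Ioo hτ hw ho hi' a b k ht).1.symm
  · ext a b
    exact aux0 (bcut_zero (by rwa [neg_one_mul]))
  · exact (c3 x hx.1 a b).symm.trans (aux ((bcut_eq (by linarith [hx.2.1])).trans
      (by rw [neg_one_mul])) (a1 x ⟨hx.1, by linarith [hx.2.1], hx.2.2⟩ a b))

end Crest.Agent.N207.L.Xh

end
end

-- ▼ part N207/CB/Nl4
section

/-! # Row 207, block L (helper87): small solutions inherit the symmetries of their data -/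

set_option autoImplicit false
set_option linter.unusedSectionVars false

open Set Filter Topology
open Crest.Agent.R246.Zon797 (Pr isoS)

noncomputable section

namespace Crest.Agent.N207.L
open J I CB

section Abs

variable {ι : Type} [Fintype ι]

/-- a symmetry of the system -/
structure Symm (N : NL ι) (Ψ : ι → (ι → CS) →L[ℝ] CS) : Prop where
  mem : ∀ i k v, (∀ l, v l ∈ E k) → Ψ i v ∈ E k
  nm : ∀ i v, ‖toH (Ψ i v)‖ ≤ ∑ l, ‖toH (v l)‖
  eq : ∀ U0 U1 U2 G : ι → CS, (∀ l, Sb 5 (U0 l)) → (∀ l, Sb 4 (U1 l)) →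
    (∀ y, (fun i => G i y) = N.Q fun j => cj (U0 j.1) (U1 j.1) (U2 j.1) j.2 y) →
    ∀ y, (fun i => Ψ i G y) = N.Q fun j => cj (Ψ j.1 U0) (Ψ j.1 U1) (Ψ j.1 U2) j.2 y

/-- the action on one mode -/
def acM (Ψ : ι → (ι → CS) →L[ℝ] CS) (i : ι) (k : ℕ) : (ι → H) →L[ℝ] H :=
  toH.restrictScalars ℝ ∘L Ψ i ∘L ContinuousLinearMap.pi fun l =>
    (Pc k).restrictScalars ℝ ∘L ContinuousLinearMap.proj l

/-- the action on mode families -/
def acF (Ψ : ι → (ι → CS) →L[ℝ] CS) (f : ι → Md) (i : ι) : Md :=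
  fun k x => acM Ψ i k fun l => f l k x

/-- fixed mode data -/
def FxM (Ψ : ι → (ι → CS) →L[ℝ] CS) (v : ι → ℕ → H) : Prop :=
  ∀ i k, Ψ i (fun l => Pc k (v l k)) = Pc k (v i k)

variable {N : NL ι} {Ψ : ι → (ι → CS) →L[ℝ] CS} {τ : ℝ → ℂ} {w om : ℝ → ℝ} {η : ℝ}
  {p q F f : ι → Md}

theorem acM_smul {c : ℂ} (hc : ∃ r : ℝ, c = r) (i : ι) (k : ℕ) (v : ι → H) :
    acM Ψ i k (fun l => c • v l) = c • acM Ψ i k v := by
  obtain ⟨r, rfl⟩ := hc
  have e : ∀ u : H, (r : ℂ) • u = r • u := fun u => Complex.coe_smul _ _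
  simp only [e]
  exact map_smul (acM Ψ i k) r v

theorem acM_add (i : ι) (k : ℕ) (u v : ι → H) :
    acM Ψ i k (fun l => u l + v l) = acM Ψ i k u + acM Ψ i k v := map_add (acM Ψ i k) u v

theorem acM_sub (i : ι) (k : ℕ) (u v : ι → H) :
    acM Ψ i k (fun l => u l - v l) = acM Ψ i k u - acM Ψ i k v := map_sub (acM Ψ i k) u v

theorem Symm.Pc (h : Symm N Ψ) (i : ι) (k : ℕ) (v : ι → H) :
    Pc k (acM Ψ i k v) = Ψ i fun l => Pc k (v l) :=
  Pc_of_mem (h.mem i k _ fun _ => Pc_mem _ _)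

theorem Symm.bd (h : Symm N Ψ) {σ : ℕ} (hf : ∀ l, Bd σ w om (f l) η) (i : ι) :
    Bd σ w om (acF Ψ f i) (Fintype.card ι * η) := by
  choose c h1 h2 using fun l => (hf l).bd
  refine ⟨mul_nonneg (Nat.cast_nonneg _) (hf i).nn, fun k x => mem_E.1 (h.mem i k _ fun _ =>
    Pc_mem _ _), fun k => (acM Ψ i k).continuous.comp (continuous_pi fun l => (hf l).cont k),
    fun k => ∑ l, c l k, fun s => ?_, fun k x => ?_⟩
  · calc _ ≤ ∑ k ∈ s, (Fintype.card ι : ℝ) * ∑ l, c l k ^ 2 :=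
          Finset.sum_le_sum fun k _ => sq_sum_le_card_mul_sum_sq
      _ = Fintype.card ι * ∑ l, ∑ k ∈ s, c l k ^ 2 := by rw [← Finset.mul_sum, Finset.sum_comm]
      _ ≤ Fintype.card ι * ∑ _l : ι, η ^ 2 := by gcongr with l; exact h1 l s
      _ = _ := by simp; ring
  · refine (mul_le_mul_of_nonneg_left (h.nm i fun l => J.Pc k (f l k x)) (wt_pos _ _).le).trans ?_
    rw [Finset.mul_sum, Finset.sum_mul]
    exact Finset.sum_le_sum fun l _ => by rw [toH_Pc, (hf l).mode]; exact h2 l k x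

theorem Symm.val (h : Symm N Ψ) {n : ℕ} {M : ℝ} (hf : ∀ l, Mb univ (n + 2) M (f l)) (i : ι)
    (x : ℝ) : val (acF Ψ f i) x = Ψ i fun l => val (f l) x := by
  have := ((Ψ i).hasSum (Pi.hasSum.2 fun l => (hf l).hasSum (mem_univ x))).tsum_eq
  simpa only [L.val, acF, h.Pc] using this

theorem re_k (k : ℕ) : (∃ r : ℝ, (k : ℂ) = r) ∧ (∃ r : ℝ, (k : ℂ) + 2 = r) ∧
    (∃ r : ℝ, -((k : ℂ) + 2) = r) ∧ (∃ r : ℝ, (2 * (k : ℂ) + 2)⁻¹ = r) ∧
    (∃ r : ℝ, (k : ℂ) ^ 2 = r) ∧ ∃ r : ℝ, ((k : ℂ) + 2) ^ 2 = r :=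
  ⟨⟨k, by simp⟩, ⟨k + 2, by simp⟩, ⟨-(k + 2), by simp⟩, ⟨(2 * k + 2)⁻¹, by simp⟩,
    ⟨k ^ 2, by simp⟩, ⟨(k + 2) ^ 2, by simp⟩⟩

theorem dt_acF (i : ι) (m : Fin 3) : dt (acF Ψ p i) (acF Ψ q i) (acF Ψ F i) m =
    acF Ψ (fun l => dt (p l) (q l) (F l) m) i := by
  funext k x
  obtain ⟨a1, a2, -, -, a5, a6⟩ := re_k k
  match m with
  | 0 => simp only [dt, acF, acM_add]
  | 1 => simp only [dt, acF, acM_sub, acM_smul a1, acM_smul a2]
  | 2 => simp only [dt, acF, acM_add, acM_smul a5, acM_smul a6]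

theorem Symm.sol (h : Symm N Ψ) (hs : Sol N τ w om η p q F) (hτ : ∀ x, ∃ r : ℝ, τ x = r)
    (hw : ∀ x, |w x| ≤ 1) (ho : ∀ x, |om x| ≤ 1) :
    Sol N τ w om (Fintype.card ι * η) (acF Ψ p) (acF Ψ q) (acF Ψ F) := by
  refine ⟨h.bd hs.bp, h.bd hs.bq, h.bd hs.bF, fun i k x => ?_, fun i k x => ?_, fun x y => ?_⟩
  · obtain ⟨a1, -, -, a4, -⟩ := re_k k
    refine ((acM Ψ i k).hasFDerivAt.comp_hasDerivWithinAt x
      (hasDerivWithinAt_pi.2 fun l => hs.dp l k x)).congr_deriv ?_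
    simp only [acF, acM_smul (hτ x), acM_add, acM_smul a1, acM_smul a4]
  · obtain ⟨-, -, a3, a4, -⟩ := re_k k
    refine ((acM Ψ i k).hasFDerivAt.comp_hasDerivWithinAt x
      (hasDerivWithinAt_pi.2 fun l => hs.dq l k x)).congr_deriv ?_
    simp only [acF, acM_smul (hτ x), acM_sub, acM_smul a3, acM_smul a4]
  · have m := fun l => hs.mb (I := univ) zero_le_one le_rfl (fun x _ => hw x) (fun x _ => ho x) l
    have m0 : ∀ l, Mb univ (3 + 2) _ (dt (p l) (q l) (F l) 0) := fun l => mb_dt0 (m l).1 (m l).2.1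
    have m1 : ∀ l, Mb univ (2 + 2) _ (dt (p l) (q l) (F l) 1) := fun l => mb_dt1 (m l).1 (m l).2.1
    have m2 : ∀ l, Mb univ (1 + 2) _ (dt (p l) (q l) (F l) 2) := fun l =>
      mb_dt2 (m l).1 (m l).2.1 (m l).2.2
    have m3 : ∀ l, Mb univ (1 + 2) _ (F l) := fun l => (m l).2.2
    have := h.eq (fun l => L.val (dt (p l) (q l) (F l) 0) x)
      (fun l => L.val (dt (p l) (q l) (F l) 1) x) (fun l => L.val (dt (p l) (q l) (F l) 2) x)
      (fun l => L.val (F l) x) (fun l => (m0 l).ub.sb (mem_univ x))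
      (fun l => (m1 l).ub.sb (mem_univ x)) (hs.eq x) y
    unfold jets
    simp only [dt_acF, h.val m0, h.val m1, h.val m2, h.val m3]
    exact this

/-- **solutions with fixed data are fixed** -/
theorem Symm.fix (h : Symm N Ψ) {γ : Pth} {C o : ℝ} {A B : ι → D} (hγ : γ.Ok C o) (ho : 0 < o)
    (hτ : ∀ x, ∃ r : ℝ, γ.τ x = r) (hs : Sol N γ.τ γ.w γ.om η p q F) (h1 : η ≤ N.eta C o)
    (h2 : Fintype.card ι * η ≤ N.eta C o) (hd : Dat γ p q A B)
    (hA : FxM Ψ fun i => trD (γ.om γ.a) (A i))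
    (hB : γ.fin = true → FxM Ψ fun i => trD (γ.om γ.b) (B i)) (x : ℝ) :
    FxM Ψ (fun i k => p i k x) ∧ FxM Ψ (fun i k => q i k x) ∧ FxM Ψ fun i k => F i k x := by
  have e : ∀ {A : ι → D} {a : ℝ}, FxM Ψ (fun i => trD a (A i)) → ∀ (r : ℝ) i k,
      acM Ψ i k (fun l => (r : ℂ) • trD a (A l) k) = (r : ℂ) • trD a (A i) k := by
    intro A a hA r i k
    have e1 : P k (trD a (A i) k) = trD a (A i) k := by simp only [trD, map_smul, P_P]
    rw [acM_smul ⟨r, rfl⟩, ← e1, ← toH_Pc, ← hA i k]; rfl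
  have s1 := (h.sol hs hτ (fun x => abs_le.2 ⟨by linarith [hγ.w0 x], hγ.w1 x⟩)
    fun x => abs_le.2 ⟨by linarith [hγ.o0 x], hγ.o1 x⟩).mono h2
  have d1 : Dat γ (acF Ψ p) (acF Ψ q) A B :=
    ⟨fun i k => by simp only [acF, hd.hq]; exact e hA _ i k,
      fun hf i k => by simp only [acF, hd.hp hf]; exact e (hB hf) _ i k⟩
  obtain ⟨e1, e2, e3⟩ := N.uniq C ho γ hγ _ _ _ _ _ _ A B s1 (hs.mono h1) d1 hd
  have c : ∀ {f : ι → Md}, acF Ψ f = f → FxM Ψ fun i k => f i k x := fun {f} e i k =>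
    (h.Pc i k fun l => f l k x).symm.trans (congrArg (J.Pc k) (congrFun (congrFun (congrFun e i) k) x))
  exact ⟨c e1, c e2, c e3⟩

end Abs

namespace Sy

/-- differentiable functions on the sphere -/
def Df (u : CS) : Prop := ∃ G, HG u G

theorem gr_eq {u : CS} {G : Fin 4 → CS} (h : HG u G) : gr u = G := by
  have t : ∑ l, xc l * G l = 0 := by
    ext ω
    have h1 := (h ω (S3_ne ω)).comp_hasDerivAt_of_eq (1 : ℝ)
      ((hasDerivAt_id (1 : ℝ)).smul_const (ω : E4)) (by simp)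
    have h2 : HasDerivAt (fun s : ℝ => u (prj (s • (ω : E4)))) 0 1 :=
      (hasDerivAt_const (1 : ℝ) (u ω)).congr_of_eventuallyEq
        ((lt_mem_nhds one_pos).mono fun s hs => by simp only [prj_smul_S3 hs])
    have h3 := h1.unique h2
    simpa [cov_apply, prj_S3, mul_comm] using h3
  funext i
  simp only [gr, fun a => (h.HR a).R_eq, Finset.mul_sum, ← mul_assoc]
  rw [Finset.sum_comm]
  simp only [← Finset.sum_mul, gam_xc]
  simp only [sub_mul, Finset.sum_sub_distrib, mul_assoc, ← Finset.mul_sum, t]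
  simp

theorem Df.hg {u : CS} (h : Df u) : HG u (gr u) := by obtain ⟨G, h⟩ := h; rwa [gr_eq h]

theorem hg_sum {κ : Type} (s : Finset κ) {u : κ → CS} {G : κ → Fin 4 → CS}
    (h : ∀ l, HG (u l) (G l)) : HG (∑ l ∈ s, u l) fun i => ∑ l ∈ s, G l i := fun x hx => by
  have := HasFDerivAt.fun_sum (u := s) fun l _ => h l x hx
  simp only [ContinuousMap.sum_apply]
  exact this.congr_fderiv (clm_ext fun i => by simp [cov_ee, Finset.mul_sum])

theorem df_J1 {u u' : CS} (h : Sb 5 u) (h' : Sb 4 u') (i : Fin 4) : Df (J1 i u u') :=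
  ⟨_, ((HG.xc i).mul (Sb.HG (n := 1) h')).add (hg_sum _ fun a => (HG_of_mem_V (rx_mem a i)).mul
    (Sb.HG (n := 1) (Sb.R (n := 2) h a)))⟩

variable (g : Iso4)

/-- the complex matrix of an isometry -/
def gC : Matrix (Fin 4) (Fin 4) ℂ := fun c a => (gm g c a : ℝ)

theorem gC_orth : (gC g).transpose * gC g = 1 := by
  ext a b
  have := g.inner_map_map (ee a) (ee b)
  simp only [PiLp.inner_apply, RCLike.inner_apply, conj_trivial] at this
  simp only [Matrix.mul_apply, Matrix.transpose_apply, gC, gm, ← Complex.ofReal_mul,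
    ← Complex.ofReal_sum, mul_comm (g (ee a) _), this]
  simp [Matrix.one_apply, Pi.single_apply, eq_comm]
  split_ifs <;> simp

theorem hg_cmp {u : CS} {G : Fin 4 → CS} (h : HG u G) :
    HG (cmp g u) fun i => ∑ l, gC g l i • cmp g (G l) := fun x hx => by
  have e : ∀ y : E4, y ≠ 0 → prj (g y) = isoS g (prj y) := fun y hy => Subtype.ext (by
    simp [prj_coe, hy])
  have h1 := (h (g x) (by simpa using hx)).comp x g.toContinuousLinearEquiv.hasFDerivAt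
  refine (h1.congr_of_eventuallyEq ((eventually_ne_nhds hx).mono fun y hy => ?_)).congr_fderiv
    (clm_ext fun i => ?_)
  · simp [e y hy]
  · rw [cov_ee]
    simp [cov_apply, e x hx, gC, gm, Finset.mul_sum, mul_comm, mul_left_comm]

/-- mixing of rotated functions -/
def Lm {κ : Type} [Fintype κ] (m : κ → ℂ) (v : κ → CS) : CS := ∑ l, m l • cmp g (v l)

variable {κ : Type} [Fintype κ] (m : κ → ℂ) {v : κ → CS}

theorem Lm_apply (y : S3) : Lm g m v y = ∑ l, m l * v l (isoS g y) := by simp [Lm]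

theorem J1_Lm (h : ∀ l, Df (v l)) (v' : κ → CS) (i : Fin 4) : J1 i (Lm g m v) (Lm g m v') =
    Lm g (fun p : Fin 4 × κ => gC g p.1 i * m p.2) fun p => J1 p.1 (v p.2) (v' p.2) := by
  have e : xc i = ∑ l, gC g l i • cmp g (xc l) := by
    have := fun j => congrFun (congrFun (gC_orth g) i) j
    simp only [Matrix.mul_apply, Matrix.transpose_apply] at this
    simp only [cmp_xc, Finset.smul_sum, smul_smul]
    rw [Finset.sum_comm]
    simp only [← Finset.sum_smul]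
    erw [Finset.sum_congr rfl fun j _ => congrArg (· • xc j) (this j)]
    ext y
    simp only [ContinuousMap.sum_apply, ContinuousMap.smul_apply]
    simp [Matrix.one_apply]
  have e1 : gr (Lm g m v) = _ := gr_eq (hg_sum _ fun l => (hg_cmp g (h l).hg).smul (m l))
  rw [J1, e1, e]
  ext y
  simp only [Lm_apply, J1, Fintype.sum_prod_type, ContinuousMap.add_apply, ContinuousMap.mul_apply,
    ContinuousMap.sum_apply, ContinuousMap.smul_apply, cmp_apply, smul_eq_mul, Finset.sum_mul_sum,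
    mul_add, Finset.sum_add_distrib, Finset.mul_sum]
  rw [Finset.sum_comm (f := fun l e => m l * (gC g e i * _))]
  simp only [Finset.sum_mul, Finset.mul_sum]
  rw [Finset.sum_comm]
  simp only [mul_assoc, mul_left_comm]

theorem J2_Lm {v' : κ → CS} (h : ∀ l, Sb 5 (v l)) (h' : ∀ l, Sb 4 (v' l)) (v'' : κ → CS)
    (j i : Fin 4) : J2 j i (Lm g m v) (Lm g m v') (Lm g m v'') =
    Lm g (fun p : Fin 4 × Fin 4 × κ => gC g p.1 j * (gC g p.2.1 i * m p.2.2))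
      fun p => J2 p.1 p.2.1 (v p.2.2) (v' p.2.2) (v'' p.2.2) := by
  have e : ∀ (m : Fin 4 × κ → ℂ) (a b : Fin 4 × κ → CS), Lm g m a - Lm g m b =
      Lm g m fun l => a l - b l := fun m a b => by
    ext y; simp [Lm_apply, mul_sub]
  change J1 j (J1 i _ _) (J1 i _ _ - J1 i _ _) = _
  rw [J1_Lm g m fun l => ⟨_, Sb.HG (n := 2) (h l)⟩, J1_Lm g m fun l => ⟨_, Sb.HG (n := 1) (h' l)⟩, e,
    J1_Lm g _ fun p => df_J1 (h _) (h' _) _]
  rfl

theorem R_star' (a : Pr 4) (u : CS) : R a (star u) = star (R a u) := by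
  by_cases h : ∃ v, HR a u v
  · obtain ⟨v, h⟩ := h; rw [h.R_eq, h.star.R_eq]
  · have : ¬∃ v, HR a (star u) v := fun ⟨v, hv⟩ => h ⟨_, by simpa using hv.star⟩
    simp only [R, dif_neg h, dif_neg this, star_zero]

theorem Dd_star (a : Fin 4) (u u' : CS) : Dd a (star u) (star u') = star (Dd a u u') := by
  have : ∀ c, star (rx c a) = rx c a := fun c => by unfold rx; split_ifs <;> simp [star_xc]
  simp only [Dd, star_add, star_mul', star_xc, star_sum, this, R_star']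

theorem cj_star (u u' u'' : CS) (j : Jx) :
    cj (star u) (star u') (star u'') j = star (cj u u' u'' j) := by
  rcases j with _ | a | e <;> simp only [cj, Dd_star, star_sub, star_mul', star_xc]

/-- conjugation -/
def st (i : IX) : (IX → CS) →L[ℝ] CS :=
  (starL' ℝ : CS ≃L[ℝ] CS).toContinuousLinearMap ∘L ContinuousLinearMap.proj i

/-- transposition -/
def tp (i : IX) : (IX → CS) →L[ℝ] CS := ContinuousLinearMap.proj (trI i)

/-- rotation -/
def rt : IX → (IX → CS) →L[ℝ] CS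
  | .inl e => ∑ p : Fin 4 × Fin 4, (gm g p.1 e.1 * gm g p.2 e.2) •
      ((cmpL g).restrictScalars ℝ ∘L ContinuousLinearMap.proj (.inl p))
  | .inr o => (cmpL g).restrictScalars ℝ ∘L ContinuousLinearMap.proj (.inr o)

theorem rt_inl (a b : Fin 4) (v : IX → CS) : rt g (.inl (a, b)) v =
    Lm g (fun p : Fin 4 × Fin 4 => gC g p.1 a * gC g p.2 b) fun p => v (.inl p) := by
  ext y; simp [rt, Lm_apply, gC]

theorem symm_st : Symm NQ st := by
  refine ⟨fun i k v h => star_mem_E (h i), fun i v => ?_, fun U0 U1 U2 G _ _ h y => ?_⟩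
  · refine le_trans (le_of_eq ?_) (Finset.single_le_sum (f := fun l => ‖toH (v l)‖)
      (fun _ _ => norm_nonneg _) (Finset.mem_univ i))
    rw [@norm_eq_sqrt_re_inner ℂ, @norm_eq_sqrt_re_inner ℂ]
    exact congrArg (fun z => √(RCLike.re z)) (inner_star _ _)
  · refine (congrArg star (h y)).trans ((NQ_star _).symm.trans (congrArg _ (funext fun j => ?_)))
    exact (congrArg (· y) (cj_star _ _ _ j.2)).symm

theorem symm_tp : Symm NQ tp :=
  ⟨fun _ _ _ h => h _, fun i v => Finset.single_le_sum (f := fun l => ‖toH (v l)‖)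
    (fun _ _ => norm_nonneg _) (Finset.mem_univ (trI i)), fun U0 U1 U2 G _ _ h y =>
      (funext fun i => (congrFun (h y) (trI i)).trans (NQ_symm _ i)).trans (NQ_tr _).symm⟩

theorem symm_rt : Symm NQ (rt g) := by
  refine ⟨fun i k v h => ?_, fun i v => ?_, fun U0 U1 U2 G h0 h1 h y => ?_⟩
  · rcases i with ⟨a, b⟩ | o
    · rw [rt_inl]; exact Submodule.sum_mem _ fun p _ => Submodule.smul_mem _ _ (cmp_mem_E g (h _))
    · exact cmp_mem_E g (h _)
  · have n1 : ∀ c a, ‖gC g c a‖ ≤ 1 := fun c a => by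
      simpa [gC, gm] using PiLp.norm_apply_le (g (ee a)) c
    rw [Fintype.sum_sum_type]
    rcases i with ⟨a, b⟩ | o
    · rw [rt_inl, Lm, map_sum]
      refine ((norm_sum_le _ _).trans (Finset.sum_le_sum fun p _ => ?_)).trans
        (le_add_of_nonneg_right (by positivity))
      rw [map_smul, norm_smul, norm_cmp, norm_mul]
      exact mul_le_of_le_one_left (norm_nonneg _) (mul_le_one₀ (n1 _ _) (norm_nonneg _) (n1 _ _))
    · rw [Fintype.sum_unique (M := ℝ) (ι := Unit)]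
      exact (norm_cmp g _).le.trans (le_add_of_nonneg_left (by positivity))
  · obtain ⟨e1, e2⟩ := NQ_rot (gC_orth g)
      (z := fun j => cj (U0 j.1) (U1 j.1) (U2 j.1) j.2 (isoS g y))
      (z' := fun j => cj (rt g j.1 U0) (rt g j.1 U1) (rt g j.1 U2) j.2 y)
      (fun a b => by
        simp only [cj, rt_inl, Lm_apply, Fintype.sum_prod_type, Ro.r2, Ro.r1, Finset.mul_sum,
          mul_assoc])
      (fun e a b => by
        have c : ∀ u u' u'' a, cj u u' u'' (some (.inl a)) = J1 a u u' := fun _ _ _ _ => rfl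
        simp only [rt_inl, c]
        rw [J1_Lm g _ fun l => ⟨_, Sb.HG (n := 2) (h0 _)⟩]
        simp only [Lm_apply, Fintype.sum_prod_type, Ro.r3, Ro.r2, Ro.r1, Finset.mul_sum, mul_assoc])
      (fun e f a b => by
        simp only [rt_inl, cj_inr]
        rw [J2_Lm g _ (fun _ => h0 _) fun _ => h1 _]
        simp only [Lm_apply, Fintype.sum_prod_type, Ro.r4, Ro.r3, Ro.r2, Ro.r1, Finset.mul_sum,
          mul_assoc])
    funext i
    rcases i with ⟨a, b⟩ | o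
    · rw [e1, ← h, rt_inl]
      simp only [Lm_apply, Fintype.sum_prod_type, Ro.r2, Ro.r1, Finset.mul_sum, mul_assoc]
    · rw [e2, ← h]; rfl

variable {Γ : Subgroup Iso4} {u : IX → ℕ → H}

theorem rt_eq (a b : Fin 4) (v : IX → CS) : rt g (.inl (a, b)) v =
    ∑ c, ∑ d, ((gm g c a * gm g d b : ℝ) : ℂ) • cmp g (v (.inl (c, d))) := by
  rw [rt_inl, Lm, Fintype.sum_prod_type]; simp only [gC, Complex.ofReal_mul]

theorem of_inv (h : InvM Γ u) : FxM st u ∧ FxM tp u ∧ ∀ g ∈ Γ, FxM (rt g) u :=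
  ⟨h.re, fun i k => by
    rcases i with ⟨a, b⟩ | o
    exacts [congrArg (Pc k) (h.sy b a k), rfl], fun g hg i k => by
    rcases i with ⟨a, b⟩ | o
    exacts [(rt_eq g a b _).trans (h.rot g hg a b k).symm, (h.en g hg k).symm]⟩

theorem to_inv (hP : ∀ i k, P k (u i k) = u i k) (h1 : FxM st u) (h2 : FxM tp u)
    (h3 : ∀ g ∈ Γ, FxM (rt g) u) : InvM Γ u :=
  .of_invC hP fun k => ⟨fun i => h1 i k, fun a b => h2 (.inl (b, a)) k, fun g hg a b =>
    (h3 g hg _ k).symm.trans (rt_eq g a b _), fun g hg => (h3 g hg _ k).symm⟩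

end Sy

open Sy

variable {Γ : Subgroup Iso4} {γ : Pth} {C o η : ℝ} {p q F : IX → Md} {A B : IX → D}

theorem InvM.trD (h : InvM Γ fun i => trD 1 (A i)) (a : ℝ) : InvM Γ fun i => trD a (A i) :=
  (h.smul fun k => a ^ k).congr fun i k => by
    simp only [L.trD, smul_smul, ← Complex.ofReal_mul, one_pow, mul_one_div]

/-- **SYM** -/
theorem Sol.sym (hs : Sol NQ γ.τ γ.w γ.om η p q F) (hγ : γ.Ok C o) (ho : 0 < o)
    (hτ : ∀ x, ∃ r : ℝ, γ.τ x = r) (hη : 17 * η ≤ NQ.eta C o) (hd : Dat γ p q A B)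
    (hA : InvM Γ fun i => trD 1 (A i)) (hB : γ.fin = true → InvM Γ fun i => trD 1 (B i)) (x : ℝ) :
    InvM Γ (fun i k => p i k x) ∧ InvM Γ (fun i k => q i k x) ∧ InvM Γ fun i k => F i k x := by
  have h1 : η ≤ NQ.eta C o := by linarith [(hs.bp (.inr ())).nn]
  have h2 : Fintype.card IX * η ≤ NQ.eta C o := by simpa using hη
  obtain ⟨a1, a2, a3⟩ := of_inv (hA.trD (γ.om γ.a))
  have b := fun hf => of_inv ((hB hf).trD (γ.om γ.b))
  have c1 := symm_st.fix hγ ho hτ hs h1 h2 hd a1 (fun hf => (b hf).1) x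
  have c2 := symm_tp.fix hγ ho hτ hs h1 h2 hd a2 (fun hf => (b hf).2.1) x
  have c3 := fun g hg => (symm_rt g).fix hγ ho hτ hs h1 h2 hd (a3 g hg)
    (fun hf => (b hf).2.2 g hg) x
  exact ⟨to_inv (fun i k => (hs.bp i).mode k x) c1.1 c2.1 fun g hg => (c3 g hg).1,
    to_inv (fun i k => (hs.bq i).mode k x) c1.2.1 c2.2.1 fun g hg => (c3 g hg).2.1,
    to_inv (fun i k => (hs.bF i).mode k x) c1.2.2 c2.2.2 fun g hg => (c3 g hg).2.2⟩

theorem sym (hC : 0 ≤ C) (ho : 0 < o) (h1 : o ≤ 1) : ∃ η1 > 0, ∀ (Γ : Subgroup Iso4) (γ : Pth)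
    (η : ℝ) (p q F : IX → Md) (A B : IX → D), γ.Ok C o → (∀ x, ∃ r : ℝ, γ.τ x = r) →
    Sol NQ γ.τ γ.w γ.om η p q F → η ≤ η1 → Dat γ p q A B → InvM Γ (fun i => trD 1 (A i)) →
    (γ.fin = true → InvM Γ fun i => trD 1 (B i)) → ∀ x, InvM Γ (fun i k => p i k x) ∧
      InvM Γ (fun i k => q i k x) ∧ InvM Γ fun i k => F i k x :=
  ⟨NQ.eta C o / 17, div_pos (NQ.eta_pos' hC ho h1) (by norm_num),
    fun _ _ _ _ _ _ _ _ hγ hτ hs hη hd hA hB => hs.sym hγ ho hτ (by linarith) hd hA hB⟩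

end Crest.Agent.N207.L

end
private theorem rz_546bc2953e : type_of% @_root_.Crest.Agent.N207.L.Sy.rt.eq_1 := @_root_.Crest.Agent.N207.L.Sy.rt.eq_1 -- L271
end

-- ▼ part N207/L/Xn2
section

/-! # N207/L/Xn2 (helper59): the extended neck at real points -/

set_option autoImplicit false
set_option maxHeartbeats 800000

open scoped ContDiff InnerProductSpace
open Metric Set Filter Topology MeasureTheory
open Crest.GeometryTopology.CoordMetric
open Crest.Agent.N207.I Crest.Agent.N207.J Crest.Agent.N207.CB Crest.Agent.N207.Lg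

noncomputable section

namespace Crest.Agent.N207.L

/-- invariance of the solutions on the extended neck -/
def SymX (η1 : ℝ) : Prop :=
  ∀ (R : ℝ) (Γ : Subgroup Iso4) (η : ℝ) (p q F : IX → Md) (A B : IX → D), 1 ≤ R → η ≤ η1 →
    Sol NQ (xnk R (1 / 8)).τ (xnk R (1 / 8)).w (xnk R (1 / 8)).om η p q F →
    Dat (xnk R (1 / 8)) p q A B → (InvM Γ fun i => trD 1 (A i)) → (InvM Γ fun i => trD 1 (B i)) →
    ∀ x, (InvM Γ fun i k => p i k x) ∧ InvM Γ fun i k => q i k x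

theorem fn_cmp {p q : Md} {φ : ℝ → ℝ} {c s : ℝ} {x : J.E4} (hx : x ≠ 0)
    (h : φ (Real.log ‖x‖) = Real.log ‖x‖ + s - c) :
    fn c p q (Real.exp s • x) = fn 0 (cmpM p φ) (cmpM q φ) x := by
  have e : Real.log ‖Real.exp s • x‖ = Real.log ‖x‖ + s := by
    rw [norm_smul, Real.norm_of_nonneg (Real.exp_pos s).le,
      Real.log_mul (Real.exp_pos s).ne' (norm_ne_zero_iff.2 hx), Real.log_exp, add_comm]
  simp only [fn, ann, val, cmpM, e, prj_smul (Real.exp_pos s) hx, sub_zero, h]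

theorem uS_cmp {p q : IX → Md} {φ : ℝ → ℝ} {c s : ℝ} {x : J.E4} (hx : x ≠ 0)
    (h : φ (Real.log ‖x‖) = Real.log ‖x‖ + s - c) :
    uS c p q (Real.exp s • x) = reM (fun i => fn 0 (cmpV p φ i) (cmpV q φ i)) x := by
  ext a b
  exact congrArg Complex.re (fn_cmp hx h)

theorem asol_mono {Γ : Subgroup Iso4} {I : Set ℝ} {η η' en : ℝ} {u : MetricField 4}
    (h : ASol Γ I η en u) (hη : η ≤ η') : ASol Γ I η' en u :=
  { h with bd := Xh.b2_mono h.bd Subset.rfl hη }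

theorem xnk_tau {R κ x : ℝ} (hx : x ∈ Ioo (-R) R) : (xnk R κ).τ x = 1 := by
  simp [xnk, neck, ind_of_mem hx.1.le hx.2]

theorem kill_em1 (y : CB.DD) : piL kill (em1 y) = Sum.elim (fun e => kill (y e)) 0 := by
  funext i
  cases i with
  | inl e => rfl
  | inr _ => exact map_zero kill

/-- the collar input of the child -/
def bO (v : DD IX) : IX → J.E4 → ℂ := EF NQ 10 o8 (colL (1 / 8)) (bcut 1) v (QO v)

/-- the collar input of the parent -/
def bI (v : DD IX) : IX → J.E4 → ℂ := EF NQ 10 o8 (colR (1 / 8)) (bcut (-1)) v (QI v)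

theorem xn_core {η1 εO εI r0 l e η : ℝ} (hS : SymX η1) (hO : Xh.UO εO) (hI : Xh.UI εI)
    (r1 : 2 * r0 ≤ η1) (r2 : cS * (2 * r0) ≤ 1 / 8) (r3 : 2 * r0 < NQ.eta 10 o8)
    (r4 : cB 2 0 * (24 * r0) ≤ min εO (1 / 100)) (r5 : cB 2 0 * (24 * r0) ≤ min εI (1 / 100))
    (eO : e ≤ εO) (eI : e ≤ εI) {Γ : Subgroup Iso4} {y1 y2 : CB.DD} {p q F : IX → Md}
    {A B : IX → D} {v v' : DD IX} (hl : 1 ≤ l) (hη : η ≤ 2 * r0)
    (hs : Sol NQ (xnk (l + 3) (1 / 8)).τ (xnk (l + 3) (1 / 8)).w (xnk (l + 3) (1 / 8)).om η p q F)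
    (hdat : Dat (xnk (l + 3) (1 / 8)) p q A B) (iA : InvM Γ fun i => trD 1 (A i))
    (iB : InvM Γ fun i => trD 1 (B i)) (A0 : A (.inr ()) = 0)
    (pL : cmpV p (phL l) = (SL NQ (1 / 8) v).p (colL (1 / 8)))
    (qL : cmpV q (phL l) = (SL NQ (1 / 8) v).q (colL (1 / 8)))
    (pR : cmpV p (phR l) = (SR NQ (1 / 8) v').p (colR (1 / 8)))
    (qR : cmpV q (phR l) = (SR NQ (1 / 8) v').q (colR (1 / 8)))
    (n2 : ‖v‖ ≤ r0) (n3 : ‖v'‖ ≤ r0) (d1 : ∀ ab k, trD 1 (v.1 (.inl ab)) k = trD 1 (y1 ab) k)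
    (d2 : ∀ ab k, k ≠ 0 → trD 1 (v'.2 (.inl ab)) k = trD 1 (y2 ab) k) :
    ∃ (U : MetricField 4) (en : ℝ), ASol Γ (Ioo 1 (2 * l + 8 - 1)) (cS * η) en U ∧
      (ColO Γ e y1 U (reM (bO v)) ∧
        ∀ x, x ≠ 0 → ∀ a b, bO v (.inl (a, b)) x = cf (reM (bO v)) a b x) ∧
      (ColI Γ e y2 (fun x => U (Real.exp (2 * l + 8) • x)) (reM (bI v')) ∧
        ∀ x, x ≠ 0 → ∀ a b, bI v' (.inl (a, b)) x = cf (reM (bI v')) a b x) ∧
      enL (SR NQ (1 / 8) v') = ((Real.exp (-2 * (2 * l + 8)) * en : ℝ) : ℂ) := by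
  have k0 : (0 : ℝ) ≤ 1 / 8 := by norm_num
  have ok := ok_xnk (R := l + 3) (by linarith) k0 le_rfl
  have hi := hS _ Γ _ p q F _ _ (by linarith) (by linarith) hs hdat iA iB
  have hw : ∀ x, |(xnk (l + 3) (1 / 8)).w x| ≤ 1 := fun x => by
    rw [abs_of_pos (ok.w0 x)]; exact ok.w1 x
  have ho : ∀ x, |(xnk (l + 3) (1 / 8)).om x| ≤ 1 := fun x => by
    rw [abs_of_pos (o8_pos.trans_le (ok.o0 x))]; exact ok.o1 x
  obtain ⟨hint, hen⟩ := hs.energy (a := -(l + 3)) (b := l + 3) (by linarith)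
    (fun x hx => xnk_tau hx) ok.wc.continuousOn (fun x _ => hw x) (fun x _ => ho x) (l + 4)
    (.inr ())
  rw [show -(l + 3) + (l + 4) = 1 by ring, show l + 3 + (l + 4) = 2 * l + 8 - 1 by ring]
    at hint hen
  have cS0 : 0 < cS := one_pos.trans_le one_le_cS
  obtain ⟨en, hA, he⟩ := hs.asol (Γ := Γ) (I := Ioo (-(l + 3)) (l + 3)) (c := l + 4)
    (J := Ioo 1 (2 * l + 8 - 1)) isOpen_Ioo (fun x hx => xnk_tau hx)
    (fun t => by simp only [mem_Ioo]; constructor <;> rintro ⟨a, b⟩ <;> constructor <;> linarith)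
    (fun x _ => ho x) (fun x _ => hw x) (fun t _ => (hi t).1) (fun t _ => (hi t).2)
    ((mul_le_mul_of_nonneg_left hη cS0.le).trans r2) hint
  have cB0 := (cB_pos 2 0).le
  refine ⟨uS (l + 4) p q, en, hA, ?_, ?_, ?_⟩
  · refine Xh.colO_of hO k0 le_rfl (by linarith [norm_nonneg v])
      ((mul_le_mul_of_nonneg_left (by linarith) cB0).trans r4) eO (fun x _ => ?_)
      d1 (fun x hx => ?_) fun i => (col_L 1 (κ := 1 / 8) (C := 10) (by norm_num)
        le_rfl (by norm_num)).EF_smooth (contDiff_bcut 1) supp_bcut_L NQ rfl (by linarith) _ i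
    · rw [← pL, ← qL]; exact hi _
    · rw [← pL, ← qL, ← uS_cmp (s := 0) (c := l + 4) hx.1, Real.exp_zero, one_smul]
      rw [phL, cl_of_mem hx.2.1.le (by linarith [hx.2.2])]; ring
  · refine Xh.colI_of hI k0 le_rfl (by linarith [norm_nonneg v'])
      ((mul_le_mul_of_nonneg_left (by linarith) cB0).trans r5) eI (fun x _ => ?_)
      d2 (fun x hx => ?_) fun i => (col_R (-4) (κ := 1 / 8) (C := 10)
        (by norm_num) le_rfl (by norm_num)).EF_smooth (contDiff_bcut (-1)) supp_bcut_R NQ rfl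
        (by linarith) _ i
    · rw [← pR, ← qR]; exact hi _
    · rw [← pR, ← qR, ← uS_cmp (s := 2 * l + 8) (c := l + 4) hx.1]
      rw [phR, cl_of_mem (by linarith [hx.2.1]) (by linarith [hx.2.2])]; ring
  · have q0 : q (.inr ()) 0 (-(l + 3)) = 0 := by
      have := hdat.hq (.inr ()) 0
      rw [A0] at this
      exact this.trans (by simp [trD])
    have q1 : (SR NQ (1 / 8) v').q (colR (1 / 8)) (.inr ()) 0 (-4 + 3) =
        q (.inr ()) 0 (l + 3) := by rw [← qR, ← phR_b l]; rfl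
    have e3 : Real.exp (-2 * (2 * l + 8)) * Real.exp (2 * (2 * l + 8 - 1)) = Real.exp (-2) := by
      rw [← Real.exp_add]; congr 1; ring
    rw [enL_apply, q1, Complex.ofReal_mul (Real.exp _), he, hen, q0, inner_zero_right, ← e3]
    push_cast; ring

theorem symX : SymX (NQ.eta 10 o8 / 17) := fun R Γ η p q F A B hR hη hs hd hA hB x => by
  have := hs.sym (ok_xnk hR (by norm_num) le_rfl) o8_pos
    (fun x => ⟨ind (-R) R x, by simp [xnk, neck]⟩) (by linarith) hd hA (fun _ => hB) x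
  exact ⟨this.1, this.2.1⟩

theorem dR_dat (y : CB.DD × CB.DD) {u : D3 IX} (hk : piL keep u.2.2 = u.2.2) (ab : Fin 4 × Fin 4)
    {k : ℕ} (hk0 : k ≠ 0) : trD 1 ((dR (em2 y) u).2 (.inl ab)) k = trD 1 (y.2 ab) k := by
  have e1 : (dR (em2 y) u).2 (.inl ab) = keep (u.2.2 (.inl ab)) + kill (y.2 ab) := by
    rw [← piL_apply keep, hk]; rfl
  simp only [e1, trD, lp.coeFn_add, Pi.add_apply, keep_apply, kill_apply, if_neg hk0, zero_add]

/-- **the extended neck** -/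
theorem xns_of {εO εI : ℝ} (hεO : 0 < εO) (hO : Xh.UO εO) (hεI : 0 < εI) (hI : Xh.UI εI) :
    XNS := fun k => by
  have η0 := eta8_pos
  have cS0 : 0 < cS := one_pos.trans_le one_le_cS
  have cB0 := cB_pos 2 0
  obtain ⟨r0, r00, r1, r2, r4, r5, r6, r7⟩ : ∃ r0 : ℝ, 0 < r0 ∧ 2 * r0 ≤ NQ.eta 10 o8 / 17 ∧
      cS * (2 * r0) ≤ 1 / 8 ∧ cB 2 0 * (24 * r0) ≤ min εO (1 / 100) ∧
      cB 2 0 * (24 * r0) ≤ min εI (1 / 100) ∧ r0 ≤ εO ∧ r0 ≤ εI := by
    have t : ∀ a b : ℝ, 0 < b → ∀ᶠ r in 𝓝[>] (0 : ℝ), a * r ≤ b := fun a b hb =>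
      nhdsWithin_le_nhds (((continuous_const.mul continuous_id).tendsto' 0 0 (by simp)).eventually
        (eventually_le_nhds hb))
    obtain ⟨r, ⟨⟨⟨⟨⟨a1, a2⟩, a3⟩, a4⟩, a5⟩, a6⟩, a7⟩ := (((((((t 2 _ (by positivity :
      0 < NQ.eta 10 o8 / 17)).and (t (cS * 2) (1 / 8) (by norm_num))).and (t (cB 2 0 * 24) _
      (lt_min hεO (by norm_num : (0 : ℝ) < 1 / 100)))).and (t (cB 2 0 * 24) _
      (lt_min hεI (by norm_num : (0 : ℝ) < 1 / 100)))).and (t 1 _ hεO)).and (t 1 _ hεI)).and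
      self_mem_nhdsWithin).exists
    exact ⟨r, a7, a1, by linarith, by linarith, by linarith, by linarith, by linarith⟩
  obtain ⟨E, i1, i2, i3, Cd, N, co, ε, C, ℓ0, X, hD, ε0, ε1, C0, hX⟩ := exists_XD k r00
  have m : ∀ {a b : ℝ}, 0 ≤ b → a ≤ C * b → a ≤ (C + 2 * cS) * b := fun hb h =>
    h.trans (mul_le_mul_of_nonneg_right (by linarith) hb)
  refine ⟨⟨E, Cd, N, co, hD, ε, C + 2 * cS, ℓ0, ε0, X, hX.hol, fun p hp => ?_, hX.cpx,
    fun Γ ℓ hℓ y hy hc hp c1 c2 p1 p2 => ?_⟩⟩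
  · obtain ⟨a, b, c⟩ := hX.bd p hp
    exact ⟨m (by positivity) a, m (by positivity) b, by linarith⟩
  obtain ⟨u, hl, hd, hk, n1, n2, n3, v1, v2, v3⟩ := hX.real ℓ hℓ y hy
  have k0 : (0 : ℝ) ≤ 1 / 8 := by norm_num
  have iA : InvM Γ fun i => trD 1 ((em2 y).1 i) := by
    have := dinv_datQ isOpen_Ioo c1 (by norm_num) (t := 1) (by norm_num) c2
    rwa [← em1_apply] at this
  have iB : InvM Γ fun i => trD 1 (piL kill (em2 y).2 i) := by
    have := dinv_datP isOpen_Ioo p1 (by norm_num) (t := -1) (by norm_num) p2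
      (y' := fun e => kill (y.2 e)) fun ab k => trD_kill _ _ _
    rwa [← kill_em1] at this
  have n4 : ‖em2 y‖ ≤ NQ.eta 10 o8 := by linarith
  obtain ⟨U, en, hA, ⟨cO, fO⟩, ⟨cI, fI⟩, he⟩ := xn_core symX hO hI r1 r2 (by linarith) r4 r5
    (ε1.trans r6) (ε1.trans r7) (y1 := y.1) (y2 := y.2) hl (by linarith)
    (XS_sol k0 le_rfl hl n4) (XS_dat NQ k0 le_rfl hl (em2 y)) iA iB rfl hd.pL hd.qL hd.pR hd.qR
    n2 n3 (fun _ _ => rfl) fun ab k hk0 => dR_dat y hk ab hk0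
  rw [show 2 * ((ℓ - 8) / 2) + 8 = ℓ by ring] at hA cI he
  refine ⟨U, _, _, en, asol_mono hA ?_, cO, cI, Xh.lfJ_of fO v1, Xh.lfJ_of fI v2, v3.trans he⟩
  have a1 := mul_le_mul_of_nonneg_left (norm_em2_le y) cS0.le
  have a2 := norm_nonneg y
  have a3 := norm_nonneg (N ℓ - co 0 0)
  nlinarith [mul_nonneg C0.le a2, mul_nonneg C0.le a3, mul_nonneg cS0.le a3]

/-- **leaf XNS** -/
theorem xns : XNS := by
  obtain ⟨εO, hεO, hO⟩ := Xh.uo
  obtain ⟨εI, hεI, hI⟩ := Xh.ui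
  exact xns_of hεO hO hεI hI

end Crest.Agent.N207.L
end
end

-- ▼ part N207/L/Xy

/-! # N207/L/Xy (helper59): the root end -/

set_option autoImplicit false
set_option maxHeartbeats 800000

open scoped ContDiff InnerProductSpace
open Metric Set Filter Topology MeasureTheory
open Crest.GeometryTopology.CoordMetric
open Crest.Agent.N207.I Crest.Agent.N207.J Crest.Agent.N207.CB Crest.Agent.N207.Lg

noncomputable section

namespace Crest.Agent.N207.L.Xy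

/-- the integrand of the action -/
def gg (X : CL) (s : ℝ) : ℂ := ((Real.exp (2 * (s + 0)) : ℝ) : ℂ) *
  ⟪toH 1, tru 4 (fun x => (hnk (1 / 8)).w x ^ 2) (hnk (1 / 8)).om X 0 s⟫_ℂ

theorem okH : (hnk (1 / 8)).Ok 10 o8 := ok_hnk (by norm_num) le_rfl

theorem gg_le (X : CL) {s : ℝ} (hs : s ∈ Ioi (1 : ℝ)) :
    ‖gg X s‖ ≤ Real.exp 3 * ‖toH 1‖ * ‖X‖ * Real.exp (-1 * s) := by
  have h1 : ‖tru 4 (fun x => (hnk (1 / 8)).w x ^ 2) (hnk (1 / 8)).om X 0 s‖ ≤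
      Real.exp (-3 * (s - 1)) * ‖X‖ := by
    have e : (hnk (1 / 8)).w s ^ 2 = Real.exp (-3 * (s - 1)) := by
      rw [hnk_w, max_eq_right (le_of_lt hs), pow_two, ← Real.exp_add]; congr 1; ring
    have h2 : ‖P 0 (X 0 s)‖ ≤ ‖X‖ := (norm_P_le _ _).trans
      (((X 0).norm_coe_le_norm s).trans (lp.norm_apply_le_norm (by norm_num) X 0))
    simp only [tru, e, wt, pow_zero, mul_one, Nat.cast_zero, zero_add, Real.one_rpow, div_one,
      norm_smul, Complex.norm_real, Real.norm_of_nonneg (Real.exp_pos _).le]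
    gcongr
  have e2 : Real.exp (2 * (s + 0)) * Real.exp (-3 * (s - 1)) = Real.exp 3 * Real.exp (-1 * s) := by
    rw [← Real.exp_add, ← Real.exp_add]; congr 1; ring
  rw [gg, norm_mul, Complex.norm_real, Real.norm_of_nonneg (Real.exp_pos _).le]
  calc _ ≤ Real.exp (2 * (s + 0)) * (‖toH 1‖ * (Real.exp (-3 * (s - 1)) * ‖X‖)) := by
        gcongr
        exact (norm_inner_le_norm _ _).trans (by gcongr)
    _ = Real.exp (2 * (s + 0)) * Real.exp (-3 * (s - 1)) * (‖toH 1‖ * ‖X‖) := by ring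
    _ = _ := by rw [e2]; ring

theorem gg_int (X : CL) : IntegrableOn (gg X) (Ioi 1) := by
  have hc : Continuous (gg X) := by
    have := cont_tru (σ := 4) (okH.wc.pow 2) okH.oc X 0
    unfold gg; fun_prop
  refine Integrable.mono' (((exp_neg_integrableOn_Ioi 1 one_pos).const_mul
    (Real.exp 3 * ‖toH 1‖ * ‖X‖))) hc.aestronglyMeasurable ?_
  exact (ae_restrict_iff' measurableSet_Ioi).2 (Eventually.of_forall fun s hs => gg_le X hs)

/-- the action of the half line -/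
def enH : CL →L[ℂ] ℂ :=
  LinearMap.mkContinuous
    { toFun := fun X => ∫ s in Ioi 1, gg X s
      map_add' := fun X Y => by
        rw [← integral_add (gg_int X) (gg_int Y)]
        simp only [gg, tru_add, inner_add_right, mul_add]
      map_smul' := fun c X => by
        rw [RingHom.id_apply, ← integral_smul]
        simp only [gg, tru_smul, inner_smul_right, smul_eq_mul, mul_left_comm] }
    (Real.exp 3 * ‖toH 1‖ * ∫ s in Ioi (1 : ℝ), Real.exp (-1 * s)) fun X => by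
      refine (norm_integral_le_of_norm_le ((exp_neg_integrableOn_Ioi 1 one_pos).const_mul
        (Real.exp 3 * ‖toH 1‖ * ‖X‖)) ((ae_restrict_iff' measurableSet_Ioi).2
          (Eventually.of_forall fun s hs => gg_le X hs))).trans_eq ?_
      rw [integral_const_mul]; ring

theorem tauH {x : ℝ} (hx : x ∈ Ioi (1 : ℝ)) : (hnk (1 / 8)).τ x = 1 := if_pos (le_of_lt hx)

theorem core {εO r0 e η : ℝ} (hO : Xh.UO εO) (r1 : 17 * (2 * r0) ≤ NQ.eta 10 o8)
    (r2 : cS * (2 * r0) ≤ 1 / 8) (r4 : cB 2 0 * (24 * r0) ≤ min εO (1 / 100)) (eO : e ≤ εO)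
    {Γ : Subgroup Iso4} {y : CB.DD} {p q F : IX → Md} {A : IX → D} {v : DD IX} (hη : η ≤ 2 * r0)
    (hs : Sol NQ (hnk (1 / 8)).τ (hnk (1 / 8)).w (hnk (1 / 8)).om η p q F)
    (hdat : Dat (hnk (1 / 8)) p q A 0) (iA : InvM Γ fun i => trD 1 (A i))
    (pL : cmpV p (cl 1 (1 + 3)) = (SL NQ (1 / 8) v).p (colL (1 / 8)))
    (qL : cmpV q (cl 1 (1 + 3)) = (SL NQ (1 / 8) v).q (colL (1 / 8)))
    (n2 : ‖v‖ ≤ r0) (d1 : ∀ ab k, trD 1 (v.1 (.inl ab)) k = trD 1 (y ab) k) :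
    ∃ (U : MetricField 4) (en : ℝ), ASol Γ (Ioi 1) (cS * η) en U ∧
      (ColO Γ e y U (reM (bO v)) ∧
        ∀ x, x ≠ 0 → ∀ a b, bO v (.inl (a, b)) x = cf (reM (bO v)) a b x) ∧
      (en : ℂ) = ∫ s in Ioi 1, ((Real.exp (2 * (s + 0)) : ℝ) : ℂ) * ⟪toH 1, F (.inr ()) 0 s⟫_ℂ ∧
      ∀ x ∈ An (Ioi 1), ∀ j ≤ 2, ∀ a b, ‖x‖ ^ j * ‖iteratedFDeriv ℝ j (fun z => U z a b) x‖ ≤
        cS * η * (Real.exp 4 / ‖x‖) ^ (3 / 2 : ℝ) := by
  have k0 : (0 : ℝ) ≤ 1 / 8 := by norm_num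
  have η0 := eta8_pos
  have hi := hs.sym (Γ := Γ) okH o8_pos (fun x => ⟨if 1 ≤ x then 1 else 0, by
    change (if 1 ≤ x then (1 : ℂ) else 0) = _; split_ifs <;> simp⟩) (by linarith) hdat iA
    fun h => by cases h
  have hw : ∀ x, |(hnk (1 / 8)).w x| ≤ 1 := fun x => by
    rw [abs_of_pos (okH.w0 x)]; exact okH.w1 x
  have hw' : ∀ x ∈ Ioi (1 : ℝ), |(hnk (1 / 8)).w x| ≤ Real.exp (-(3 / 2) * (x - 1)) :=
    fun x hx => by rw [abs_of_pos (okH.w0 x), hnk_w, max_eq_right (le_of_lt hx)]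
  have ho : ∀ x, |(hnk (1 / 8)).om x| ≤ 1 := fun x => by
    rw [abs_of_pos (o8_pos.trans_le (okH.o0 x))]; exact okH.o1 x
  obtain ⟨hint, hen⟩ := hs.energy_half hw' (fun x _ => ho x) okH.wc.continuousOn 0 (.inr ())
  rw [add_zero] at hint hen
  have cS0 : 0 < cS := one_pos.trans_le one_le_cS
  obtain ⟨en, hA, he⟩ := hs.asol (Γ := Γ) (I := Ioi 1) (c := 0) (J := Ioi 1) isOpen_Ioi
    (fun x hx => tauH hx) (fun t => by rw [sub_zero]) (fun x _ => ho x) (fun x _ => hw x)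
    (fun t _ => (hi t).1) (fun t _ => (hi t).2.1)
    ((mul_le_mul_of_nonneg_left hη cS0.le).trans r2) hint
  have cB0 := (cB_pos 2 0).le
  refine ⟨uS 0 p q, en, hA, ?_, he.trans hen, fun x hx j hj a b =>
    hs.uS_dec (fun x hx => tauH hx) (fun x _ => ho x) hw' hx hj a b⟩
  refine Xh.colO_of hO k0 le_rfl (by linarith [norm_nonneg v])
    ((mul_le_mul_of_nonneg_left (by linarith) cB0).trans r4) eO (fun x _ => ?_)
    d1 (fun x hx => ?_) fun i => (col_L 1 (κ := 1 / 8) (C := 10) (by norm_num)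
      le_rfl (by norm_num)).EF_smooth (contDiff_bcut 1) supp_bcut_L NQ rfl
        (by linarith [norm_nonneg v]) _ i
  · rw [← pL, ← qL]; exact ⟨(hi _).1, (hi _).2.1⟩
  · rw [← pL, ← qL, ← uS_cmp (s := 0) (c := 0) hx.1, Real.exp_zero, one_smul]
    rw [cl_of_mem hx.2.1.le (by linarith [hx.2.2])]; ring

/-- **leaf XHS** -/
theorem xhs : XHS := fun k => by
  obtain ⟨εO, hεO, hO⟩ := Xh.uo
  have k0 : (0 : ℝ) ≤ 1 / 8 := by norm_num
  have η0 := eta8_pos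
  have cS0 : 0 < cS := one_pos.trans_le one_le_cS
  have cB0 := cB_pos 2 0
  obtain ⟨r0, r00, r1, r2, r4, r6, r7⟩ : ∃ r0 : ℝ, 0 < r0 ∧ 17 * (2 * r0) ≤ NQ.eta 10 o8 ∧
      cS * (2 * r0) ≤ 1 / 8 ∧ cB 2 0 * (24 * r0) ≤ min εO (1 / 100) ∧ r0 ≤ εO ∧ r0 ≤ 1 := by
    have t : ∀ a b : ℝ, 0 < b → ∀ᶠ r in 𝓝[>] (0 : ℝ), a * r ≤ b := fun a b hb =>
      nhdsWithin_le_nhds (((continuous_const.mul continuous_id).tendsto' 0 0 (by simp)).eventually
        (eventually_le_nhds hb))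
    obtain ⟨r, ⟨⟨⟨⟨a1, a2⟩, a3⟩, a5⟩, a6⟩, a7⟩ := ((((((t 34 _ η0).and
      (t (cS * 2) (1 / 8) (by norm_num))).and (t (cB 2 0 * 24) _
      (lt_min hεO (by norm_num : (0 : ℝ) < 1 / 100)))).and (t 1 _ hεO)).and (t 1 _ one_pos)).and
      self_mem_nhdsWithin).exists
    exact ⟨r, a7, by linarith, by linarith, by linarith, by linarith, by linarith⟩
  obtain ⟨KO, BO, hKO, dO, hB⟩ := (col_L 1 (κ := 1 / 8) (C := 10) (by norm_num) le_rfl
    (by norm_num)).e2M supp_bcut_L k NQ Sum.inl QO (γ := colL (1 / 8)) rfl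
  have K2 := NQ.K2_pos (okH.wts o8_pos)
  have nE := norm_nonneg enH
  have hy : ∀ y ∈ ball (0 : CB.DD) (r0 / 2), ‖em1 y‖ ≤ ‖y‖ ∧ ‖y‖ < r0 / 2 := fun y h =>
    ⟨norm_em1_le y, mem_ball_zero_iff.1 h⟩
  have hm : ∀ y ∈ ball (0 : CB.DD) (r0 / 2), 2 * ‖em1 y‖ ≤ NQ.eta 10 o8 := fun y h => by
    linarith [(hy y h).1, (hy y h).2]
  have he : ∀ y ∈ ball (0 : CB.DD) (r0 / 2), ‖em1 y‖ < NQ.eta 10 o8 := fun y h => by
    linarith [(hy y h).1, (hy y h).2]
  have hv : ∀ y ∈ ball (0 : CB.DD) (r0 / 2), ‖((em1 y, uH NQ (1 / 8) (em1 y)) : DD IX)‖ ≤ 2 * ‖y‖ :=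
    fun y h => (hnk_match k0 le_rfl (hm y h)).1.trans (by linarith [(hy y h).1])
  have mb : ∀ y ∈ ball (0 : CB.DD) (r0 / 2), ((em1 y, uH NQ (1 / 8) (em1 y)) : DD IX) ∈
      ball (0 : DD IX) (NQ.eta 10 o8 / 2) := fun y h =>
    mem_ball_zero_iff.2 ((hv y h).trans_lt (by linarith [(hy y h).2]))
  have me : MapsTo em1 (ball (0 : CB.DD) (r0 / 2)) (ball 0 (NQ.eta 10 o8)) := fun y h =>
    mem_ball_zero_iff.2 (he y h)
  obtain ⟨C1, hC1⟩ : ∃ C1, C1 = KO * (81 * NQ.K2 o8 + 4) := ⟨_, rfl⟩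
  have C10 : 0 < C1 := by rw [hC1]; positivity
  refine ⟨⟨r0 / 2, C1 + ‖enH‖ + 2 * cS, by positivity, fun y =>
    (BO (em1 y, uH NQ (1 / 8) (em1 y)), enH ((HS NQ (1 / 8) (em1 y)).2.2 (.inr ()))), ?_,
    fun y h => ⟨?_, ?_⟩, fun y h => (hB _ (mb y h)).2.1, fun Γ y h hc c1 c2 => ?_⟩⟩
  · have d0 := (diffOn_uH (N := NQ) k0 le_rfl).comp em1.differentiableOn me
    have d1 : DifferentiableOn ℂ (fun y : CB.DD => ((em1 y, uH NQ (1 / 8) (em1 y)) : DD IX))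
        (ball 0 (r0 / 2)) := em1.differentiableOn.prodMk d0
    have d2 := (diffOn_HS (N := NQ) k0 le_rfl).comp em1.differentiableOn me
    have d3 : DifferentiableOn ℂ (fun y : CB.DD => (HS NQ (1 / 8) (em1 y)).2.2 (.inr ()))
        (ball 0 (r0 / 2)) := differentiableOn_pi.1 d2.snd.snd (.inr ())
    have d4 : DifferentiableOn ℂ (fun y : CB.DD => BO (em1 y, uH NQ (1 / 8) (em1 y)))
        (ball 0 (r0 / 2)) := dO.comp d1 mb
    have d5 : DifferentiableOn ℂ (fun y : CB.DD => enH ((HS NQ (1 / 8) (em1 y)).2.2 (.inr ())))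
        (ball 0 (r0 / 2)) := enH.differentiable.comp_differentiableOn d3
    exact d4.prodMk d5
  · have a1 := (hB _ (mb y h)).1
    rw [norm_sub_QO] at a1
    have a2 := (norm_uH_le k0 le_rfl (he y h).le).trans (mul_le_mul_of_nonneg_left
      (pow_le_pow_left₀ (norm_nonneg _) (hy y h).1 2) (by positivity))
    have a3 := pow_le_pow_left₀ (norm_nonneg _) (hv y h) 2
    refine (a1.trans (mul_le_mul_of_nonneg_left (add_le_add a2 a3) hKO.le)).trans ?_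
    have : 0 ≤ (‖enH‖ + 2 * cS) * ‖y‖ ^ 2 := by positivity
    rw [hC1]; nlinarith
  · have a1 : ‖(HS NQ (1 / 8) (em1 y)).2.2 (.inr ())‖ ≤ 1 :=
      (Tr.norm_F _ _).trans ((NL.norm_sol okH o8_pos ((norm_pr0 _).trans_le (he y h).le)).trans (by
        rw [norm_pr0]; linarith [(hy y h).1, (hy y h).2]))
    refine (enH.le_opNorm _).trans ((mul_le_mul_of_nonneg_left a1 nE).trans (by linarith))
  · have iA : InvM Γ fun i => trD 1 (em1 y i) := by
      have := dinv_datQ isOpen_Ioo c1 (by norm_num) (t := 1) (by norm_num) c2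
      rwa [← em1_apply] at this
    obtain ⟨-, pL, qL, -⟩ := hnk_match (N := NQ) k0 le_rfl (hm y h)
    obtain ⟨U, en, hA, ⟨cO, fO⟩, hen, hd⟩ := core hO r1 r2 r4 (e := r0 / 2) (by linarith) (y := y)
      (by linarith [(hy y h).1, (hy y h).2]) (HS_sol k0 le_rfl (he y h).le)
      (HS_dat NQ k0 le_rfl (em1 y)) iA pL qL ((hv y h).trans (by linarith [(hy y h).2]))
      fun _ _ => rfl
    have a1 : cS * (2 * ‖em1 y‖) ≤ (C1 + ‖enH‖ + 2 * cS) * ‖y‖ := by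
      nlinarith [mul_le_mul_of_nonneg_left (hy y h).1 cS0.le, mul_nonneg C10.le (norm_nonneg y),
        mul_nonneg nE (norm_nonneg y)]
    refine ⟨U, _, en, asol_mono hA a1, cO, Xh.lfJ_of fO (hB _ (mb y h)).2.2.2, hen.symm,
      fun x hx j hj a b => (hd x hx j hj a b).trans ?_⟩
    exact mul_le_mul_of_nonneg_right a1 (by positivity)

end Crest.Agent.N207.L.Xy
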